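import Vale.Agent.P073.MOS.Surf

/-!
# P073, block MOS: sets which are locally a cycle of quarter planes; non-overlapping rectangles

`RectLocal F`: near each of its points `F` is the union of the quarter planes of one simple cycle of
half axes.  If such a set is covered by a locally finite family of non-overlapping rectangles then
it is a rectangular surface.
-/

open Set Metric Topology Function Filter

namespace P073.MOS

/-- the closed quarter plane at `p` spanned by `h`, `h'` -/
def quarter (p : V3) (h h' : HA) : Set V3 :=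
  {z | ∃ s t : ℝ, 0 ≤ s ∧ 0 ≤ t ∧ z = p + s • hv h + t • hv h'}

/-- in the (sup) ball of radius `ε` around `p` the set `F` is the union of the quarter planes at `p`
which belong to the cycle `Q` -/
structure NearCyc (F : Set V3) (p : V3) (ε : ℝ) (Q : HA → HA → Prop) : Prop where
  cyc : IsCyc Q
  ne : ∀ h h', Q h h' → h.1 ≠ h'.1
  iff : ∀ z, dist z p < ε → (z ∈ F ↔ ∃ h h', Q h h' ∧ z ∈ quarter p h h')

/-- **Rectilinear surfaces**: near each of its points `F` is the union of the quarter planes of one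
simple cycle of half axes. -/
def RectLocal (F : Set V3) : Prop := ∀ p ∈ F, ∃ ε > 0, ∃ Q, NearCyc F p ε Q

/-! ### coordinates of the points of quarter planes -/

theorem sg_eq (h : HA) : sg h = 1 ∨ sg h = -1 := by
  unfold sg
  split_ifs <;> simp

theorem sg_sq (h : HA) : sg h * sg h = 1 := by
  rcases sg_eq h with h | h <;> rw [h] <;> norm_num

theorem hv_same (h : HA) : hv h h.1 = sg h := by
  unfold hv; rw [Pi.single_eq_same]

theorem hv_ne {h : HA} {k : Fin 3} (hk : k ≠ h.1) : hv h k = 0 := by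
  unfold hv; rw [Pi.single_eq_of_ne hk]

theorem qpt_apply (p : V3) (s t : ℝ) (h h' : HA) (k : Fin 3) :
    (p + s • hv h + t • hv h') k = p k + s * hv h k + t * hv h' k := by
  simp

theorem qpt_left {p : V3} {s t : ℝ} {h h' : HA} (hne : h.1 ≠ h'.1) :
    (p + s • hv h + t • hv h') h.1 = p h.1 + s * sg h := by
  rw [qpt_apply, hv_same, hv_ne hne, mul_zero, add_zero]

theorem qpt_right {p : V3} {s t : ℝ} {h h' : HA} (hne : h.1 ≠ h'.1) :
    (p + s • hv h + t • hv h') h'.1 = p h'.1 + t * sg h' := by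
  rw [qpt_apply, hv_same, hv_ne hne.symm, mul_zero, add_zero]

theorem qpt_other {p : V3} {s t : ℝ} {h h' : HA} {k : Fin 3} (h1 : k ≠ h.1) (h2 : k ≠ h'.1) :
    (p + s • hv h + t • hv h') k = p k := by
  rw [qpt_apply, hv_ne h1, hv_ne h2, mul_zero, mul_zero, add_zero, add_zero]

theorem quarter_comm (p : V3) (h h' : HA) : quarter p h h' = quarter p h' h := by
  ext z
  constructor <;> rintro ⟨s, t, hs, ht, rfl⟩ <;> exact ⟨t, s, ht, hs, by abel⟩

theorem sg_inj {h h' : HA} (h1 : h.1 = h'.1) (h2 : sg h = sg h') : h = h' := by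
  obtain ⟨k, b⟩ := h
  obtain ⟨k', b'⟩ := h'
  obtain rfl : k = k' := h1
  cases b <;> cases b' <;> simp [sg] at h2 ⊢ <;> norm_num at h2

/-- a point in the relative interior of a quarter plane lies in no other quarter plane -/
theorem quarter_unique {p : V3} {s t : ℝ} {h h' g g' : HA} (hs : 0 < s) (ht : 0 < t)
    (hne : h.1 ≠ h'.1) (gne : g.1 ≠ g'.1) (H : p + s • hv h + t • hv h' ∈ quarter p g g') :
    (g = h ∧ g' = h') ∨ (g = h' ∧ g' = h) := by
  -- both `h` and `h'` are among `g`, `g'`
  have key : ∀ {h h' : HA} {s t : ℝ}, 0 < s → h.1 ≠ h'.1 →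
      p + s • hv h + t • hv h' ∈ quarter p g g' → g = h ∨ g' = h := by
    intro h h' s t hs hne H
    obtain ⟨a, b, ha, hb, e⟩ := H
    have e1 := congrFun e h.1
    rw [qpt_left hne, qpt_apply] at e1
    by_cases h1 : h.1 = g.1
    · left
      rw [h1, hv_same, hv_ne gne, mul_zero, add_zero, add_right_inj] at e1
      refine (sg_inj h1 ?_).symm
      rcases sg_eq h with e2 | e2 <;> rcases sg_eq g with e3 | e3 <;> rw [e2, e3] at e1 ⊢ <;>
        linarith
    · by_cases h2 : h.1 = g'.1
      · right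
        rw [h2, hv_same, hv_ne gne.symm, mul_zero, add_zero, add_right_inj] at e1
        refine (sg_inj h2 ?_).symm
        rcases sg_eq h with e2 | e2 <;> rcases sg_eq g' with e3 | e3 <;> rw [e2, e3] at e1 ⊢ <;>
          linarith
      · exfalso
        rw [hv_ne h1, hv_ne h2, mul_zero, mul_zero, add_zero, add_zero] at e1
        rcases sg_eq h with e2 | e2 <;> rw [e2] at e1 <;> linarith
  have h1 := key hs hne H
  have h2 := key (h := h') (h' := h) (s := t) (t := s) ht hne.symm
    (by rwa [add_right_comm] at H)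
  rcases h1 with h1 | h1 <;> rcases h2 with h2 | h2
  · exact absurd (congrArg Prod.fst (h1.symm.trans h2)) hne
  · exact Or.inl ⟨h1, h2⟩
  · exact Or.inr ⟨h2, h1⟩
  · exact absurd (congrArg Prod.fst (h1.symm.trans h2)) hne

theorem dist_qpt_le {p : V3} {s t r : ℝ} {h h' : HA} (hs : 0 ≤ s) (ht : 0 ≤ t) (hsr : s ≤ r)
    (htr : t ≤ r) (hne : h.1 ≠ h'.1) : dist (p + s • hv h + t • hv h') p ≤ r := by
  rw [dist_pi_le_iff (hs.trans hsr)]
  intro k
  rw [Real.dist_eq]
  have habs : ∀ h : HA, |sg h| = 1 := fun h => by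
    rcases sg_eq h with e | e <;> rw [e] <;> simp
  by_cases h1 : k = h.1
  · rw [h1, qpt_left hne, add_sub_cancel_left, abs_mul, habs, mul_one, abs_of_nonneg hs]
    exact hsr
  · by_cases h2 : k = h'.1
    · rw [h2, qpt_right hne, add_sub_cancel_left, abs_mul, habs, mul_one, abs_of_nonneg ht]
      exact htr
    · rw [qpt_other h1 h2, sub_self, abs_zero]
      exact hs.trans hsr

namespace Rects

variable {S : Rects} {a b : S.A} {z w : V3} {h h' : HA}

/-- the relative interior of a rectangle -/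
def rint (S : Rects) (a : S.A) : Set V3 :=
  {x | x (S.nrm a) = S.lo a (S.nrm a) ∧ ∀ k, k ≠ S.nrm a → S.lo a k < x k ∧ x k < S.hi a k}

theorem rint_subset (a : S.A) : S.rint a ⊆ S.rect a := by
  rw [rect_eq]
  exact fun x hx => ⟨hx.1, fun k hk => ⟨(hx.2 k hk).1.le, (hx.2 k hk).2.le⟩⟩

/-- how far the rectangle extends from `z` in direction `h` -/
def mar (S : Rects) (a : S.A) (z : V3) (h : HA) : ℝ :=
  if h.2 then S.hi a h.1 - z h.1 else z h.1 - S.lo a h.1

theorem ext_iff_mar : S.Ext a z h ↔ 0 < S.mar a z h := by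
  unfold Rects.Ext mar
  split_ifs <;> rw [sub_pos]

theorem coord_of_mar {t : ℝ} (ht : 0 < t) (htm : t < S.mar a z h)
    (hz : z ∈ S.rect a) : S.lo a h.1 < z h.1 + t * sg h ∧ z h.1 + t * sg h < S.hi a h.1 := by
  have h1 := mem_rect.1 hz h.1
  obtain ⟨k, b⟩ := h
  cases b
  · simp only [mar, sg] at htm ⊢
    norm_num at htm ⊢
    simp only at h1
    constructor <;> linarith
  · simp only [mar, sg] at htm ⊢
    norm_num at htm ⊢
    simp only at h1
    constructor <;> linarith

/-- near `z` the points of an occupied quarter plane lie in the relative interior -/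
theorem Occ.mem_rint (H : S.Occ a z h h') {s t : ℝ} (hs : 0 < s) (ht : 0 < t)
    (hsm : s < S.mar a z h) (htm : t < S.mar a z h') :
    z + s • hv h + t • hv h' ∈ S.rint a := by
  obtain ⟨hz, hne, H1, H2⟩ := H
  have n1 := H1.ne_nrm hz
  have n2 := H2.ne_nrm hz
  refine ⟨?_, fun k hk => ?_⟩
  · rw [qpt_other n1.symm n2.symm]
    have := mem_rect.1 hz (S.nrm a)
    rw [← S.flat a] at this
    exact le_antisymm this.2 this.1
  · rcases fin3_cases hne n1 n2 k with h1 | h1 | h1
    · rw [h1, qpt_left hne]; exact coord_of_mar hs hsm hz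
    · rw [h1, qpt_right hne]; exact coord_of_mar ht htm hz
    · exact absurd h1 hk

theorem Occ.nrm_eq (Ha : S.Occ a z h h') (Hb : S.Occ b z h h') : S.nrm a = S.nrm b := by
  have n1 := Ha.2.2.1.ne_nrm Ha.1
  have n2 := Ha.2.2.2.ne_nrm Ha.1
  have n3 := Hb.2.2.1.ne_nrm Hb.1
  have n4 := Hb.2.2.2.ne_nrm Hb.1
  rcases fin3_cases Ha.2.1 n1 n2 (S.nrm b) with h | h | h
  · exact absurd h.symm n3
  · exact absurd h.symm n4
  · exact h.symm

/-- if a point `z + t hv h + t hv h'`, `t > 0`, and `z` lie in the rectangle then the quarter plane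
is occupied -/
theorem occ_of_mem (hz : z ∈ S.rect a) (hne : h.1 ≠ h'.1) {t : ℝ} (ht : 0 < t)
    (H : z + t • hv h + t • hv h' ∈ S.rect a) : S.Occ a z h h' := by
  have h1 := mem_rect.1 H h.1
  have h2 := mem_rect.1 H h'.1
  rw [qpt_left hne] at h1
  rw [qpt_right hne] at h2
  have key : ∀ h : HA, S.lo a h.1 ≤ z h.1 + t * sg h ∧ z h.1 + t * sg h ≤ S.hi a h.1 →
      S.Ext a z h := by
    intro h hh
    obtain ⟨k, b⟩ := h
    cases b
    · rw [ext_false]
      simp only [sg] at hh
      norm_num at hh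
      linarith
    · rw [ext_true]
      simp only [sg] at hh
      norm_num at hh
      linarith
  exact ⟨hz, hne, key h h1, key h' h2⟩

end Rects

open Rects

theorem isClosed_rect (S : Rects) (a : S.A) : IsClosed (S.rect a) := isClosed_Icc

/-- **Criterion**: a rectilinear surface covered by a locally finite family of non-overlapping
rectangles is a rectangular surface. -/
theorem RectSurf.of_local {F : Set V3} (hF : RectLocal F) {S : Rects}
    (cover : ⋃ a, S.rect a = F)
    (fin : ∀ z ∈ F, ∃ U ∈ 𝓝 z, {a | (S.rect a ∩ U).Nonempty}.Finite)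
    (no : ∀ a b, S.nrm a = S.nrm b → (S.rint a ∩ S.rint b).Nonempty → a = b) :
    RectSurf F S := by
  refine ⟨cover, fin, ?_, ?_⟩
  · intro a b z h h' Ha Hb
    refine no a b (Ha.nrm_eq Hb) ?_
    have m1 := ext_iff_mar.1 Ha.2.2.1
    have m2 := ext_iff_mar.1 Ha.2.2.2
    have m3 := ext_iff_mar.1 Hb.2.2.1
    have m4 := ext_iff_mar.1 Hb.2.2.2
    obtain ⟨t, ht, htm⟩ := exists_between (lt_min (lt_min m1 m2) (lt_min m3 m4))
    rw [lt_min_iff, lt_min_iff, lt_min_iff] at htm
    exact ⟨_, Ha.mem_rint ht ht htm.1.1 htm.1.2, Hb.mem_rint ht ht htm.2.1 htm.2.2⟩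
  · intro z hz
    obtain ⟨ε, hε, Q, hQ⟩ := hF z hz
    have key : ∀ h h', S.Adj z h h' ↔ Q h h' := by
      intro h h'
      constructor
      · rintro ⟨a, Ha⟩
        have m1 := ext_iff_mar.1 Ha.2.2.1
        have m2 := ext_iff_mar.1 Ha.2.2.2
        obtain ⟨t, ht, htm⟩ := exists_between (lt_min (lt_min m1 m2) hε)
        rw [lt_min_iff, lt_min_iff] at htm
        have h1 := Ha.mem_rint ht ht htm.1.1 htm.1.2
        have h2 : z + t • hv h + t • hv h' ∈ F := by
          rw [← cover]
          exact mem_iUnion_of_mem a (rint_subset a h1)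
        obtain ⟨g, g', hg, hg'⟩ := (hQ.iff _ (lt_of_le_of_lt
          (dist_qpt_le ht.le ht.le le_rfl le_rfl Ha.2.1) htm.2)).1 h2
        rcases quarter_unique ht ht Ha.2.1 (hQ.ne _ _ hg) hg' with ⟨rfl, rfl⟩ | ⟨rfl, rfl⟩
        · exact hg
        · exact hQ.cyc.symm hg
      · intro H
        have hne := hQ.ne _ _ H
        obtain ⟨U, hU, hfin⟩ := fin z hz
        -- the points `x t`
        let x : ℝ → V3 := fun t => z + t • hv h + t • hv h'
        have hx : Tendsto x (𝓝[>] 0) (𝓝 z) := by
          have h1 : Tendsto x (𝓝 0) (𝓝 (x 0)) := by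
            apply Continuous.tendsto
            fun_prop
          have h2 : x 0 = z := by simp [x]
          rw [h2] at h1
          exact h1.mono_left nhdsWithin_le_nhds
        have hxF : ∀ᶠ t in 𝓝[>] (0:ℝ), x t ∈ F := by
          filter_upwards [Ioo_mem_nhdsGT hε] with t ht
          refine (hQ.iff _ (lt_of_le_of_lt (dist_qpt_le ht.1.le ht.1.le le_rfl le_rfl hne)
            ht.2)).2 ⟨h, h', H, t, t, ht.1.le, ht.1.le, rfl⟩
        obtain ⟨a, ha⟩ : ∃ a, ∃ᶠ t in 𝓝[>] (0:ℝ), x t ∈ S.rect a := by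
          by_contra hcon
          push Not at hcon
          have h1 : ∀ᶠ t in 𝓝[>] (0:ℝ), ∀ a ∈ {a | (S.rect a ∩ U).Nonempty}, x t ∉ S.rect a :=
            (eventually_all_finite hfin).2 fun a _ => by simpa using hcon a
          obtain ⟨t, h1, h2, h3⟩ := (h1.and (hxF.and (hx.eventually_mem hU))).exists
          rw [← cover] at h2
          obtain ⟨a, ha⟩ := mem_iUnion.1 h2
          exact h1 a ⟨_, ha, h3⟩ ha
        have hza : z ∈ S.rect a := (isClosed_rect S a).mem_of_frequently_of_tendsto ha hx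
        obtain ⟨t, h1, h2⟩ := (ha.and_eventually self_mem_nhdsWithin).exists
        exact ⟨a, occ_of_mem hza hne h2 h1⟩
    have : S.Adj z = Q := by
      funext h h'
      exact propext (key h h')
    rw [this]
    exact hQ.cyc

end P073.MOS
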