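import Vale.Agent.P073.MOS.Cyc
import Vale.Agent.P073.PR.Faces
import Vale.Agent.P073.PT.ArcGlue

/-!
# P073, block MOS: the rectangles of a rectangular surface form a mosaic
-/

open Set Metric Topology Function

namespace P073.MOS

/-- segments are conical arcs -/
theorem conBall_segment {E : Type*} [NormedAddCommGroup E] [NormedSpace ℝ E] {p q : E}
    (h : p ≠ q) : ConBall 1 (segment ℝ p q) {p, q} := by
  have hc : ConicalSet (Icc (0:ℝ) 1) := Convex.conicalSet (convex_Icc 0 1)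
  have h1 : ContinuousOn (fun t : ℝ => AffineMap.lineMap p q t) (Icc (0:ℝ) 1) :=
    AffineMap.lineMap_continuous.continuousOn
  have h2 : InjOn (fun t : ℝ => AffineMap.lineMap p q t) (Icc (0:ℝ) 1) := fun t _ s _ hts =>
    (AffineMap.lineMap_injective ℝ h) hts
  have h3 : ConicalOn (fun t : ℝ => AffineMap.lineMap p q t) (Icc (0:ℝ) 1) :=
    conicalOn_of_affine (AffineMap.lineMap p q) hc
  have h4 : (fun t : ℝ => AffineMap.lineMap p q t) '' (Icc (0:ℝ) 1) = segment ℝ p q :=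
    (segment_eq_image_lineMap ℝ p q).symm
  have := ConBall.of_param zero_lt_one (ConHomeo.ofCompact isCompact_Icc _ h1 h2 h3 h4)
  rw [ConHomeo.ofCompact_toFun] at this
  simpa using this

/-- the opposite half axis -/
def neg (h : HA) : HA := (h.1, !h.2)

theorem eq_or_eq_neg {h h' : HA} (H : h'.1 = h.1) : h' = h ∨ h' = neg h := by
  obtain ⟨k, b⟩ := h
  obtain ⟨k', b'⟩ := h'
  obtain rfl : k' = k := H
  cases b <;> cases b' <;> simp [neg]

theorem third_axis (i j : Fin 3) : ∃ k, k ≠ i ∧ k ≠ j := by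
  revert i j; decide

theorem fin3_cases {i j k : Fin 3} (h1 : i ≠ j) (h2 : i ≠ k) (h3 : j ≠ k) (l : Fin 3) :
    l = i ∨ l = j ∨ l = k := by
  revert i j k l; decide

namespace Rects

variable {S : Rects} {a b : S.A} {z w : V3} {h h' : HA}

theorem mem_rect : z ∈ S.rect a ↔ ∀ k, S.lo a k ≤ z k ∧ z k ≤ S.hi a k :=
  ⟨fun H k => ⟨H.1 k, H.2 k⟩, fun H => ⟨fun k => (H k).1, fun k => (H k).2⟩⟩

theorem lo_le_hi (a : S.A) (k : Fin 3) : S.lo a k ≤ S.hi a k := by
  by_cases hk : k = S.nrm a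
  · rw [hk, S.flat a]
  · exact (S.wide a k hk).le

theorem ext_true {k : Fin 3} : S.Ext a z (k, true) ↔ z k < S.hi a k := Iff.rfl

theorem ext_false {k : Fin 3} : S.Ext a z (k, false) ↔ S.lo a k < z k := by
  simp [Rects.Ext]

theorem Ext.ne_nrm (hz : z ∈ S.rect a) (H : S.Ext a z h) : h.1 ≠ S.nrm a := by
  intro hn
  have h1 := mem_rect.1 hz h.1
  have h2 := S.flat a
  rw [← hn] at h2
  obtain ⟨k, b⟩ := h
  cases b
  · rw [ext_false] at H
    simp only at h1 h2
    linarith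
  · rw [ext_true] at H
    simp only at h1 h2
    linarith

theorem ext_or (hz : z ∈ S.rect a) (hn : h.1 ≠ S.nrm a) : S.Ext a z h ∨ S.Ext a z (neg h) := by
  have h1 := mem_rect.1 hz h.1
  have h2 := S.wide a _ hn
  obtain ⟨k, b⟩ := h
  cases b
  · show S.Ext a z (k, false) ∨ S.Ext a z (k, true)
    rw [ext_false, ext_true]
    simp only at h1 h2
    by_contra hcon
    push Not at hcon
    linarith
  · show S.Ext a z (k, true) ∨ S.Ext a z (k, false)
    rw [ext_false, ext_true]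
    simp only at h1 h2
    by_contra hcon
    push Not at hcon
    linarith

theorem Occ.symm (H : S.Occ a z h h') : S.Occ a z h' h := ⟨H.1, H.2.1.symm, H.2.2.2, H.2.2.1⟩

theorem occ_comm : S.Occ a z h h' ↔ S.Occ a z h' h := ⟨Occ.symm, Occ.symm⟩

/-- a rectangle which extends in direction `h` occupies a quarter plane at `h` -/
theorem Ext.exists_occ (hz : z ∈ S.rect a) (H : S.Ext a z h) : ∃ h', S.Occ a z h h' := by
  obtain ⟨k, hk1, hk2⟩ := third_axis (S.nrm a) h.1
  rcases ext_or (h := (k, true)) hz hk1 with H' | H'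
  · exact ⟨_, hz, hk2.symm, H, H'⟩
  · exact ⟨_, hz, hk2.symm, H, H'⟩

/-- a rectangle occupies a quarter plane at each of its points -/
theorem exists_occ (hz : z ∈ S.rect a) : ∃ h h', S.Occ a z h h' := by
  obtain ⟨k, hk1, _⟩ := third_axis (S.nrm a) (S.nrm a)
  rcases ext_or (h := (k, true)) hz hk1 with H' | H'
  · exact ⟨_, H'.exists_occ hz⟩
  · exact ⟨_, H'.exists_occ hz⟩

/-- two rectangles which extend from a common point in the same direction have more than one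
common point -/
theorem nontrivial_of_ext (ha : z ∈ S.rect a) (hb : z ∈ S.rect b) (Ha : S.Ext a z h)
    (Hb : S.Ext b z h) : (S.rect a ∩ S.rect b).Nontrivial := by
  classical
  obtain ⟨k, c⟩ := h
  have ha' := mem_rect.1 ha
  have hb' := mem_rect.1 hb
  cases c
  · rw [ext_false] at Ha Hb
    refine ⟨z, ⟨ha, hb⟩, update z k (max (S.lo a k) (S.lo b k)), ⟨?_, ?_⟩, ?_⟩
    · rw [mem_rect]
      intro l
      by_cases hl : l = k
      · subst hl
        rw [update_self]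
        exact ⟨le_max_left _ _, (max_le Ha.le Hb.le).trans (ha' l).2⟩
      · rw [update_of_ne hl]; exact ha' l
    · rw [mem_rect]
      intro l
      by_cases hl : l = k
      · subst hl
        rw [update_self]
        exact ⟨le_max_right _ _, (max_le Ha.le Hb.le).trans (hb' l).2⟩
      · rw [update_of_ne hl]; exact hb' l
    · intro h
      have h1 := congrFun h k
      rw [update_self] at h1
      exact (max_lt Ha Hb).ne' h1
  · rw [ext_true] at Ha Hb
    refine ⟨z, ⟨ha, hb⟩, update z k (min (S.hi a k) (S.hi b k)), ⟨?_, ?_⟩, ?_⟩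
    · rw [mem_rect]
      intro l
      by_cases hl : l = k
      · subst hl
        rw [update_self]
        exact ⟨(ha' l).1.trans (le_min Ha.le Hb.le), min_le_left _ _⟩
      · rw [update_of_ne hl]; exact ha' l
    · rw [mem_rect]
      intro l
      by_cases hl : l = k
      · subst hl
        rw [update_self]
        exact ⟨(hb' l).1.trans (le_min Ha.le Hb.le), min_le_right _ _⟩
      · rw [update_of_ne hl]; exact hb' l
    · intro h
      have h1 := congrFun h k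
      rw [update_self] at h1
      exact (lt_min Ha Hb).ne h1

/-- if two rectangles have two common points `z ≠ w` then both extend from `z` in a common
direction -/
theorem exists_common_ext (ha' : w ∈ S.rect a)
    (hb' : w ∈ S.rect b) (hzw : z ≠ w) : ∃ h, S.Ext a z h ∧ S.Ext b z h := by
  obtain ⟨k, hk⟩ := Function.ne_iff.1 hzw
  have h1 := mem_rect.1 ha' k
  have h2 := mem_rect.1 hb' k
  rcases lt_or_gt_of_ne hk with h | h
  · exact ⟨(k, true), lt_of_lt_of_le h h1.2, lt_of_lt_of_le h h2.2⟩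
  · refine ⟨(k, false), ?_, ?_⟩ <;> rw [ext_false]
    · exact lt_of_le_of_lt h1.1 h
    · exact lt_of_le_of_lt h2.1 h

theorem rect_eq (a : S.A) : S.rect a = {x : Fin 3 → ℝ | x (S.nrm a) = S.lo a (S.nrm a) ∧
    ∀ k, k ≠ S.nrm a → S.lo a k ≤ x k ∧ x k ≤ S.hi a k} := by
  ext x
  rw [mem_rect]
  constructor
  · intro H
    have := H (S.nrm a)
    rw [← S.flat a] at this
    exact ⟨le_antisymm this.2 this.1, fun k _ => H k⟩
  · rintro ⟨h1, h2⟩ k
    by_cases hk : k = S.nrm a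
    · rw [hk, ← S.flat a, h1]; exact ⟨le_rfl, le_rfl⟩
    · exact h2 k hk

/-- rectangles are conical discs -/
theorem conBall (a : S.A) : ConBall 2 (S.rect a) (S.edge a) := by
  have := conBall_brickFace two_ne_zero (S.nrm a) (S.lo a (S.nrm a)) (fun k hk => S.wide a k hk)
  rw [← rect_eq] at this
  exact this

theorem rect_nontrivial (a : S.A) : (S.rect a).Nontrivial := by
  refine ⟨S.lo a, ⟨le_rfl, fun k => lo_le_hi a k⟩, S.hi a, ⟨fun k => lo_le_hi a k, le_rfl⟩, ?_⟩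
  intro h
  obtain ⟨k, hk, _⟩ := third_axis (S.nrm a) (S.nrm a)
  exact (S.wide a k hk).ne (congrFun h k)

end Rects

open Rects

namespace RectSurf

variable {F : Set V3} {S : Rects} {a b v w : S.A} {z p : V3} {h h' : HA}

theorem mem (hS : RectSurf F S) (hz : z ∈ S.rect a) : z ∈ F := by
  rw [← hS.cover]
  exact mem_iUnion_of_mem a hz

theorem cyc' (hS : RectSurf F S) (hz : z ∈ S.rect a) : IsCyc (S.Adj z) := hS.cyc z (hS.mem hz)

/-- **Another rectangle** at a point where `v` extends in direction `h` but not in the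
opposite direction. -/
theorem exists_other (hS : RectSurf F S) (hz : z ∈ S.rect v) (H : S.Ext v z h)
    (Hn : ¬ S.Ext v z (neg h)) : ∃ h₁ y, S.Occ v z h h₁ ∧ y ≠ h ∧ ∃ u, u ≠ v ∧ S.Occ u z h₁ y := by
  obtain ⟨h₁, h1⟩ := H.exists_occ hz
  obtain ⟨y, hy, u, hu⟩ := (hS.cyc' hz).other (show S.Adj z h₁ h from ⟨v, h1.symm⟩)
  refine ⟨h₁, y, h1, hy, u, ?_, hu⟩
  rintro rfl
  have e1 : y.1 ≠ S.nrm u := hu.2.2.2.ne_nrm hz
  have e2 : h₁.1 ≠ S.nrm u := hu.2.2.1.ne_nrm hz
  have e3 : h.1 ≠ S.nrm u := H.ne_nrm hz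
  have e4 : y.1 = h.1 := by
    rcases fin3_cases (h1.2.1) e3 e2 y.1 with h | h | h
    · exact h
    · exact absurd h hu.2.1.symm
    · exact absurd h e1
  rcases eq_or_eq_neg e4 with h | h
  · exact hy h
  · exact Hn (h ▸ hu.2.2.2)

/-- a point of the edge of a rectangle lies in another rectangle -/
theorem exists_other_of_edge (hS : RectSurf F S) (hz : z ∈ S.edge v) :
    ∃ u, u ≠ v ∧ z ∈ S.rect u ∧ ∃ h₁, S.Ext v z h₁ ∧ S.Ext u z h₁ := by
  obtain ⟨hz, k, hk, h⟩ := hz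
  have hw := S.wide v k hk
  rcases h with h | h
  · have H : S.Ext v z (k, true) := by rw [ext_true, h]; exact hw
    have Hn : ¬ S.Ext v z (neg (k, true)) := by
      show ¬ S.Ext v z (k, false)
      rw [ext_false, h]; exact lt_irrefl _
    obtain ⟨h₁, _, h1, _, u, hu, hu'⟩ := hS.exists_other hz H Hn
    exact ⟨u, hu, hu'.1, h₁, h1.2.2.2, hu'.2.2.1⟩
  · have H : S.Ext v z (k, false) := by rw [ext_false, h]; exact hw
    have Hn : ¬ S.Ext v z (neg (k, false)) := by
      show ¬ S.Ext v z (k, true)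
      rw [ext_true, h]; exact lt_irrefl _
    obtain ⟨h₁, _, h1, _, u, hu, hu'⟩ := hS.exists_other hz H Hn
    exact ⟨u, hu, hu'.1, h₁, h1.2.2.2, hu'.2.2.1⟩

/-- a point of two rectangles lies on the edges of both -/
theorem mem_edge (hS : RectSurf F S) (hv : z ∈ S.rect v) (hw : z ∈ S.rect w) (hvw : v ≠ w) :
    z ∈ S.edge v := by
  by_contra hcon
  have hall : ∀ h : HA, h.1 ≠ S.nrm v → S.Ext v z h := by
    rintro ⟨k, b⟩ hk
    have hk' : k ≠ S.nrm v := hk
    have h1 := mem_rect.1 hv k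
    have h2 : z k ≠ S.lo v k := fun h => hcon ⟨hv, k, hk', Or.inl h⟩
    have h3 : z k ≠ S.hi v k := fun h => hcon ⟨hv, k, hk', Or.inr h⟩
    cases b
    · rw [ext_false]; exact lt_of_le_of_ne h1.1 h2.symm
    · rw [ext_true]; exact lt_of_le_of_ne h1.2 h3
  obtain ⟨h₀, h₁, h01⟩ := exists_occ hv
  obtain ⟨g, g', hg⟩ := exists_occ hw
  have key := (hS.cyc' hv).conn (fun x => S.Ext v z x) (show S.Adj z h₀ h₁ from ⟨v, h01⟩)
    h01.2.2.1 (by
      intro x y hx hxy
      obtain ⟨x', hx'⟩ := Ext.exists_occ hv hx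
      have hx2 : S.Occ v z x (neg x') :=
        ⟨hv, hx'.2.1, hx, hall (neg x') (show x'.1 ≠ S.nrm v from hx'.2.2.2.ne_nrm hv)⟩
      have hne : x' ≠ neg x' := by
        obtain ⟨k, b⟩ := x'
        cases b <;> simp [neg]
      rcases (hS.cyc' hv).two ⟨v, hx'⟩ ⟨v, hx2⟩ hne hxy with h | h
      · rw [h]; exact hx'.2.2.2
      · rw [h]; exact hx2.2.2.2)
  have e1 := key g g' ⟨w, hg⟩
  have e2 := key g' g ⟨w, hg.symm⟩
  exact hvw (hS.disj v w z g g' ⟨hv, hg.2.1, e1, e2⟩ hg)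

/-- at most two rectangles extend in a given direction -/
theorem eq_or_eq_of_ext (hS : RectSurf F S) (hv : z ∈ S.rect v) (hw : z ∈ S.rect w)
    (Hv : S.Ext v z h) (Hw : S.Ext w z h) (hvw : v ≠ w) {u : S.A} (hu : z ∈ S.rect u)
    (Hu : S.Ext u z h) : u = v ∨ u = w := by
  obtain ⟨x, hx⟩ := Hv.exists_occ hv
  obtain ⟨y, hy⟩ := Hw.exists_occ hw
  obtain ⟨t, ht⟩ := Hu.exists_occ hu
  have hxy : x ≠ y := fun h => hvw (hS.disj v w z _ _ hx (h ▸ hy))
  rcases (hS.cyc' hv).two ⟨v, hx⟩ ⟨w, hy⟩ hxy ⟨u, ht⟩ with h | h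
  · left; subst h; exact hS.disj _ _ z _ _ ht hx
  · right; subst h; exact hS.disj _ _ z _ _ ht hy

/-- if `v`, `w` extend both in direction `h` and in the opposite direction then there is no third
rectangle -/
theorem only_two (hS : RectSurf F S) (hv : z ∈ S.rect v) (hw : z ∈ S.rect w) (hvw : v ≠ w)
    (Hv : S.Ext v z h) (Hw : S.Ext w z h) (Hv' : S.Ext v z (neg h)) (Hw' : S.Ext w z (neg h))
    {u : S.A} (hu : z ∈ S.rect u) : u = v ∨ u = w := by
  have hc := hS.cyc' hv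
  obtain ⟨x, hx⟩ := Hv.exists_occ hv
  obtain ⟨y, hy⟩ := Hw.exists_occ hw
  have hxy : x ≠ y := fun h => hvw (hS.disj v w z _ _ hx (h ▸ hy))
  have hx' : S.Occ v z (neg h) x := ⟨hv, hx.2.1, Hv', hx.2.2.2⟩
  have hy' : S.Occ w z (neg h) y := ⟨hw, hy.2.1, Hw', hy.2.2.2⟩
  have hhn : h ≠ neg h := by
    obtain ⟨k, b⟩ := h
    cases b <;> simp [neg]
  have key := hc.conn (fun g => g = h ∨ g = neg h ∨ g = x ∨ g = y)
    (show S.Adj z h x from ⟨v, hx⟩) (Or.inl rfl) (by
      rintro g g' (rfl | rfl | rfl | rfl) hg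
      · rcases hc.two ⟨v, hx⟩ ⟨w, hy⟩ hxy hg with h | h <;> simp [h]
      · rcases hc.two ⟨v, hx'⟩ ⟨w, hy'⟩ hxy hg with h | h <;> simp [h]
      · rcases hc.two ⟨v, hx.symm⟩ ⟨v, hx'.symm⟩ hhn hg with h | h <;> simp [h]
      · rcases hc.two ⟨w, hy.symm⟩ ⟨w, hy'.symm⟩ hhn hg with h | h <;> simp [h])
  obtain ⟨g, g', hg⟩ := exists_occ hu
  -- `u` extends in direction `h` or `neg h`
  have hgn : ∀ g g' : HA, S.Occ u z g g' → g = h ∨ g = neg h → u = v ∨ u = w := by
    rintro g g' hg (rfl | rfl)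
    · exact hS.eq_or_eq_of_ext hv hw Hv Hw hvw hu hg.2.2.1
    · exact hS.eq_or_eq_of_ext hv hw Hv' Hw' hvw hu hg.2.2.1
  rcases key g g' ⟨u, hg⟩ with h1 | h1 | h1 | h1
  · exact hgn g g' hg (Or.inl h1)
  · exact hgn g g' hg (Or.inr h1)
  · subst h1
    rcases hc.two ⟨v, hx.symm⟩ ⟨v, hx'.symm⟩ hhn ⟨u, hg⟩ with h | h
    · exact hgn g' _ hg.symm (Or.inl h)
    · exact hgn g' _ hg.symm (Or.inr h)
  · subst h1
    rcases hc.two ⟨w, hy.symm⟩ ⟨w, hy'.symm⟩ hhn ⟨u, hg⟩ with h | h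
    · exact hgn g' _ hg.symm (Or.inl h)
    · exact hgn g' _ hg.symm (Or.inr h)

/-- if `v`, `w` extend in direction `h` and `v` does not extend in the opposite direction then there
is a third rectangle -/
theorem exists_third (hS : RectSurf F S) (hv : z ∈ S.rect v) (hw : z ∈ S.rect w) (hvw : v ≠ w)
    (Hv : S.Ext v z h) (Hw : S.Ext w z h) (Hn : ¬ S.Ext v z (neg h)) :
    ∃ u, u ≠ v ∧ u ≠ w ∧ z ∈ S.rect u := by
  obtain ⟨h₁, y, hocc, hy, u, huv, hu⟩ := hS.exists_other hv Hv Hn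
  refine ⟨u, huv, ?_, hu.1⟩
  rintro rfl
  exact hvw (hS.disj v u z h h₁ hocc ⟨hw, hocc.2.1, Hw, hu.2.2.1⟩)

end RectSurf

end P073.MOS
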