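import Vale.Agent.P073.MOS.Local

/-!
# P073, block MOS: making a family of rectangles non-overlapping

Given a locally finite cover of `F` by boxes `B i` (indexed by a linear order) and for each `i` a
finite non-overlapping family of rectangles with union `F ∩ B i`, we cut the rectangles of `i` along
the coordinate planes of the earlier boxes and keep the pieces outside the earlier boxes.
-/

open Set Metric Topology Function Filter

namespace P073.MOS

/-- consecutive elements of a finite set of reals around a given point -/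
theorem exists_consecutive {T : Set ℝ} (hT : T.Finite) {lo hi z : ℝ} (hlo : lo ∈ T) (hhi : hi ∈ T)
    (h : lo < hi) (h1 : lo ≤ z) (h2 : z ≤ hi) :
    ∃ s ∈ T, ∃ t ∈ T, s < t ∧ s ≤ z ∧ z ≤ t ∧ ∀ x ∈ T, x ≤ s ∨ t ≤ x := by
  obtain ⟨s, ⟨hs, hsz, hsh⟩, hsmax⟩ := exists_max_image (T ∩ {x | x ≤ z ∧ x < hi}) id
    (hT.subset inter_subset_left) ⟨lo, hlo, h1, h⟩
  obtain ⟨t, ⟨ht, hst⟩, htmin⟩ := exists_min_image (T ∩ {x | s < x}) id
    (hT.subset inter_subset_left) ⟨hi, hhi, hsh⟩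
  refine ⟨s, hs, t, ht, hst, hsz, ?_, ?_⟩
  · by_contra hcon
    push Not at hcon
    have := hsmax t ⟨ht, hcon.le, lt_of_lt_of_le hcon h2⟩
    exact absurd hst (not_lt.2 this)
  · intro x hx
    by_contra hcon
    push Not at hcon
    exact absurd hcon.2 (not_lt.2 (htmin x ⟨hx, hcon.1⟩))

/-- input of the cutting construction -/
structure Pieces (F : Set V3) where
  /-- index of the boxes -/
  α : Type
  ord : LinearOrder α
  /-- the boxes -/
  bl : α → V3
  bu : α → V3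
  /-- the rectangles -/
  P : Rects
  /-- the box containing a rectangle -/
  β : P.A → α
  cov : ∀ z ∈ F, ∃ i, z ∈ Icc (bl i) (bu i)
  lf : ∀ z ∈ F, ∃ U ∈ 𝓝 z, {i | (F ∩ Icc (bl i) (bu i) ∩ U).Nonempty}.Finite
  fib : ∀ i, {a | β a = i}.Finite
  un : ∀ i z, (z ∈ F ∧ z ∈ Icc (bl i) (bu i)) ↔ ∃ a, β a = i ∧ z ∈ P.rect a
  no : ∀ a b, β a = β b → P.nrm a = P.nrm b → (P.rint a ∩ P.rint b).Nonempty → a = b

namespace Pieces

variable {F : Set V3} (D : Pieces F)

instance : LinearOrder D.α := D.ord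

/-- the box -/
def B (i : D.α) : Set V3 := Icc (D.bl i) (D.bu i)

theorem isCompact_piece (i : D.α) : IsCompact (F ∩ D.B i) := by
  have : F ∩ D.B i = ⋃ a ∈ {a | D.β a = i}, D.P.rect a := by
    ext z
    rw [mem_iUnion₂]
    exact (D.un i z).trans ⟨fun ⟨a, h1, h2⟩ => ⟨a, h1, h2⟩, fun ⟨a, h1, h2⟩ => ⟨a, h1, h2⟩⟩
  rw [this]
  exact (D.fib i).isCompact_biUnion fun a _ => isCompact_Icc

theorem finite_meet (i : D.α) : {j | (F ∩ D.B j ∩ D.B i).Nonempty}.Finite := by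
  -- a compact set meets finitely many members
  have hK := D.isCompact_piece i
  have key : ∀ z ∈ F ∩ D.B i, ∃ U ∈ 𝓝 z, {j | (F ∩ D.B j ∩ U).Nonempty}.Finite :=
    fun z hz => D.lf z hz.1
  choose! U hU hfin using key
  obtain ⟨t, ht, hcov⟩ := hK.elim_nhds_subcover U hU
  refine ((t.finite_toSet.biUnion fun z hz => hfin z (ht z hz))).subset ?_
  rintro j ⟨x, ⟨hxF, hxj⟩, hxi⟩
  obtain ⟨z, hz, hxz⟩ := mem_iUnion₂.1 (hcov ⟨hxF, hxi⟩)
  exact mem_iUnion₂.2 ⟨z, hz, x, ⟨hxF, hxj⟩, hxz⟩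

/-- the cutting coordinates of a rectangle -/
def T (p : D.P.A) (k : Fin 3) : Set ℝ :=
  {D.P.lo p k, D.P.hi p k} ∪ (Icc (D.P.lo p k) (D.P.hi p k) ∩
    {x | ∃ j, (F ∩ D.B j ∩ D.B (D.β p)).Nonempty ∧ j < D.β p ∧ (x = D.bl j k ∨ x = D.bu j k)})

theorem T_finite (p : D.P.A) (k : Fin 3) : (D.T p k).Finite := by
  refine ((finite_singleton _).insert _).union ?_
  have h1 := D.finite_meet (D.β p)
  refine ((h1.image fun j => D.bl j k).union (h1.image fun j => D.bu j k)).subset ?_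
  rintro x ⟨_, j, hj, _, h | h⟩
  · exact Or.inl ⟨j, hj, h.symm⟩
  · exact Or.inr ⟨j, hj, h.symm⟩

theorem T_subset (p : D.P.A) (k : Fin 3) : D.T p k ⊆ Icc (D.P.lo p k) (D.P.hi p k) := by
  rintro x ((rfl | rfl) | ⟨h, _⟩)
  · exact ⟨le_rfl, Rects.lo_le_hi p k⟩
  · exact ⟨Rects.lo_le_hi p k, le_rfl⟩
  · exact h

/-- the condition on a new cell -/
def Cell (x : D.P.A × V3 × V3) : Prop :=
  x.2.1 (D.P.nrm x.1) = D.P.lo x.1 (D.P.nrm x.1) ∧ x.2.2 (D.P.nrm x.1) = D.P.lo x.1 (D.P.nrm x.1) ∧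
  (∀ k, k ≠ D.P.nrm x.1 → x.2.1 k ∈ D.T x.1 k ∧ x.2.2 k ∈ D.T x.1 k ∧ x.2.1 k < x.2.2 k ∧
    ∀ y ∈ D.T x.1 k, y ≤ x.2.1 k ∨ x.2.2 k ≤ y) ∧
  ∀ j, j < D.β x.1 → ∀ y ∈ D.B j, ¬ (y (D.P.nrm x.1) = D.P.lo x.1 (D.P.nrm x.1) ∧
    ∀ k, k ≠ D.P.nrm x.1 → x.2.1 k < y k ∧ y k < x.2.2 k)

/-- the new rectangles -/
def S : Rects where
  A := {x : D.P.A × V3 × V3 // D.Cell x}
  lo x := x.1.2.1
  hi x := x.1.2.2
  nrm x := D.P.nrm x.1.1
  flat x := x.2.1.trans x.2.2.1.symm
  wide x k hk := (x.2.2.2.1 k hk).2.2.1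

/-- the new rectangle given by a cell -/
def mkA (x : D.P.A × V3 × V3) (h : D.Cell x) : D.S.A := ⟨x, h⟩

/-- the old rectangle containing a new one -/
def pr (x : D.S.A) : D.P.A := x.1.1

theorem cell_Icc (x : D.S.A) (k : Fin 3) :
    D.P.lo (D.pr x) k ≤ D.S.lo x k ∧ D.S.hi x k ≤ D.P.hi (D.pr x) k := by
  by_cases hk : k = D.P.nrm (D.pr x)
  · subst hk
    have h1 : D.S.lo x (D.P.nrm (D.pr x)) = D.P.lo (D.pr x) (D.P.nrm (D.pr x)) := x.2.1
    have h2 : D.S.hi x (D.P.nrm (D.pr x)) = D.P.lo (D.pr x) (D.P.nrm (D.pr x)) := x.2.2.1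
    exact ⟨h1.ge, h2.le.trans (Rects.lo_le_hi _ _)⟩
  · have h := x.2.2.2.1 k hk
    exact ⟨(D.T_subset _ _ h.1).1, (D.T_subset _ _ h.2.1).2⟩

theorem rect_subset (x : D.S.A) : D.S.rect x ⊆ D.P.rect (D.pr x) := by
  intro z hz
  rw [Rects.mem_rect] at hz ⊢
  exact fun k => ⟨(D.cell_Icc x k).1.trans (hz k).1, (hz k).2.trans (D.cell_Icc x k).2⟩

theorem rint_subset' (x : D.S.A) : D.S.rint x ⊆ D.P.rint (D.pr x) := by
  rintro z ⟨h1, h2⟩
  refine ⟨h1.trans x.2.1, fun k hk => ?_⟩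
  exact ⟨lt_of_le_of_lt (D.cell_Icc x k).1 (h2 k hk).1,
    lt_of_lt_of_le (h2 k hk).2 (D.cell_Icc x k).2⟩

theorem P_subset (p : D.P.A) : D.P.rect p ⊆ F ∩ D.B (D.β p) := fun z hz =>
  (D.un _ z).2 ⟨p, rfl, hz⟩

theorem S_cover : ⋃ a, D.S.rect a = F := by
  apply Subset.antisymm
  · refine iUnion_subset fun a z hz => ?_
    exact (D.P_subset _ (D.rect_subset a hz)).1
  · intro z hz
    -- the first box containing `z`
    obtain ⟨U, hU, hfin⟩ := D.lf z hz
    have hfin' : {i | z ∈ D.B i}.Finite := hfin.subset fun i hi =>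
      ⟨z, ⟨hz, hi⟩, mem_of_mem_nhds hU⟩
    obtain ⟨i, hi, hmin⟩ := exists_min_image _ id hfin' (D.cov z hz)
    obtain ⟨p, rfl, hzp⟩ := (D.un i z).1 ⟨hz, hi⟩
    have hzp' := Rects.mem_rect.1 hzp
    have hc : ∀ k, k ≠ D.P.nrm p → ∃ s ∈ D.T p k, ∃ t ∈ D.T p k, s < t ∧ s ≤ z k ∧ z k ≤ t ∧
        ∀ x ∈ D.T p k, x ≤ s ∨ t ≤ x := fun k hk =>
      exists_consecutive (D.T_finite p k) (Or.inl (Or.inl rfl)) (Or.inl (Or.inr rfl))
        (D.P.wide p k hk) (hzp' k).1 (hzp' k).2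
    choose! s hsT t htT hst hsz hzt hno using hc
    let s' : V3 := fun k => if k = D.P.nrm p then D.P.lo p k else s k
    let t' : V3 := fun k => if k = D.P.nrm p then D.P.lo p k else t k
    have es : ∀ k, k ≠ D.P.nrm p → s' k = s k := fun k hk => if_neg hk
    have et : ∀ k, k ≠ D.P.nrm p → t' k = t k := fun k hk => if_neg hk
    have hzn : z (D.P.nrm p) = D.P.lo p (D.P.nrm p) := by
      have h := hzp' (D.P.nrm p)
      rw [← D.P.flat p] at h
      exact le_antisymm h.2 h.1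
    have hcell : D.Cell (p, s', t') := by
      refine ⟨if_pos rfl, if_pos rfl, fun k hk => ?_, ?_⟩
      · simp only at hk ⊢
        rw [es k hk, et k hk]
        exact ⟨hsT k hk, htT k hk, hst k hk, hno k hk⟩
      · rintro j hj y hyB ⟨hyn, hyk⟩
        simp only at hj hyn hyk
        -- then `z ∈ B j`
        have hyp : y ∈ D.P.rect p := by
          rw [Rects.rect_eq]
          refine ⟨hyn, fun k hk => ?_⟩
          have h1 := hyk k hk
          rw [es k hk, et k hk] at h1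
          exact ⟨(D.T_subset p k (hsT k hk)).1.trans h1.1.le,
            h1.2.le.trans (D.T_subset p k (htT k hk)).2⟩
        have hyF := D.P_subset p hyp
        have hne : (F ∩ D.B j ∩ D.B (D.β p)).Nonempty := ⟨y, ⟨hyF.1, hyB⟩, hyF.2⟩
        have hzj : z ∈ D.B j := by
          have hlu : ∀ k, D.bl j k ≤ z k ∧ z k ≤ D.bu j k := by
            intro k
            by_cases hk : k = D.P.nrm p
            · rw [hk, hzn, ← hyn]; exact ⟨hyB.1 _, hyB.2 _⟩
            · have h1 := hyk k hk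
              rw [es k hk, et k hk] at h1
              have h2 := hyB.1 k
              have h3 := hyB.2 k
              have hlo := (D.T_subset p k (hsT k hk)).1
              have hhi := (D.T_subset p k (htT k hk)).2
              constructor
              · refine le_trans ?_ (hsz k hk)
                by_contra hcon
                push Not at hcon
                have hT : D.bl j k ∈ D.T p k := Or.inr ⟨⟨hlo.trans hcon.le,
                  h2.trans (h1.2.le.trans hhi)⟩, j, hne, hj, Or.inl rfl⟩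
                rcases hno k hk _ hT with h | h
                · exact absurd hcon (not_lt.2 h)
                · exact absurd (lt_of_le_of_lt h2 h1.2) (not_lt.2 h)
              · refine le_trans (hzt k hk) ?_
                by_contra hcon
                push Not at hcon
                have hT : D.bu j k ∈ D.T p k := Or.inr ⟨⟨hlo.trans (h1.1.le.trans h3),
                  hcon.le.trans hhi⟩, j, hne, hj, Or.inr rfl⟩
                rcases hno k hk _ hT with h | h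
                · exact absurd (lt_of_lt_of_le h1.1 h3) (not_lt.2 h)
                · exact absurd hcon (not_lt.2 h)
          exact ⟨fun k => (hlu k).1, fun k => (hlu k).2⟩
        exact absurd hj (not_lt.2 (hmin j hzj))
    refine mem_iUnion.2 ⟨D.mkA (p, s', t') hcell, ?_⟩
    rw [Rects.rect_eq]
    refine ⟨hzn.trans (if_pos rfl).symm, fun k hk => ?_⟩
    have hk' : k ≠ D.P.nrm p := hk
    show s' k ≤ z k ∧ z k ≤ t' k
    rw [es k hk', et k hk']
    exact ⟨hsz k hk', hzt k hk'⟩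

theorem S_fin (z : V3) (hz : z ∈ F) : ∃ U ∈ 𝓝 z, {a | (D.S.rect a ∩ U).Nonempty}.Finite := by
  obtain ⟨U, hU, hfin⟩ := D.lf z hz
  refine ⟨U, hU, ?_⟩
  -- the finite set of possible data
  have h1 : {p | D.β p ∈ {i | (F ∩ Icc (D.bl i) (D.bu i) ∩ U).Nonempty}}.Finite := by
    have : {p | D.β p ∈ {i | (F ∩ Icc (D.bl i) (D.bu i) ∩ U).Nonempty}} =
        ⋃ i ∈ {i | (F ∩ Icc (D.bl i) (D.bu i) ∩ U).Nonempty}, {a | D.β a = i} := by
      ext p; simp
    rw [this]
    exact hfin.biUnion fun i _ => D.fib i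
  have h2 : (⋃ p ∈ {p | D.β p ∈ {i | (F ∩ Icc (D.bl i) (D.bu i) ∩ U).Nonempty}},
      ({p} : Set D.P.A) ×ˢ ((Set.pi univ (D.T p)) ×ˢ (Set.pi univ (D.T p)))).Finite := by
    refine h1.biUnion fun p _ => (finite_singleton p).prod ?_
    have h3 : (Set.pi univ (D.T p)).Finite := Set.Finite.pi fun k => D.T_finite p k
    exact h3.prod h3
  refine Finite.of_finite_image (f := fun a : D.S.A => a.1) (h2.subset ?_)
    Subtype.val_injective.injOn
  rintro _ ⟨a, ⟨x, hx, hxU⟩, rfl⟩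
  have h4 := D.P_subset _ (D.rect_subset a hx)
  refine mem_iUnion₂.2 ⟨a.1.1, ⟨x, h4, hxU⟩, rfl, ?_, ?_⟩
  · intro k _
    by_cases hk : k = D.P.nrm a.1.1
    · rw [hk, a.2.1]; exact Or.inl (Or.inl rfl)
    · exact (a.2.2.2.1 k hk).1
  · intro k _
    by_cases hk : k = D.P.nrm a.1.1
    · rw [hk, a.2.2.1]; exact Or.inl (Or.inl rfl)
    · exact (a.2.2.2.1 k hk).2.1

theorem S_no (a b : D.S.A) (hn : D.S.nrm a = D.S.nrm b) (h : (D.S.rint a ∩ D.S.rint b).Nonempty) :
    a = b := by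
  -- not in an earlier box
  have key : ∀ a b : D.S.A, (D.S.rint a ∩ D.S.rint b).Nonempty → ¬ D.β (D.pr a) < D.β (D.pr b) := by
    rintro a b ⟨x, hxa, hxb⟩ hlt
    refine b.2.2.2.2 _ hlt x (D.P_subset _ (D.rect_subset a (Rects.rint_subset a hxa))).2 ?_
    exact ⟨hxb.1.trans b.2.1, hxb.2⟩
  have hβ : D.β (D.pr a) = D.β (D.pr b) := by
    rcases lt_trichotomy (D.β (D.pr a)) (D.β (D.pr b)) with h' | h' | h'
    · exact absurd h' (key a b h)
    · exact h'
    · exact absurd h' (key b a (by rwa [inter_comm]))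
  obtain ⟨x, hxa, hxb⟩ := h
  have hp : D.pr a = D.pr b :=
    D.no _ _ hβ hn ⟨x, D.rint_subset' a hxa, D.rint_subset' b hxb⟩
  obtain ⟨⟨p, s, t⟩, ha⟩ := a
  obtain ⟨⟨p', s', t'⟩, hb⟩ := b
  obtain rfl : p = p' := hp
  obtain ⟨-, hxa⟩ := hxa
  obtain ⟨-, hxb⟩ := hxb
  have hs : s = s' := by
    funext k
    by_cases hk : k = D.P.nrm p
    · have h1 : s (D.P.nrm p) = D.P.lo p (D.P.nrm p) := ha.1
      have h2 : s' (D.P.nrm p) = D.P.lo p (D.P.nrm p) := hb.1
      rw [hk, h1, h2]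
    · have h1 : s k < x k ∧ x k < t k := hxa k hk
      have h2 : s' k < x k ∧ x k < t' k := hxb k hk
      have h3 := ha.2.2.1 k hk
      have h4 := hb.2.2.1 k hk
      rcases h3.2.2.2 _ h4.1 with h | h
      · rcases h4.2.2.2 _ h3.1 with h' | h'
        · exact le_antisymm h' h
        · exact absurd (lt_trans h1.1 h2.2) (not_lt.2 h')
      · exact absurd (lt_trans h2.1 h1.2) (not_lt.2 h)
  have ht : t = t' := by
    funext k
    by_cases hk : k = D.P.nrm p
    · have h1 : t (D.P.nrm p) = D.P.lo p (D.P.nrm p) := ha.2.1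
      have h2 : t' (D.P.nrm p) = D.P.lo p (D.P.nrm p) := hb.2.1
      rw [hk, h1, h2]
    · have h1 : s k < x k ∧ x k < t k := hxa k hk
      have h2 : s' k < x k ∧ x k < t' k := hxb k hk
      have h3 := ha.2.2.1 k hk
      have h4 := hb.2.2.1 k hk
      rcases h3.2.2.2 _ h4.2.1 with h | h
      · exact absurd (lt_trans h1.1 h2.2) (not_lt.2 h)
      · rcases h4.2.2.2 _ h3.2.1 with h' | h'
        · exact absurd (lt_trans h2.1 h1.2) (not_lt.2 h')
        · exact le_antisymm h h'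
  subst hs ht
  rfl

/-- a rectangle whose box does not meet the earlier boxes is not cut -/
theorem exists_uncut (p : D.P.A) (hp : ∀ j, j < D.β p → ¬ (F ∩ D.B j ∩ D.B (D.β p)).Nonempty) :
    ∃ a : D.S.A, D.pr a = p ∧ D.S.rect a = D.P.rect p ∧ D.S.nrm a = D.P.nrm p ∧
      D.S.lo a = D.P.lo p ∧ D.S.hi a = D.P.hi p := by
  have hT : ∀ k, ∀ x ∈ D.T p k, x = D.P.lo p k ∨ x = D.P.hi p k := by
    rintro k x (h | ⟨_, j, hj, hlt, _⟩)
    · exact h
    · exact absurd hj (hp j hlt)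
  have hcell : D.Cell (p, D.P.lo p, D.P.hi p) := by
    refine ⟨rfl, (D.P.flat p).symm, fun k hk => ⟨Or.inl (Or.inl rfl), Or.inl (Or.inr rfl),
      D.P.wide p k hk, fun y hy => ?_⟩, ?_⟩
    · rcases hT k y hy with h | h
      · exact Or.inl h.le
      · exact Or.inr h.ge
    · rintro j hj y hyB ⟨hyn, hyk⟩
      have hyp : y ∈ D.P.rect p := by
        rw [Rects.rect_eq]
        exact ⟨hyn, fun k hk => ⟨(hyk k hk).1.le, (hyk k hk).2.le⟩⟩
      have hyF := D.P_subset p hyp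
      exact hp j hj ⟨y, ⟨hyF.1, hyB⟩, hyF.2⟩
  exact ⟨D.mkA _ hcell, rfl, rfl, rfl, rfl, rfl⟩

/-- **The cutting construction.** -/
theorem rectSurf (hF : RectLocal F) : RectSurf F D.S :=
  RectSurf.of_local hF D.S_cover D.S_fin D.S_no

end Pieces

end P073.MOS
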