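import Vale.Agent.P073.MOS.Poly
import Vale.Agent.P073.MOS.Local

/-!
# P073, block MOS: diamonds around points of a rectilinear surface; small discs
-/

open Set Metric Topology Function Filter

namespace P073.MOS

theorem abs_sg (h : HA) : |sg h| = 1 := by
  rcases sg_eq h with e | e <;> rw [e] <;> simp

theorem l1_nonneg (x : V3) : 0 ≤ l1 x := Finset.sum_nonneg fun _ _ => abs_nonneg _

theorem abs_le_l1 (x : V3) (k : Fin 3) : |x k| ≤ l1 x :=
  Finset.single_le_sum (f := fun k => |x k|) (fun _ _ => abs_nonneg _) (Finset.mem_univ k)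

theorem norm_le_l1 (x : V3) : ‖x‖ ≤ l1 x := by
  rw [pi_norm_le_iff_of_nonneg (l1_nonneg x)]
  exact fun k => abs_le_l1 x k

theorem dist_le_l1 (x y : V3) : dist x y ≤ l1 (x - y) := by
  rw [dist_eq_norm]; exact norm_le_l1 _

theorem l1_le_norm (x : V3) : l1 x ≤ 3 * ‖x‖ := by
  have h : ∀ k ∈ Finset.univ, |x k| ≤ ‖x‖ := fun k _ => by
    rw [← Real.norm_eq_abs]; exact norm_le_pi_norm x k
  have := Finset.sum_le_card_nsmul _ _ _ h
  simpa [l1] using this

theorem l1_smul (t : ℝ) (x : V3) : l1 (t • x) = |t| * l1 x := by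
  unfold l1
  rw [Finset.mul_sum]
  refine Finset.sum_congr rfl fun k _ => ?_
  rw [Pi.smul_apply, smul_eq_mul, abs_mul]

theorem l1_eq_zero {x : V3} (h : l1 x = 0) : x = 0 := by
  funext k
  have := abs_le_l1 x k
  rw [h] at this
  exact abs_eq_zero.1 (le_antisymm this (abs_nonneg _))

theorem l1_sub_comm (x y : V3) : l1 (x - y) = l1 (y - x) := by
  have : x - y = (-1 : ℝ) • (y - x) := by simp
  rw [this, l1_smul]; simp

theorem l1_triangle (x y z : V3) : l1 (x - z) ≤ l1 (x - y) + l1 (y - z) := by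
  unfold l1
  rw [← Finset.sum_add_distrib]
  refine Finset.sum_le_sum fun k _ => ?_
  have : (x - z) k = (x - y) k + (y - z) k := by simp
  rw [this]
  exact abs_add_le _ _

theorem continuous_l1_sub (p : V3) : Continuous fun x : V3 => l1 (x - p) := by
  unfold l1
  fun_prop

theorem l1_qpt {p : V3} {s t : ℝ} {h h' : HA} (hs : 0 ≤ s) (ht : 0 ≤ t) (hne : h.1 ≠ h'.1) :
    l1 (p + s • hv h + t • hv h' - p) = s + t := by
  obtain ⟨k, hk1, hk2⟩ := third_axis h.1 h'.1
  have hsum : ∀ f : Fin 3 → ℝ, ∑ i, f i = f h.1 + f h'.1 + f k := by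
    intro f
    have hu : (Finset.univ : Finset (Fin 3)) = {h.1, h'.1, k} := by
      ext i
      simp only [Finset.mem_univ, Finset.mem_insert, Finset.mem_singleton, true_iff]
      exact fin3_cases hne hk1.symm hk2.symm i
    rw [hu, Finset.sum_insert, Finset.sum_insert, Finset.sum_singleton, add_assoc]
    · simpa using hk2.symm
    · simp only [Finset.mem_insert, Finset.mem_singleton, not_or]
      exact ⟨hne, hk1.symm⟩
  unfold l1
  rw [hsum]
  simp only [Pi.sub_apply]
  rw [qpt_left hne, qpt_right hne, qpt_other hk1 hk2]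
  simp only [add_sub_cancel_left, abs_mul, abs_sg, mul_one, sub_self, abs_zero, add_zero,
    abs_of_nonneg hs, abs_of_nonneg ht]

/-- the point at distance `δ` from `p` on the half axis `h` -/
def apt (p : V3) (δ : ℝ) (h : HA) : V3 := p + δ • hv h

theorem apt_injective (p : V3) {δ : ℝ} (hδ : 0 < δ) : Injective (apt p δ) := by
  intro g h hgh
  have h1 : hv g = hv h := by
    have := add_left_cancel hgh
    exact smul_right_injective _ hδ.ne' this
  have h2 : g.1 = h.1 := by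
    by_contra hne
    have := congrFun h1 g.1
    rw [hv_same, hv_ne hne] at this
    rcases sg_eq g with e | e <;> rw [e] at this <;> norm_num at this
  refine sg_inj h2 ?_
  have := congrFun h1 g.1
  rw [hv_same, h2, hv_same] at this
  exact this

theorem mem_aseg {p : V3} {δ : ℝ} (hδ : 0 < δ) {h h' : HA} {x : V3} :
    x ∈ segment ℝ (apt p δ h) (apt p δ h') ↔
      ∃ s t : ℝ, 0 ≤ s ∧ 0 ≤ t ∧ s + t = δ ∧ x = p + s • hv h + t • hv h' := by
  constructor
  · rintro ⟨a, b, ha, hb, hab, rfl⟩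
    refine ⟨a * δ, b * δ, by positivity, by positivity, by rw [← add_mul, hab, one_mul], ?_⟩
    unfold apt
    have : a • (p + δ • hv h) + b • (p + δ • hv h') = (a + b) • p + (a * δ) • hv h +
        (b * δ) • hv h' := by
      rw [smul_add, smul_add, smul_smul, smul_smul, add_smul]; abel
    rw [this, hab, one_smul]
  · rintro ⟨s, t, hs, ht, hst, rfl⟩
    refine ⟨s / δ, t / δ, by positivity, by positivity, by rw [← add_div, hst, div_self hδ.ne'],
      ?_⟩
    unfold apt
    have e1 : s / δ * δ = s := div_mul_cancel₀ _ hδ.ne'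
    have e2 : t / δ * δ = t := div_mul_cancel₀ _ hδ.ne'
    have e3 : s / δ + t / δ = 1 := by rw [← add_div, hst, div_self hδ.ne']
    have : (s / δ) • (p + δ • hv h) + (t / δ) • (p + δ • hv h') = (s / δ + t / δ) • p +
        (s / δ * δ) • hv h + (t / δ * δ) • hv h' := by
      rw [smul_add, smul_add, smul_smul, smul_smul, add_smul]; abel
    rw [this, e1, e2, e3, one_smul]

/-- two different segments of the octahedron meet at most in common vertices -/
theorem aseg_inter {p : V3} {δ : ℝ} (hδ : 0 < δ) {h h' g g' : HA} (hne : h.1 ≠ h'.1)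
    (gne : g.1 ≠ g'.1) (hdiff : ¬ ((g = h ∧ g' = h') ∨ (g = h' ∧ g' = h))) {x : V3}
    (hx : x ∈ segment ℝ (apt p δ h) (apt p δ h')) (hx' : x ∈ segment ℝ (apt p δ g) (apt p δ g')) :
    ∃ k, x = apt p δ k ∧ (k = h ∨ k = h') ∧ (k = g ∨ k = g') := by
  have key : ∀ {h h' g g' : HA}, h.1 ≠ h'.1 → g.1 ≠ g'.1 →
      ¬ ((g = h ∧ g' = h') ∨ (g = h' ∧ g' = h)) →
      x ∈ segment ℝ (apt p δ h) (apt p δ h') → x ∈ segment ℝ (apt p δ g) (apt p δ g') →
      ∃ k, x = apt p δ k ∧ (k = h ∨ k = h') := by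
    intro h h' g g' hne gne hdiff hx hx'
    rw [mem_aseg hδ] at hx hx'
    obtain ⟨s, t, hs, ht, hst, rfl⟩ := hx
    obtain ⟨s', t', hs', ht', hst', e⟩ := hx'
    rcases hs.eq_or_lt with h0 | h0
    · subst h0
      refine ⟨h', ?_, Or.inr rfl⟩
      have : t = δ := by linarith
      rw [this, zero_smul, add_zero]; rfl
    · rcases ht.eq_or_lt with h1 | h1
      · subst h1
        refine ⟨h, ?_, Or.inl rfl⟩
        have : s = δ := by linarith
        rw [this, zero_smul, add_zero]; rfl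
      · exact absurd (quarter_unique h0 h1 hne gne ⟨s', t', hs', ht', e⟩) hdiff
  obtain ⟨k, hk, hk'⟩ := key hne gne hdiff hx hx'
  obtain ⟨l, hl, hl'⟩ := key gne hne (by
    rintro (⟨rfl, rfl⟩ | ⟨rfl, rfl⟩)
    · exact hdiff (Or.inl ⟨rfl, rfl⟩)
    · exact hdiff (Or.inr ⟨rfl, rfl⟩)) hx' hx
  have : k = l := apt_injective p hδ (hk.symm.trans hl)
  subst this
  exact ⟨k, hk, hk', hl'⟩

/-- the link of `p` in a rectilinear surface -/
def lnk (Q : HA → HA → Prop) (p : V3) (δ : ℝ) : Set V3 :=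
  {x | ∃ h h', Q h h' ∧ x ∈ segment ℝ (apt p δ h) (apt p δ h')}

theorem conSphere_lnk {Q : HA → HA → Prop} (hQ : IsCyc Q) (hQne : ∀ h h', Q h h' → h.1 ≠ h'.1)
    (p : V3) {δ : ℝ} (hδ : 0 < δ) : ConSphere 1 (lnk Q p δ) := by
  obtain ⟨n, hn, c, hinj, hc⟩ := hQ
  let w : ℕ → HA := fun i => c i
  have hQw : ∀ i, Q (w i) (w (i + 1)) := by
    intro i
    refine (hc _ _).2 ⟨i, Or.inl ⟨rfl, ?_⟩⟩
    show c ((i + 1 : ℕ) : ZMod n) = _
    push_cast
    rfl
  have hwinj : ∀ i j, i < n → j < n → w i = w j → i = j := by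
    intro i j hi hj hij
    have := hinj hij
    rw [ZMod.natCast_eq_natCast_iff'] at this
    rwa [Nat.mod_eq_of_lt hi, Nat.mod_eq_of_lt hj] at this
  have hwn : w n = w 0 := by
    show c ((n : ℕ) : ZMod n) = c ((0 : ℕ) : ZMod n)
    rw [ZMod.natCast_self, Nat.cast_zero]
  have hne : ∀ i, (w i).1 ≠ (w (i + 1)).1 := fun i => hQne _ _ (hQw i)
  -- pairs are different
  have hdiff : ∀ i j, i < j → j < n → ¬ ((w j = w i ∧ w (j + 1) = w (i + 1)) ∨
      (w j = w (i + 1) ∧ w (j + 1) = w i)) := by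
    rintro i j hij hj (⟨h1, _⟩ | ⟨h1, h2⟩)
    · have := hwinj j i hj (by omega) h1
      omega
    · have h3 := hwinj j (i + 1) hj (by omega) h1
      subst h3
      rcases Nat.lt_or_ge (i + 1 + 1) n with h | h
      · have := hwinj _ _ h (by omega) h2
        omega
      · have h4 : i + 1 + 1 = n := by omega
        rw [h4, hwn] at h2
        have := hwinj 0 i (by omega) (by omega) h2
        omega
  have hint : ∀ i j, i < j → j < n → ∀ x, x ∈ segment ℝ (apt p δ (w i)) (apt p δ (w (i + 1))) →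
      x ∈ segment ℝ (apt p δ (w j)) (apt p δ (w (j + 1))) →
      ∃ k, x = apt p δ k ∧ (k = w i ∨ k = w (i + 1)) ∧ (k = w j ∨ k = w (j + 1)) :=
    fun i j hij hj x hx hx' => aseg_inter hδ (hne i) (hne j) (hdiff i j hij hj) hx hx'
  have key := conSphere_poly (fun i => apt p δ (w i)) (n - 1) (by omega)
    (fun i hi h => by
      have := hwinj i (i + 1) (by omega) (by omega) (apt_injective p hδ h)
      omega)
    (fun i hi x hx => by
      obtain ⟨k, hk, h1, h2⟩ := hint i (i + 1) (by omega) (by omega) x hx.1 hx.2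
      have : k = w (i + 1) := by
        rcases h1 with h1 | h1
        · rcases h2 with h2 | h2
          · exact h2
          · exfalso
            have := hwinj i (i + 1 + 1) (by omega) (by omega) (h1.symm.trans h2)
            omega
        · exact h1
      rw [hk, this]; rfl)
    (fun i j hij hj => by
      rw [disjoint_left]
      intro x hx hx'
      obtain ⟨k, _, h1, h2⟩ := hint i j (by omega) (by omega) x hx hx'
      rcases h1 with h1 | h1 <;> rcases h2 with h2 | h2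
      · have := hwinj i j (by omega) (by omega) (h1.symm.trans h2); omega
      · have := hwinj i (j + 1) (by omega) (by omega) (h1.symm.trans h2); omega
      · have := hwinj (i + 1) j (by omega) (by omega) (h1.symm.trans h2); omega
      · have := hwinj (i + 1) (j + 1) (by omega) (by omega) (h1.symm.trans h2); omega)
    (fun h => by
      have := hwinj (n - 1) 0 (by omega) (by omega) (apt_injective p hδ h)
      omega)
    (fun i hi x hx => by
      have e : w (n - 1 + 1) = w 0 := by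
        have : n - 1 + 1 = n := by omega
        rw [this, hwn]
      obtain ⟨k, hk, h1, h2⟩ := hint i (n - 1) (by omega) (by omega) x hx.1
        (by rw [e]; exact hx.2)
      rw [e] at h2
      rcases h2 with h2 | h2
      · right
        rw [hk, h2]; rfl
      · left
        rw [hk, h2])
  have hset : (⋃ i ∈ {i | i < n - 1}, segment ℝ (apt p δ (w i)) (apt p δ (w (i + 1)))) ∪
      segment ℝ (apt p δ (w (n - 1))) (apt p δ (w 0)) = lnk Q p δ := by
    have e : w (n - 1 + 1) = w 0 := by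
      have : n - 1 + 1 = n := by omega
      rw [this, hwn]
    ext x
    constructor
    · rintro (hx | hx)
      · obtain ⟨i, _, hx⟩ := mem_iUnion₂.1 hx
        exact ⟨_, _, hQw i, hx⟩
      · exact ⟨_, _, e ▸ hQw (n - 1), hx⟩
    · rintro ⟨h, h', hh, hx⟩
      have : NeZero n := ⟨by omega⟩
      have key : ∀ i : ZMod n, x ∈ segment ℝ (apt p δ (c i)) (apt p δ (c (i + 1))) →
          x ∈ (⋃ i ∈ {i | i < n - 1}, segment ℝ (apt p δ (w i)) (apt p δ (w (i + 1)))) ∪
            segment ℝ (apt p δ (w (n - 1))) (apt p δ (w 0)) := by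
        intro i hx
        have h1 : c i = w i.val := by
          show c i = c ((i.val : ℕ) : ZMod n)
          rw [ZMod.natCast_val, ZMod.cast_id', id]
        have h2 : c (i + 1) = w (i.val + 1) := by
          show c (i + 1) = c ((i.val + 1 : ℕ) : ZMod n)
          push_cast
          rw [ZMod.natCast_val, ZMod.cast_id', id]
        rw [h1, h2] at hx
        have hlt := ZMod.val_lt i
        rcases Nat.lt_or_ge i.val (n - 1) with h | h
        · exact Or.inl (mem_iUnion₂.2 ⟨_, h, hx⟩)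
        · right
          have : i.val = n - 1 := by omega
          rw [this, e] at hx
          exact hx
      obtain ⟨i, ⟨rfl, rfl⟩ | ⟨rfl, rfl⟩⟩ := (hc _ _).1 hh
      · exact key i hx
      · rw [segment_symm] at hx
        exact key i hx
  rw [← hset]
  exact key

theorem isCompact_lnk (Q : HA → HA → Prop) (p : V3) (δ : ℝ) : IsCompact (lnk Q p δ) := by
  have : lnk Q p δ = ⋃ x ∈ {x : HA × HA | Q x.1 x.2}, segment ℝ (apt p δ x.1) (apt p δ x.2) := by
    ext x
    rw [mem_iUnion₂]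
    constructor
    · rintro ⟨h, h', hh, hx⟩; exact ⟨(h, h'), hh, hx⟩
    · rintro ⟨⟨h, h'⟩, hh, hx⟩; exact ⟨h, h', hh, hx⟩
  rw [this]
  refine (Set.toFinite _).isCompact_biUnion fun x _ => ?_
  rw [segment_eq_image_lineMap]
  exact isCompact_Icc.image AffineMap.lineMap_continuous

theorem rayBaseAt_lnk {Q : HA → HA → Prop} (hQne : ∀ h h', Q h h' → h.1 ≠ h'.1)
    (p : V3) {δ : ℝ} (hδ : 0 < δ) : RayBaseAt p (lnk Q p δ) := by
  have hl : ∀ x ∈ lnk Q p δ, l1 (x - p) = δ := by
    rintro x ⟨h, h', hh, hx⟩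
    rw [mem_aseg hδ] at hx
    obtain ⟨s, t, hs, ht, hst, rfl⟩ := hx
    rw [l1_qpt hs ht (hQne _ _ hh), hst]
  rw [rayBaseAt_iff]
  refine ⟨isCompact_lnk Q p δ, ?_, ?_⟩
  · intro h
    have := hl p h
    rw [sub_self] at this
    have h0 : l1 0 = 0 := by simp [l1]
    rw [h0] at this
    exact hδ.ne this
  · intro x hx s hs hsx
    have h1 := hl _ hsx
    rw [add_sub_cancel_left, l1_smul, hl x hx, abs_of_pos hs] at h1
    have : s * δ = 1 * δ := by rw [h1, one_mul]
    exact mul_right_cancel₀ hδ.ne' this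

theorem exists_edge_of_isCyc {Q : HA → HA → Prop} (hQ : IsCyc Q) : ∃ h h', Q h h' := by
  obtain ⟨n, _, c, _, hc⟩ := hQ
  exact ⟨c 0, c (0 + 1), (hc _ _).2 ⟨0, Or.inl ⟨rfl, rfl⟩⟩⟩

namespace NearCyc

variable {F : Set V3} {p : V3} {ε : ℝ} {Q : HA → HA → Prop}

theorem lnk_eq (H : NearCyc F p ε Q) {δ : ℝ} (hδ : 0 < δ) (hδε : δ < ε) :
    lnk Q p δ = F ∩ {x | l1 (x - p) = δ} := by
  ext x
  constructor
  · rintro ⟨h, h', hh, hx⟩
    rw [mem_aseg hδ] at hx
    obtain ⟨s, t, hs, ht, hst, rfl⟩ := hx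
    have hl := l1_qpt (p := p) hs ht (H.ne _ _ hh)
    refine ⟨(H.iff _ (lt_of_le_of_lt (dist_le_l1 _ _) ?_)).2 ⟨h, h', hh, s, t, hs, ht, rfl⟩,
      hl.trans hst⟩
    rw [hl, hst]; exact hδε
  · rintro ⟨hxF, hx⟩
    have hx' : l1 (x - p) = δ := hx
    obtain ⟨h, h', hh, s, t, hs, ht, rfl⟩ := (H.iff _ (lt_of_le_of_lt (dist_le_l1 _ _)
      (by rw [hx']; exact hδε))).1 hxF
    rw [l1_qpt hs ht (H.ne _ _ hh)] at hx'
    exact ⟨h, h', hh, (mem_aseg hδ).2 ⟨s, t, hs, ht, hx', rfl⟩⟩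

theorem cone_eq (H : NearCyc F p ε Q) {δ : ℝ} (hδ : 0 < δ) (hδε : δ < ε) :
    coneSetAt p (lnk Q p δ) = F ∩ {x | l1 (x - p) ≤ δ} := by
  ext x
  constructor
  · rintro ⟨s, hs, y, ⟨h, h', hh, hy⟩, rfl⟩
    rw [mem_aseg hδ] at hy
    obtain ⟨a, b, ha, hb, hab, rfl⟩ := hy
    have e : p + s • (p + a • hv h + b • hv h' - p) = p + (s * a) • hv h + (s * b) • hv h' := by
      have : p + a • hv h + b • hv h' - p = a • hv h + b • hv h' := by abel
      rw [this, smul_add, smul_smul, smul_smul, add_assoc]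
    rw [e]
    have h1 : 0 ≤ s * a := mul_nonneg hs.1 ha
    have h2 : 0 ≤ s * b := mul_nonneg hs.1 hb
    have h3 : s * a + s * b ≤ δ := by
      rw [← mul_add, hab]
      exact mul_le_of_le_one_left hδ.le hs.2
    have hl := l1_qpt (p := p) h1 h2 (H.ne _ _ hh)
    refine ⟨(H.iff _ (lt_of_le_of_lt (dist_le_l1 _ _) ?_)).2
      ⟨h, h', hh, s * a, s * b, h1, h2, rfl⟩, hl.le.trans h3⟩
    rw [hl]; exact lt_of_le_of_lt h3 hδε
  · rintro ⟨hxF, hx⟩
    have hx' : l1 (x - p) ≤ δ := hx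
    obtain ⟨h, h', hh, s, t, hs, ht, rfl⟩ := (H.iff _ (lt_of_le_of_lt (dist_le_l1 _ _)
      (lt_of_le_of_lt hx' hδε))).1 hxF
    rw [l1_qpt hs ht (H.ne _ _ hh)] at hx'
    rcases (add_nonneg hs ht).eq_or_lt with h0 | h0
    · have hs0 : s = 0 := by linarith
      have ht0 : t = 0 := by linarith
      refine ⟨0, ⟨le_rfl, zero_le_one⟩, apt p δ h, ⟨h, h', hh, left_mem_segment _ _ _⟩, ?_⟩
      rw [hs0, ht0, zero_smul, zero_smul, zero_smul, add_zero]
    · refine ⟨(s + t) / δ, ⟨by positivity, by rw [div_le_one hδ]; exact hx'⟩,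
        p + (s * (δ / (s + t))) • hv h + (t * (δ / (s + t))) • hv h', ⟨h, h', hh,
          (mem_aseg hδ).2 ⟨_, _, by positivity, by positivity, ?_, rfl⟩⟩, ?_⟩
      · rw [← add_mul, mul_div_cancel₀ _ h0.ne']
      · have e : p + (s * (δ / (s + t))) • hv h + (t * (δ / (s + t))) • hv h' - p =
            (s * (δ / (s + t))) • hv h + (t * (δ / (s + t))) • hv h' := by abel
        rw [e, smul_add, smul_smul, smul_smul, ← add_assoc]
        have e1 : (s + t) / δ * (s * (δ / (s + t))) = s := by field_simp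
        have e2 : (s + t) / δ * (t * (δ / (s + t))) = t := by field_simp
        rw [e1, e2]

/-- **Diamonds are conical discs.** -/
theorem conBall (H : NearCyc F p ε Q) {δ : ℝ} (hδ : 0 < δ) (hδε : δ < ε) :
    ConBall 2 (F ∩ {x | l1 (x - p) ≤ δ}) (F ∩ {x | l1 (x - p) = δ}) := by
  rw [← H.cone_eq hδ hδε, ← H.lnk_eq hδ hδε]
  exact conBall_cone (conSphere_lnk H.cyc H.ne p hδ) (rayBaseAt_lnk H.ne p hδ)

theorem mono (H : NearCyc F p ε Q) {ε' : ℝ} (h : ε' ≤ ε) : NearCyc F p ε' Q :=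
  ⟨H.cyc, H.ne, fun z hz => H.iff z (lt_of_lt_of_le hz h)⟩

theorem mem (H : NearCyc F p ε Q) (hε : 0 < ε) : p ∈ F := by
  obtain ⟨h, h', hh⟩ := exists_edge_of_isCyc H.cyc
  refine (H.iff p (by rwa [dist_self])).2 ⟨h, h', hh, 0, 0, le_rfl, le_rfl, ?_⟩
  rw [zero_smul, zero_smul, add_zero, add_zero]

end NearCyc

/-- **(M1)** rectilinear surfaces have small disc neighbourhoods. -/
theorem RectLocal.smallDiscs {F : Set V3} (hF : RectLocal F) : SmallDiscs F := by
  intro x hx ε hε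
  obtain ⟨η, hη, Q, H⟩ := hF x hx
  obtain ⟨δ, hδ, hδm⟩ := exists_between (lt_min hε hη)
  rw [lt_min_iff] at hδm
  refine ⟨_, _, ⟨H.conBall hδ hδm.2, inter_subset_left, {y | l1 (y - x) < δ}, ?_, ?_⟩, ?_, ?_⟩
  · exact isOpen_lt (continuous_l1_sub x) continuous_const
  · ext y
    constructor
    · rintro ⟨⟨h1, h2⟩, h3⟩
      exact ⟨h1, lt_of_le_of_ne h2 fun h => h3 ⟨h1, h⟩⟩
    · rintro ⟨h1, h2⟩
      have h2' : l1 (y - x) < δ := h2
      exact ⟨⟨h1, h2'.le⟩, fun h => h2'.ne h.2⟩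
  · have h0 : l1 (x - x) = 0 := by rw [sub_self]; simp [l1]
    refine ⟨⟨hx, ?_⟩, fun h => ?_⟩
    · show l1 (x - x) ≤ δ
      rw [h0]; exact hδ.le
    · have : l1 (x - x) = δ := h.2
      rw [h0] at this
      exact hδ.ne this
  · rintro y ⟨_, hy⟩
    exact mem_ball.2 (lt_of_le_of_lt (dist_le_l1 _ _) (lt_of_le_of_lt hy hδm.1))

end P073.MOS
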