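import Vale.Agent.P073.MOS.Build
import Vale.Agent.P073.MOS.Diam

/-!
# P073, block MOS: quarter squares and fine locally finite covers of rectilinear surfaces
-/

open Set Metric Topology Function Filter

namespace P073.MOS

/-! ### quarter squares -/

/-- lower corner of the quarter square -/
noncomputable def qlo (p : V3) (r : ℝ) (h h' : HA) : V3 :=
  fun k => p k + min 0 (r * hv h k) + min 0 (r * hv h' k)

/-- upper corner of the quarter square -/
noncomputable def qhi (p : V3) (r : ℝ) (h h' : HA) : V3 :=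
  fun k => p k + max 0 (r * hv h k) + max 0 (r * hv h' k)

/-- the third axis -/
def thd (i j : Fin 3) : Fin 3 := -(i + j)

theorem thd_ne {i j : Fin 3} (h : i ≠ j) : thd i j ≠ i ∧ thd i j ≠ j := by
  revert i j; decide

theorem eq_thd {i j k : Fin 3} (h : i ≠ j) (h1 : k ≠ i) (h2 : k ≠ j) : k = thd i j := by
  revert i j k; decide

theorem thd_eq_iff {i j i' j' : Fin 3} (h : i ≠ j) (h' : i' ≠ j') (e : thd i j = thd i' j') :
    (i = i' ∧ j = j') ∨ (i = j' ∧ j = i') := by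
  revert i j i' j'; decide

variable {p : V3} {r : ℝ} {h h' : HA}

theorem qlo_other {k : Fin 3} (h1 : k ≠ h.1) (h2 : k ≠ h'.1) : qlo p r h h' k = p k := by
  unfold qlo; rw [hv_ne h1, hv_ne h2]; simp

theorem qhi_other {k : Fin 3} (h1 : k ≠ h.1) (h2 : k ≠ h'.1) : qhi p r h h' k = p k := by
  unfold qhi; rw [hv_ne h1, hv_ne h2]; simp

theorem qlo_left (hne : h.1 ≠ h'.1) : qlo p r h h' h.1 = p h.1 + min 0 (r * sg h) := by
  unfold qlo; rw [hv_same, hv_ne hne]; simp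

theorem qhi_left (hne : h.1 ≠ h'.1) : qhi p r h h' h.1 = p h.1 + max 0 (r * sg h) := by
  unfold qhi; rw [hv_same, hv_ne hne]; simp

theorem qlo_right (hne : h.1 ≠ h'.1) : qlo p r h h' h'.1 = p h'.1 + min 0 (r * sg h') := by
  unfold qlo; rw [hv_same, hv_ne hne.symm]; simp

theorem qhi_right (hne : h.1 ≠ h'.1) : qhi p r h h' h'.1 = p h'.1 + max 0 (r * sg h') := by
  unfold qhi; rw [hv_same, hv_ne hne.symm]; simp

theorem qcoord_iff (hr : 0 ≤ r) (h : HA) (a x : ℝ) :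
    (a + min 0 (r * sg h) ≤ x ∧ x ≤ a + max 0 (r * sg h)) ↔
      ∃ s, 0 ≤ s ∧ s ≤ r ∧ x = a + s * sg h := by
  rcases sg_eq h with e | e <;> rw [e]
  · rw [mul_one, min_eq_left hr, max_eq_right hr]
    constructor
    · rintro ⟨h1, h2⟩; exact ⟨x - a, by linarith, by linarith, by ring⟩
    · rintro ⟨s, h1, h2, rfl⟩; exact ⟨by linarith, by linarith⟩
  · have h1 : r * -1 ≤ 0 := by linarith
    rw [min_eq_right h1, max_eq_left h1]
    constructor
    · rintro ⟨h1, h2⟩; exact ⟨a - x, by linarith, by linarith, by ring⟩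
    · rintro ⟨s, h1, h2, rfl⟩; exact ⟨by linarith, by linarith⟩

theorem qcoord_lt (hr : 0 < r) (h : HA) (a : ℝ) :
    a + min 0 (r * sg h) < a + max 0 (r * sg h) := by
  rcases sg_eq h with e | e <;> rw [e]
  · rw [mul_one, min_eq_left hr.le, max_eq_right hr.le]; linarith
  · have h1 : r * -1 ≤ 0 := by linarith
    rw [min_eq_right h1, max_eq_left h1]; linarith

theorem qcoord_lt_iff (hr : 0 < r) (h : HA) (a x : ℝ) :
    (a + min 0 (r * sg h) < x ∧ x < a + max 0 (r * sg h)) →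
      ∃ s, 0 < s ∧ x = a + s * sg h := by
  rcases sg_eq h with e | e <;> rw [e]
  · rw [mul_one, min_eq_left hr.le, max_eq_right hr.le]
    rintro ⟨h1, h2⟩; exact ⟨x - a, by linarith, by ring⟩
  · have h1 : r * -1 ≤ 0 := by linarith
    rw [min_eq_right h1, max_eq_left h1]
    rintro ⟨h1, h2⟩; exact ⟨a - x, by linarith, by ring⟩

theorem mem_qIcc (hr : 0 ≤ r) (hne : h.1 ≠ h'.1) {z : V3} : z ∈ Icc (qlo p r h h') (qhi p r h h') ↔
    ∃ s t, 0 ≤ s ∧ s ≤ r ∧ 0 ≤ t ∧ t ≤ r ∧ z = p + s • hv h + t • hv h' := by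
  constructor
  · rintro ⟨h1, h2⟩
    have a1 := h1 h.1; have a2 := h2 h.1
    have b1 := h1 h'.1; have b2 := h2 h'.1
    rw [qlo_left hne] at a1
    rw [qhi_left hne] at a2
    rw [qlo_right hne] at b1
    rw [qhi_right hne] at b2
    obtain ⟨s, hs, hsr, hs'⟩ := (qcoord_iff hr h _ _).1 ⟨a1, a2⟩
    obtain ⟨t, ht, htr, ht'⟩ := (qcoord_iff hr h' _ _).1 ⟨b1, b2⟩
    refine ⟨s, t, hs, hsr, ht, htr, ?_⟩
    funext k
    by_cases e1 : k = h.1
    · rw [e1, qpt_left hne, hs']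
    · by_cases e2 : k = h'.1
      · rw [e2, qpt_right hne, ht']
      · rw [qpt_other e1 e2]
        have c1 := h1 k; have c2 := h2 k
        rw [qlo_other e1 e2] at c1
        rw [qhi_other e1 e2] at c2
        exact le_antisymm c2 c1
  · rintro ⟨s, t, hs, hsr, ht, htr, rfl⟩
    have key : ∀ k, qlo p r h h' k ≤ (p + s • hv h + t • hv h') k ∧
        (p + s • hv h + t • hv h') k ≤ qhi p r h h' k := by
      intro k
      by_cases e1 : k = h.1
      · rw [e1, qpt_left hne, qlo_left hne, qhi_left hne]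
        exact (qcoord_iff hr h _ _).2 ⟨s, hs, hsr, rfl⟩
      · by_cases e2 : k = h'.1
        · rw [e2, qpt_right hne, qlo_right hne, qhi_right hne]
          exact (qcoord_iff hr h' _ _).2 ⟨t, ht, htr, rfl⟩
        · rw [qpt_other e1 e2, qlo_other e1 e2, qhi_other e1 e2]
          exact ⟨le_rfl, le_rfl⟩
    exact ⟨fun k => (key k).1, fun k => (key k).2⟩

/-- the part of the quarter plane in the closed ball -/
theorem quarter_inter (hr : 0 ≤ r) (hne : h.1 ≠ h'.1) :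
    quarter p h h' ∩ closedBall p r = Icc (qlo p r h h') (qhi p r h h') := by
  ext z
  rw [mem_qIcc hr hne]
  constructor
  · rintro ⟨⟨s, t, hs, ht, rfl⟩, hz⟩
    rw [mem_closedBall, dist_pi_le_iff hr] at hz
    have h1 := hz h.1
    have h2 := hz h'.1
    rw [qpt_left hne, Real.dist_eq, add_sub_cancel_left, abs_mul, abs_sg, mul_one,
      abs_of_nonneg hs] at h1
    rw [qpt_right hne, Real.dist_eq, add_sub_cancel_left, abs_mul, abs_sg, mul_one,
      abs_of_nonneg ht] at h2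
    exact ⟨s, t, hs, h1, ht, h2, rfl⟩
  · rintro ⟨s, t, hs, hsr, ht, htr, rfl⟩
    exact ⟨⟨s, t, hs, ht, rfl⟩, mem_closedBall.2 (dist_qpt_le hs ht hsr htr hne)⟩

variable {F : Set V3} {Q : HA → HA → Prop} {ε : ℝ}

/-- the surface in a closed ball is a finite union of quarter squares -/
theorem NearCyc.inter_closedBall (H : NearCyc F p ε Q) (hr : 0 ≤ r) (hrε : r < ε) {z : V3} :
    (z ∈ F ∧ z ∈ closedBall p r) ↔
      ∃ h h', Q h h' ∧ h.1 < h'.1 ∧ z ∈ Icc (qlo p r h h') (qhi p r h h') := by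
  constructor
  · rintro ⟨hz, hzr⟩
    obtain ⟨h, h', hh, hzq⟩ := (H.iff z (lt_of_le_of_lt (mem_closedBall.1 hzr) hrε)).1 hz
    have hne := H.ne _ _ hh
    rcases lt_or_gt_of_ne hne with hlt | hlt
    · exact ⟨h, h', hh, hlt, by rw [← quarter_inter hr hne]; exact ⟨hzq, hzr⟩⟩
    · rw [quarter_comm] at hzq
      exact ⟨h', h, H.cyc.symm hh, hlt, by rw [← quarter_inter hr hne.symm]; exact ⟨hzq, hzr⟩⟩
  · rintro ⟨h, h', hh, _, hz⟩
    rw [← quarter_inter hr (H.ne _ _ hh)] at hz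
    exact ⟨(H.iff z (lt_of_le_of_lt (mem_closedBall.1 hz.2) hrε)).2 ⟨h, h', hh, hz.1⟩, hz.2⟩

theorem NearCyc.isCompact (H : NearCyc F p ε Q) (hr : 0 ≤ r) (hrε : r < ε) :
    IsCompact (F ∩ closedBall p r) := by
  have : F ∩ closedBall p r = ⋃ x ∈ {x : HA × HA | Q x.1 x.2 ∧ x.1.1 < x.2.1},
      Icc (qlo p r x.1 x.2) (qhi p r x.1 x.2) := by
    ext z
    rw [mem_iUnion₂]
    refine (H.inter_closedBall hr hrε).trans ⟨?_, ?_⟩
    · rintro ⟨h, h', a, b, c⟩; exact ⟨(h, h'), ⟨a, b⟩, c⟩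
    · rintro ⟨⟨h, h'⟩, ⟨a, b⟩, c⟩; exact ⟨h, h', a, b, c⟩
  rw [this]
  exact (Set.toFinite _).isCompact_biUnion fun x _ => isCompact_Icc

theorem RectLocal.weaklyLocallyCompact (hF : RectLocal F) : WeaklyLocallyCompactSpace F := by
  refine ⟨fun x => ?_⟩
  obtain ⟨ε, hε, Q, H⟩ := hF x.1 x.2
  refine ⟨Subtype.val ⁻¹' closedBall x.1 (ε / 2), ?_, ?_⟩
  · rw [Topology.IsInducing.subtypeVal.isCompact_iff, Subtype.image_preimage_coe]
    exact H.isCompact (by linarith) (by linarith)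
  · exact continuous_subtype_val.continuousAt.preimage_mem_nhds
      (closedBall_mem_nhds _ (by linarith))

/-- a chart of the surface -/
structure Chart (F : Set V3) (ε : V3 → ℝ) where
  /-- the centre -/
  p : V3
  /-- the radius -/
  r : ℝ
  /-- the outer radius -/
  r' : ℝ
  /-- the cycle -/
  Q : HA → HA → Prop
  pos : 0 < r
  lt : r < r'
  near : NearCyc F p r' Q
  small : ∀ z ∈ F, ∀ z' ∈ F, dist z p ≤ r → dist z' p ≤ r → dist z z' < ε z

/-- all sufficiently small radii are good -/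
theorem RectLocal.exists_radius (hF : RectLocal F) {ε : V3 → ℝ} (hε : ContinuousOn ε F)
    (hpos : ∀ z ∈ F, 0 < ε z) {x : V3} (hx : x ∈ F) : ∃ R > 0, ∀ r, 0 < r → r < R →
      ∃ c : Chart F ε, c.p = x ∧ c.r = r := by
  obtain ⟨η, hη, Q, H⟩ := hF x hx
  have h1 : ∀ᶠ z in 𝓝[F] x, ε x / 2 < ε z :=
    (hε x hx).eventually (lt_mem_nhds (by linarith [hpos x hx]))
  rw [eventually_nhdsWithin_iff, Metric.eventually_nhds_iff] at h1
  obtain ⟨R', hR', h1⟩ := h1
  refine ⟨min η (min R' (ε x / 4)), lt_min hη (lt_min hR' (by linarith [hpos x hx])), ?_⟩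
  intro r hr hrR
  rw [lt_min_iff, lt_min_iff] at hrR
  refine ⟨⟨x, r, η, Q, hr, hrR.1, H, ?_⟩, rfl, rfl⟩
  intro z hz z' hz' hzr hzr'
  have h2 := h1 (lt_of_le_of_lt hzr hrR.2.1) hz
  have h3 := dist_triangle_right z z' x
  linarith [hrR.2.2]

/-- **fine locally finite covers** -/
theorem RectLocal.exists_cover (hF : RectLocal F) {ε : V3 → ℝ} (hε : ContinuousOn ε F)
    (hpos : ∀ z ∈ F, 0 < ε z) : ∃ (α : Type) (c : α → Chart F ε),
      (∀ z ∈ F, ∃ a, z ∈ closedBall (c a).p (c a).r) ∧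
      ∀ z ∈ F, ∃ U ∈ 𝓝 z, {a | (F ∩ closedBall (c a).p (c a).r ∩ U).Nonempty}.Finite := by
  have := hF.weaklyLocallyCompact
  have : SecondCountableTopology F := inferInstance
  have : LocallyCompactSpace F := inferInstance
  have : SigmaCompactSpace F := inferInstance
  choose! R hR hchart using fun x (hx : x ∈ F) => hF.exists_radius hε hpos hx
  have hB : ∀ x : F, (𝓝 x).HasBasis (fun r : ℝ => 0 < r ∧ r < R x.1)
      (fun r => Subtype.val ⁻¹' closedBall x.1 r) := by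
    intro x
    have h1 : (𝓝 x).HasBasis (fun r : ℝ => 0 < r) (fun r => closedBall x r) :=
      nhds_basis_closedBall
    have h2 := h1.restrict (q := fun r => r < R x.1) (by
      intro r hr
      obtain ⟨s, hs, hs'⟩ := exists_between (lt_min hr (hR x.1 x.2))
      rw [lt_min_iff] at hs'
      exact ⟨s, hs, hs'.2, closedBall_subset_closedBall hs'.1.le⟩)
    exact h2
  obtain ⟨α, c, r, hcr, hcov, hlf⟩ :=
    refinement_of_locallyCompact_sigmaCompact_of_nhds_basis hB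
  choose ch hch1 hch2 using fun a => hchart (c a).1 (c a).2 (r a) (hcr a).1 (hcr a).2
  refine ⟨α, ch, ?_, ?_⟩
  · intro z hz
    have h1 : (⟨z, hz⟩ : F) ∈ ⋃ a, Subtype.val ⁻¹' closedBall (c a).1 (r a) := by
      rw [hcov]; exact mem_univ _
    obtain ⟨a, ha⟩ := mem_iUnion.1 h1
    exact ⟨a, by rw [hch1, hch2]; exact ha⟩
  · intro z hz
    obtain ⟨U, hU, hfin⟩ := hlf ⟨z, hz⟩
    obtain ⟨V, hV, hVU⟩ := mem_nhds_induced Subtype.val (⟨z, hz⟩ : F) U |>.1 hU
    refine ⟨V, hV, hfin.subset ?_⟩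
    rintro a ⟨x, ⟨hxF, hx⟩, hxV⟩
    rw [hch1, hch2] at hx
    exact ⟨⟨x, hxF⟩, hx, hVU hxV⟩

end P073.MOS
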