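import Vale.Agent.P073.MOS.Defs
import Mathlib.Dynamics.PeriodicPts.Lemmas

/-!
# P073, block MOS: combinatorics of cycles of half axes, collapsing cyclic words
-/

open Set Function

namespace P073.MOS

theorem zmod_two_ne {n : ℕ} (hn : 3 ≤ n) : (2 : ZMod n) ≠ 0 := by
  intro h
  have h1 : ((2 : ℕ) : ZMod n) = 0 := by exact_mod_cast h
  rw [ZMod.natCast_eq_zero_iff] at h1
  have := Nat.le_of_dvd two_pos h1
  omega

theorem zmod_succ_ne_pred {n : ℕ} (hn : 3 ≤ n) (i : ZMod n) : i + 1 ≠ i - 1 := by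
  intro h
  apply zmod_two_ne hn
  have : (2 : ZMod n) = (i + 1) - (i - 1) := by ring
  rw [this, h, sub_self]

variable {R : HA → HA → Prop}

theorem IsCyc.symm (hR : IsCyc R) {h h' : HA} (H : R h h') : R h' h := by
  obtain ⟨n, _, c, _, hc⟩ := hR
  rw [hc] at H ⊢
  obtain ⟨i, ⟨a, b⟩ | ⟨a, b⟩⟩ := H
  · exact ⟨i, Or.inr ⟨b, a⟩⟩
  · exact ⟨i, Or.inl ⟨b, a⟩⟩

/-- the neighbours of `c i` -/
theorem nbr_iff {n : ℕ} {c : ZMod n → HA} (hinj : Injective c)
    (hc : ∀ h h', R h h' ↔ ∃ i, (h = c i ∧ h' = c (i + 1)) ∨ (h = c (i + 1) ∧ h' = c i))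
    (i : ZMod n) (x : HA) : R (c i) x ↔ x = c (i + 1) ∨ x = c (i - 1) := by
  rw [hc]
  constructor
  · rintro ⟨j, ⟨a, b⟩ | ⟨a, b⟩⟩
    · have := hinj a
      subst this
      exact Or.inl b
    · have := hinj a
      subst this
      exact Or.inr (by rw [b, add_sub_cancel_right])
  · rintro (h | h)
    · exact ⟨i, Or.inl ⟨rfl, h⟩⟩
    · exact ⟨i - 1, Or.inr ⟨by rw [sub_add_cancel], h⟩⟩

theorem IsCyc.two (hR : IsCyc R) {h x y z : HA} (hx : R h x) (hy : R h y) (hxy : x ≠ y)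
    (hz : R h z) : z = x ∨ z = y := by
  obtain ⟨n, _, c, hinj, hc⟩ := hR
  obtain ⟨i, rfl⟩ : ∃ i, h = c i := by
    obtain ⟨i, ⟨a, b⟩ | ⟨a, b⟩⟩ := (hc _ _).1 hx
    · exact ⟨i, a⟩
    · exact ⟨i + 1, a⟩
  rw [nbr_iff hinj hc] at hx hy hz
  rcases hx with rfl | rfl <;> rcases hy with rfl | rfl <;> rcases hz with rfl | rfl <;>
    first | exact absurd rfl hxy | simp

theorem IsCyc.other (hR : IsCyc R) {h x : HA} (hx : R h x) : ∃ y, y ≠ x ∧ R h y := by
  obtain ⟨n, hn, c, hinj, hc⟩ := hR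
  obtain ⟨i, rfl⟩ : ∃ i, h = c i := by
    obtain ⟨i, ⟨a, b⟩ | ⟨a, b⟩⟩ := (hc _ _).1 hx
    · exact ⟨i, a⟩
    · exact ⟨i + 1, a⟩
  simp only [nbr_iff hinj hc] at hx ⊢
  have hne : c (i + 1) ≠ c (i - 1) := fun h => zmod_succ_ne_pred hn i (hinj h)
  rcases hx with rfl | rfl
  · exact ⟨_, hne.symm, Or.inr rfl⟩
  · exact ⟨_, hne, Or.inl rfl⟩

theorem IsCyc.conn (hR : IsCyc R) (X : HA → Prop) {h₀ h₁ : HA} (h01 : R h₀ h₁) (hX0 : X h₀)
    (hX : ∀ h h', X h → R h h' → X h') : ∀ h h', R h h' → X h := by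
  obtain ⟨n, hn, c, hinj, hc⟩ := hR
  have : NeZero n := ⟨by omega⟩
  have hmem : ∀ h h', R h h' → ∃ i, h = c i := by
    intro h h' H
    obtain ⟨i, ⟨a, b⟩ | ⟨a, b⟩⟩ := (hc _ _).1 H
    · exact ⟨i, a⟩
    · exact ⟨i + 1, a⟩
  obtain ⟨i, rfl⟩ := hmem _ _ h01
  have step : ∀ m : ℕ, X (c (i + m)) := by
    intro m
    induction m with
    | zero => simpa using hX0
    | succ m ih =>
      refine hX _ _ ih ?_
      rw [nbr_iff hinj hc]
      left
      push_cast
      ring_nf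
  intro h h' H
  obtain ⟨j, rfl⟩ := hmem _ _ H
  have h1 := step (j - i).val
  rwa [ZMod.natCast_val, ZMod.cast_id', id, add_sub_cancel] at h1

/-! ### collapsing a cyclic word -/

/-- A cyclic word in which each letter has a single exit can be collapsed to a cyclic enumeration
of its letters. -/
theorem exists_cyclic_enum {A : Type*} {n : ℕ} [NeZero n] (ρ : ZMod n → A)
    (hex : ∀ i j, ρ i = ρ j → ρ (i + 1) ≠ ρ i → ρ (j + 1) ≠ ρ j → i = j)
    (hnc : ∃ i j, ρ i ≠ ρ j) :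
    ∃ k : ℕ, 2 ≤ k ∧ ∃ c : ZMod k → A, Injective c ∧ (∀ a, (∃ i, ρ i = a) ↔ ∃ i, c i = a) ∧
      ∀ a b, (a ≠ b ∧ ∃ i, ρ i = a ∧ ρ (i + 1) = b) ↔ ∃ j, c j = a ∧ c (j + 1) = b := by
  classical
  -- exits exist
  have hexit : ∀ i, ∃ j, ρ j = ρ i ∧ ρ (j + 1) ≠ ρ i := by
    intro i
    by_contra hcon
    push Not at hcon
    have step : ∀ m : ℕ, ρ (i + m) = ρ i := by
      intro m
      induction m with
      | zero => simp
      | succ m ih =>
        have := hcon _ ih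
        rw [← this]
        congr 1
        push_cast
        ring
    have all : ∀ j, ρ j = ρ i := by
      intro j
      have h1 := step (j - i).val
      rwa [ZMod.natCast_val, ZMod.cast_id', id, add_sub_cancel] at h1
    obtain ⟨j, j', h⟩ := hnc
    exact h ((all j).trans (all j').symm)
  choose e he1 he2 using hexit
  -- the exit as a function of the letter
  let ex : A → ZMod n := fun a => if h : ∃ i, ρ i = a then e h.choose else 0
  have hex1 : ∀ i, ρ (ex (ρ i)) = ρ i ∧ ρ (ex (ρ i) + 1) ≠ ρ i := by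
    intro i
    have h : ∃ j, ρ j = ρ i := ⟨i, rfl⟩
    have h1 : ex (ρ i) = e h.choose := dif_pos h
    rw [h1]
    have h2 := h.choose_spec
    exact ⟨(he1 _).trans h2, fun h' => he2 h.choose (h'.trans h2.symm)⟩
  let f : A → A := fun a => ρ (ex a + 1)
  have hf : ∀ i, ρ (i + 1) ≠ ρ i → f (ρ i) = ρ (i + 1) := by
    intro i hi
    have h1 := hex1 i
    have h2 : ex (ρ i) = i := hex _ _ h1.1 (by rw [h1.1]; exact h1.2) hi
    show ρ (ex (ρ i) + 1) = _
    rw [h2]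
  have hfne : ∀ i, f (ρ i) ≠ ρ i := fun i => (hex1 i).2
  have reach : ∀ i (m : ℕ), ∃ t : ℕ, f^[t] (ρ i) = ρ (i + m) := by
    intro i m
    induction m with
    | zero => exact ⟨0, by simp⟩
    | succ m ih =>
      obtain ⟨t, ht⟩ := ih
      have e1 : i + ((m + 1 : ℕ) : ZMod n) = (i + m) + 1 := by push_cast; ring
      rw [e1]
      by_cases h : ρ ((i + m) + 1) = ρ (i + m)
      · exact ⟨t, by rw [ht, h]⟩
      · exact ⟨t + 1, by rw [iterate_succ_apply', ht, hf _ h]⟩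
  have reach' : ∀ i j, ∃ t : ℕ, f^[t] (ρ i) = ρ j := by
    intro i j
    obtain ⟨t, ht⟩ := reach i (j - i).val
    refine ⟨t, ?_⟩
    rwa [ZMod.natCast_val, ZMod.cast_id', id, add_sub_cancel] at ht
  set a₀ := ρ 0 with ha₀
  have hper : 0 < minimalPeriod f a₀ := by
    obtain ⟨t, ht⟩ := reach' (ex a₀ + 1) 0
    have h1 : IsPeriodicPt f (t + 1) a₀ := by
      show f^[t + 1] a₀ = a₀
      rw [iterate_succ_apply]
      exact ht
    exact h1.minimalPeriod_pos (Nat.succ_pos t)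
  set k := minimalPeriod f a₀ with hk
  have : NeZero k := ⟨hper.ne'⟩
  let c : ZMod k → A := fun j => f^[j.val] a₀
  have hcnat : ∀ m : ℕ, c (m : ZMod k) = f^[m] a₀ := by
    intro m
    show f^[((m : ℕ) : ZMod k).val] a₀ = _
    rw [ZMod.val_natCast, hk, iterate_mod_minimalPeriod_eq]
  have hcsucc : ∀ j, c (j + 1) = f (c j) := by
    intro j
    have e1 : j + 1 = ((j.val + 1 : ℕ) : ZMod k) := by
      push_cast
      rw [ZMod.natCast_val, ZMod.cast_id', id]
    rw [e1, hcnat, iterate_succ_apply']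
  have hmemρ : ∀ m : ℕ, ∃ i, ρ i = f^[m] a₀ := by
    intro m
    induction m with
    | zero => exact ⟨0, rfl⟩
    | succ m ih =>
      rw [iterate_succ_apply']
      exact ⟨_, rfl⟩
  have hk2 : 2 ≤ k := by
    by_contra h
    have h1 : k = 1 := by omega
    have h2 : f^[k] a₀ = a₀ := iterate_minimalPeriod
    rw [h1, iterate_one] at h2
    exact hfne 0 h2
  refine ⟨k, hk2, c, ?_, ?_, ?_⟩
  · intro i j hij
    have := iterate_injOn_Iio_minimalPeriod (f := f) (x := a₀)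
      (show i.val ∈ Iio _ from ZMod.val_lt i) (show j.val ∈ Iio _ from ZMod.val_lt j) hij
    exact ZMod.val_injective _ this
  · intro a
    constructor
    · rintro ⟨i, rfl⟩
      obtain ⟨t, ht⟩ := reach' 0 i
      exact ⟨(t : ZMod k), by rw [hcnat]; exact ht⟩
    · rintro ⟨j, rfl⟩
      exact hmemρ j.val
  · intro a b
    constructor
    · rintro ⟨hab, i, rfl, rfl⟩
      obtain ⟨t, ht⟩ := reach' 0 i
      refine ⟨(t : ZMod k), ?_, ?_⟩
      · rw [hcnat]; exact ht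
      · rw [hcsucc, hcnat]
        show f (f^[t] a₀) = _
        rw [ha₀, ht]
        exact hf i fun h => hab h.symm
    · rintro ⟨j, rfl, rfl⟩
      obtain ⟨i, hi⟩ := hmemρ j.val
      have hi' : c j = ρ i := hi.symm
      rw [hcsucc, hi']
      exact ⟨fun h => hfne i h.symm, ex (ρ i), (hex1 i).1, rfl⟩

/-- three letters give valence at least three -/
theorem three_le_of_three {A : Type*} {k : ℕ} (hk : 2 ≤ k) {c : ZMod k → A} {x y z : A}
    (hxy : x ≠ y) (hxz : x ≠ z) (hyz : y ≠ z) (hx : ∃ i, c i = x) (hy : ∃ i, c i = y)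
    (hz : ∃ i, c i = z) : 3 ≤ k := by
  by_contra h
  have : k = 2 := by omega
  subst this
  obtain ⟨i, rfl⟩ := hx
  obtain ⟨j, rfl⟩ := hy
  obtain ⟨l, rfl⟩ := hz
  have h1 : i ≠ j := fun h => hxy (by rw [h])
  have h2 : i ≠ l := fun h => hxz (by rw [h])
  have h3 : j ≠ l := fun h => hyz (by rw [h])
  have key : ∀ i j l : ZMod 2, i ≠ j → i ≠ l → j ≠ l → False := by decide
  exact key i j l h1 h2 h3

end P073.MOS
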