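import Vale.Agent.P073.PT.Mosaic

/-!
# P073, block MOS: surfaces made of axis-parallel rectangles (definitions and statements)

A *rectangular surface* is a locally finite union `F` of axis-parallel closed rectangles in
`Fin 3 → ℝ` which is a surface without boundary.  The surface condition at a point `z` is
combinatorial: the rectangles through `z` occupy quarter planes at `z`; a quarter plane is a pair of
orthogonal half axes; no quarter plane is occupied twice, and the occupied quarter planes form one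
simple cycle in the graph (octahedron) of the six half axes.
-/

open Set Metric Topology

namespace P073.MOS

/-- three-space with the sup norm -/
abbrev V3 : Type := Fin 3 → ℝ

/-- the `ℓ¹` size of a vector -/
def l1 (x : V3) : ℝ := ∑ k, |x k|

/-- the six half axes: `(k, true)` is the positive and `(k, false)` the negative `k`-axis -/
abbrev HA : Type := Fin 3 × Bool

/-- the sign of a half axis -/
def sg (h : HA) : ℝ := if h.2 then 1 else -1

/-- the unit vector of a half axis -/
def hv (h : HA) : V3 := Pi.single h.1 (sg h)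

/-- families of axis-parallel rectangles -/
structure Rects where
  /-- index type -/
  A : Type
  /-- lower corner -/
  lo : A → V3
  /-- upper corner -/
  hi : A → V3
  /-- the normal direction -/
  nrm : A → Fin 3
  flat : ∀ a, lo a (nrm a) = hi a (nrm a)
  wide : ∀ a k, k ≠ nrm a → lo a k < hi a k

namespace Rects

/-- the closed rectangle -/
def rect (S : Rects) (a : S.A) : Set V3 := Icc (S.lo a) (S.hi a)

/-- the rectangle `a` extends from the point `z` in the direction of the half axis `h` -/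
def Ext (S : Rects) (a : S.A) (z : V3) (h : HA) : Prop :=
  if h.2 then z h.1 < S.hi a h.1 else S.lo a h.1 < z h.1

/-- the quarter plane spanned by `h`, `h'` at `z` is occupied by the rectangle `a` -/
def Occ (S : Rects) (a : S.A) (z : V3) (h h' : HA) : Prop :=
  z ∈ S.rect a ∧ h.1 ≠ h'.1 ∧ S.Ext a z h ∧ S.Ext a z h'

/-- the quarter plane spanned by `h`, `h'` at `z` is occupied -/
def Adj (S : Rects) (z : V3) (h h' : HA) : Prop := ∃ a, S.Occ a z h h'

/-- the (relative) boundary of the rectangle -/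
def edge (S : Rects) (a : S.A) : Set V3 :=
  {z | z ∈ S.rect a ∧ ∃ k, k ≠ S.nrm a ∧ (z k = S.lo a k ∨ z k = S.hi a k)}

/-- the corners of the rectangle -/
def corner (S : Rects) (a : S.A) : Set V3 :=
  {z | z ∈ S.rect a ∧ ∀ k, k ≠ S.nrm a → (z k = S.lo a k ∨ z k = S.hi a k)}

end Rects

/-- `R` is the adjacency relation of one simple cycle of half axes. -/
def IsCyc (R : HA → HA → Prop) : Prop :=
  ∃ n : ℕ, 3 ≤ n ∧ ∃ c : ZMod n → HA, Function.Injective c ∧
    ∀ h h', R h h' ↔ ∃ i, (h = c i ∧ h' = c (i + 1)) ∨ (h = c (i + 1) ∧ h' = c i)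

/-- **Rectangular surfaces** -/
structure RectSurf (F : Set V3) (S : Rects) : Prop where
  cover : ⋃ a, S.rect a = F
  fin : ∀ z ∈ F, ∃ U ∈ 𝓝 z, {a | (S.rect a ∩ U).Nonempty}.Finite
  disj : ∀ a b z h h', S.Occ a z h h' → S.Occ b z h h' → a = b
  cyc : ∀ z ∈ F, IsCyc (S.Adj z)

/-- positive and locally bounded below on compact subsets of `F` -/
def MeshFn (F : Set V3) (r : V3 → ℝ) : Prop :=
  ∀ K ⊆ F, IsCompact K → ∃ c > 0, ∀ x ∈ K, c ≤ r x

/-- the point `y` of `F` lies in the relative interior of a rectangle with normal direction `n` -/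
def FlatAt (S : Rects) (n : Fin 3) (y : V3) : Prop :=
  ∃ a, y ∈ S.rect a ∧ S.nrm a = n ∧ ∀ k, k ≠ n → S.lo a k < y k ∧ y k < S.hi a k

/-- **(M1)** -/
def SpecSmallDiscs : Prop := ∀ F S, RectSurf F S → SmallDiscs F

/-- **(M2)** fine mosaics, with special diamond shaped cells around prescribed points `y ∈ Y`, each
of which is surrounded by four cells which contain the four quadrants near `y`. -/
def SpecMosaic : Prop :=
  ∀ (F : Set V3) (S : Rects), RectSurf F S → ∀ r : V3 → ℝ, MeshFn F r →
  ∀ (Y : Set V3), (∀ y ∈ Y, ∃ n, FlatAt S n y) →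
    (∀ z ∈ F, ∃ U ∈ 𝓝 z, (Y ∩ U).Finite) →
    ∃ (V : Type) (R bd : V → Set V3) (sp : V3 → V) (δ : V3 → ℝ), Mosaic F R bd ∧
      (∀ v, ∀ x ∈ R v, ∀ y ∈ R v, dist x y < r x) ∧
      ∀ y ∈ Y, 0 < δ y ∧ δ y < r y ∧ R (sp y) = F ∩ {x | l1 (x - y) ≤ δ y} ∧
        bd (sp y) = F ∩ {x | l1 (x - y) = δ y} ∧
        ∀ n, FlatAt S n y → ∃ q : (Fin 3 → Bool) → V,
          (∀ s, {x | x n = y n ∧ δ y ≤ l1 (x - y) ∧ l1 (x - y) ≤ 2 * δ y ∧
            ∀ k, k ≠ n → 0 ≤ sg (k, s k) * (x k - y k)} ⊆ R (q s)) ∧
          (∀ s s', q s = q s' → ∀ k, k ≠ n → s k = s' k) ∧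
          ∀ v, v ≠ sp y → (R v ∩ R (sp y)).Nonempty → ∃ s, v = q s

end P073.MOS
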