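import Vale.Agent.P073.MOS.Top2
import Vale.Agent.P073.PLS.Defs

/-!
# P073, block MOS: fine mosaics with special cells, all vertices of valence three
-/

open Set Metric Topology Function Filter

namespace P073.MOS

open Rects

/-- the `ℓ¹` distance to a corner is affine on a rectangle -/
theorem l1_corner {S : Rects} {a : S.A} {q x : V3} {h h' : HA} (hq : q ∈ S.corner a)
    (H : S.Occ a q h h') (hx : x ∈ S.rect a) :
    l1 (x - q) = sg h * (x h.1 - q h.1) + sg h' * (x h'.1 - q h'.1) := by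
  have e := TD.eq_qpt H hx
  have s0 := TD.corner_coord hq H.ext_left hx
  have t0 := TD.corner_coord hq H.ext_right hx
  conv_lhs => rw [e]
  exact l1_qpt s0 t0 H.2.1

/-- **Fine mosaics with special cells** -/
theorem exists_spMosaic {F : Set V3} (hF : RectLocal F) (hne : F.Nonempty) {Y : Set V3}
    (hY : Y ⊆ F) (hlfY : ∀ z ∈ F, ∃ U ∈ 𝓝 z, (Y ∩ U).Finite) {s : V3 → ℝ}
    (hs : ∀ y ∈ Y, 0 < s y ∧ ∃ n : Fin 3, closedBall y (2 * s y) ∩ {z | z n = y n} ⊆ F ∧
      F ∩ closedBall y (2 * s y) ⊆ {z | z n = y n})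
    (hdis : ∀ y ∈ Y, ∀ y' ∈ Y, y ≠ y' →
      Disjoint (closedBall y (2 * s y)) (closedBall y' (2 * s y')))
    {ε : V3 → ℝ} (hε : ContinuousOn ε F) (hpos : ∀ z ∈ F, 0 < ε z) :
    ∃ (W : Type) (R bd : W → Set V3) (sp : V3 → W), PLS.SpMosaic F Y s ε W R bd sp := by
  classical
  choose! n hn using fun y (hy : y ∈ Y) => (hs y hy).2
  have H : SpIn F Y s n := by
    refine ⟨hY, hlfY, fun y hy => (hs y hy).1, fun y hy z hz => ⟨fun h => ?_, fun h => ?_⟩, hdis⟩
    · exact (hn y hy).2 ⟨h, mem_closedBall.2 hz⟩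
    · exact (hn y hy).1 ⟨mem_closedBall.2 hz, h⟩
  obtain ⟨α, c, hcov, hlf⟩ := hF.exists_cover hε hpos
  set S := (H.D c hcov hlf).S with hSdef
  have hS : RectSurf F S := (H.D c hcov hlf).rectSurf hF
  have hg : GoodCorners S := H.goodCorners c hcov hlf hF
  choose! b hb hchart using fun x (hx : x ∈ F) => hF.exists_radius hε hpos hx
  obtain ⟨D, hD⟩ := exists_TD hF hS hg (b := b) hb
  -- the special squares
  choose sq hsq1 hsq2 hsq3 hsq4 using H.exists_square c hcov hlf
  obtain ⟨z₀, hz₀⟩ := hne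
  obtain ⟨a₀, -⟩ := D.exists_rect hz₀
  let sp : V3 → D.W := fun y => if hy : y ∈ Y then Sum.inl (sq ⟨y, hy⟩) else Sum.inl a₀
  have hsp : ∀ y (hy : y ∈ Y), sp y = Sum.inl (sq ⟨y, hy⟩) := fun y hy => dif_pos hy
  have hP4F : ∀ p ∈ S.P4, p ∈ F := by
    rintro p ⟨a, _, _, _, _, _, _, _, _, _, ha, _⟩
    exact hS.mem ha
  -- coordinates of a special square
  have hcoord : ∀ y (hy : y ∈ Y) (x : V3), x ∈ S.rect (sq ⟨y, hy⟩) → x (n y) = y (n y) := by
    intro y hy x hx
    have h1 := (hsq3 ⟨y, hy⟩ x).1 hx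
    exact (H.flat y hy x (by have := h1.2; have := H.pos y hy; simp only at *; linarith)).1 h1.1
  have hy_mem : ∀ y (hy : y ∈ Y), y ∈ S.rect (sq ⟨y, hy⟩) := fun y hy =>
    (hsq3 ⟨y, hy⟩ y).2 ⟨hY hy, by rw [dist_self]; exact (H.pos y hy).le⟩
  -- the distance of a corner
  have hcor : ∀ y (hy : y ∈ Y), ∀ q ∈ S.corner (sq ⟨y, hy⟩), ∀ k, k ≠ n y →
      |y k - q k| = s y := by
    intro y hy q hq k hk
    have h0 := H.pos y hy
    have h1 := hq.2 k (by rw [hsq2]; exact hk)
    have h2 := hsq4 ⟨y, hy⟩ k hk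
    rcases h1 with h | h
    · rw [h, h2.1]
      simp only [sub_sub_cancel]
      exact abs_of_pos h0
    · rw [h, h2.2]
      simp only [sub_add_cancel_left, abs_neg]
      exact abs_of_pos h0
  -- the radii at the corners of a special square
  have hdlt : ∀ y (hy : y ∈ Y), ∀ q ∈ S.corner (sq ⟨y, hy⟩), D.d q < s y := by
    intro y hy q hq
    by_cases hq4 : q ∈ S.P4
    · obtain ⟨k, hk, _⟩ := third_axis (n y) (n y)
      have h1 := (D.D2 q hq4 _ hq.1).2 k (by rw [hsq2]; exact hk)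
      have h2 := hsq4 ⟨y, hy⟩ k hk
      rw [h2.1, h2.2] at h1
      simp only at h1
      linarith
    · rw [D.hd0 q hq4]; exact H.pos y hy
  refine ⟨D.W, D.R, D.bd, sp, ?_⟩
  have hmemsp : ∀ y (hy : y ∈ Y) (x : V3), x ∈ D.R (sp y) ↔
      x ∈ S.rect (sq ⟨y, hy⟩) ∧ ∀ q ∈ S.corner (sq ⟨y, hy⟩), D.d q ≤ l1 (x - q) := by
    intro y hy x
    rw [hsp y hy]
    exact Iff.rfl
  have hsub : ∀ y (hy : y ∈ Y), D.R (sp y) ⊆ closedBall y (s y) := by
    intro y hy x hx
    exact mem_closedBall.2 ((hsq3 ⟨y, hy⟩ x).1 ((hmemsp y hy x).1 hx).1).2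
  have hlo : ∀ y ∈ Y, F ∩ closedBall y (s y / 2) ⊆ D.R (sp y) := by
    rintro y hy x ⟨hxF, hx⟩
    have h0 := H.pos y hy
    rw [mem_closedBall] at hx
    have hxr : x ∈ S.rect (sq ⟨y, hy⟩) := (hsq3 ⟨y, hy⟩ x).2 ⟨hxF, by simp only; linarith⟩
    refine (hmemsp y hy x).2 ⟨hxr, fun q hq => ?_⟩
    refine (hdlt y hy q hq).le.trans ?_
    -- two coordinates
    obtain ⟨h, h', hocc⟩ := exists_occ hq.1
    have n1 : h.1 ≠ n y := by rw [← hsq2 ⟨y, hy⟩]; exact hocc.ext_left.ne_nrm hq.1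
    have n2 : h'.1 ≠ n y := by rw [← hsq2 ⟨y, hy⟩]; exact hocc.ext_right.ne_nrm hq.1
    have key : ∀ g : HA, g.1 ≠ n y → s y / 2 ≤ |x g.1 - q g.1| := by
      intro g hg
      have h1 := hcor y hy q hq g.1 hg
      have h2 : |x g.1 - y g.1| ≤ s y / 2 := by
        rw [← Real.dist_eq]; exact (dist_le_pi_dist x y g.1).trans hx
      have h3 : |y g.1 - q g.1| ≤ |y g.1 - x g.1| + |x g.1 - q g.1| := abs_sub_le _ _ _
      rw [abs_sub_comm (y g.1) (x g.1)] at h3
      linarith
    have s0 := TD.corner_coord hq hocc.ext_left hxr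
    have t0 := TD.corner_coord hq hocc.ext_right hxr
    rw [l1_corner hq hocc hxr]
    have e1 : sg h * (x h.1 - q h.1) = |x h.1 - q h.1| := by
      rw [← abs_of_nonneg s0, abs_mul, abs_sg, one_mul]
    have e2 : sg h' * (x h'.1 - q h'.1) = |x h'.1 - q h'.1| := by
      rw [← abs_of_nonneg t0, abs_mul, abs_sg, one_mul]
    rw [e1, e2]
    linarith [key h n1, key h' n2]
  refine ⟨D.mosaic, fun p m cc hc => D.val3 hc, ?_, hlo, hsub, ?_, ?_, ?_⟩
  · -- injectivity
    intro y hy y' hy' hyy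
    by_contra hne
    have h1 : y ∈ D.R (sp y) := hlo y hy ⟨hY hy, mem_closedBall_self (by linarith [H.pos y hy])⟩
    have h2 := hsub y hy h1
    rw [hyy] at h1
    have h3 := hsub y' hy' h1
    have p1 := H.pos y hy
    have p2 := H.pos y' hy'
    exact disjoint_left.1 (hdis y hy y' hy' hne)
      (closedBall_subset_closedBall (by linarith) h2)
      (closedBall_subset_closedBall (by linarith) h3)
  · -- star-shaped
    intro y hy x hx τ hτ0 hτ1
    have h0 := H.pos y hy
    obtain ⟨hxr, hxq⟩ := (hmemsp y hy x).1 hx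
    set z : V3 := y + τ • (x - y) with hz
    have hzk : ∀ k, z k = y k + τ * (x k - y k) := fun k => by simp [hz]
    have hxd := ((hsq3 ⟨y, hy⟩ x).1 hxr).2
    simp only at hxd
    have hzd : dist z y ≤ τ * s y := by
      rw [hz, dist_eq_norm, add_sub_cancel_left, norm_smul, Real.norm_of_nonneg hτ0,
        ← dist_eq_norm]
      exact mul_le_mul_of_nonneg_left hxd hτ0
    have hτs : τ * s y < s y := by nlinarith
    have hzn : z (n y) = y (n y) := by
      rw [hzk, hcoord y hy x hxr]; ring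
    have hzF : z ∈ F := (H.flat y hy z (by linarith)).2 hzn
    have hzr : z ∈ S.rect (sq ⟨y, hy⟩) := (hsq3 ⟨y, hy⟩ z).2 ⟨hzF, by simp only; linarith⟩
    have hlt : ∀ q ∈ S.corner (sq ⟨y, hy⟩), D.d q < l1 (z - q) := by
      intro q hq
      obtain ⟨h, h', hocc⟩ := exists_occ hq.1
      have n1 : h.1 ≠ n y := by rw [← hsq2 ⟨y, hy⟩]; exact hocc.ext_left.ne_nrm hq.1
      have n2 : h'.1 ≠ n y := by rw [← hsq2 ⟨y, hy⟩]; exact hocc.ext_right.ne_nrm hq.1
      have e1 := l1_corner hq hocc hzr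
      have e2 := l1_corner hq hocc hxr
      have e3 := l1_corner hq hocc (hy_mem y hy)
      have s0 := TD.corner_coord hq hocc.ext_left (hy_mem y hy)
      have t0 := TD.corner_coord hq hocc.ext_right (hy_mem y hy)
      have e4 : sg h * (y h.1 - q h.1) = s y := by
        rw [← abs_of_nonneg s0, abs_mul, abs_sg, one_mul]; exact hcor y hy q hq _ n1
      have e5 : sg h' * (y h'.1 - q h'.1) = s y := by
        rw [← abs_of_nonneg t0, abs_mul, abs_sg, one_mul]; exact hcor y hy q hq _ n2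
      have e6 : l1 (z - q) = (1 - τ) * (s y + s y) + τ * l1 (x - q) := by
        rw [e1, e2, hzk, hzk]
        calc sg h * (y h.1 + τ * (x h.1 - y h.1) - q h.1) +
              sg h' * (y h'.1 + τ * (x h'.1 - y h'.1) - q h'.1)
            = (1 - τ) * (sg h * (y h.1 - q h.1) + sg h' * (y h'.1 - q h'.1)) +
              τ * (sg h * (x h.1 - q h.1) + sg h' * (x h'.1 - q h'.1)) := by ring
          _ = _ := by rw [e4, e5]
      have hd := hdlt y hy q hq
      have hxq' := hxq q hq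
      rw [e6]
      have h1 : (1 - τ) * D.d q < (1 - τ) * (s y + s y) :=
        mul_lt_mul_of_pos_left (by linarith) (by linarith)
      have h2 : τ * D.d q ≤ τ * l1 (x - q) := mul_le_mul_of_nonneg_left hxq' hτ0
      linarith
    refine ⟨(hmemsp y hy z).2 ⟨hzr, fun q hq => (hlt q hq).le⟩, ?_⟩
    rw [hsp y hy]
    rintro ⟨_, h | ⟨q, hq, _, h⟩⟩
    · obtain ⟨_, k, hk, h⟩ := h
      have hk' : k ≠ n y := by rw [← hsq2 ⟨y, hy⟩]; exact hk
      have h2 := hsq4 ⟨y, hy⟩ k hk'
      simp only at h2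
      have h3 : |z k - y k| ≤ τ * s y := by
        rw [← Real.dist_eq]; exact (dist_le_pi_dist z y k).trans hzd
      rw [abs_le] at h3
      rcases h with h | h
      · rw [h, h2.1] at h3; linarith
      · rw [h, h2.2] at h3; linarith
    · exact (hlt q hq).ne' h
  · -- the other cells are small
    intro v hv x hx x' hx'
    rcases v with a | ⟨p, hp⟩
    · have hxr := (D.mem_inl.1 hx).1
      have hxr' := (D.mem_inl.1 hx').1
      rcases hpr : (H.D c hcov hlf).pr a with y | w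
      · exfalso
        apply hv
        refine ⟨y.1, y.2, ?_⟩
        rw [hsp y.1 y.2]
        have := H.unique_square c hcov hlf (hsq1 y) (hsq3 y) (hsq4 y) hpr
        rw [this]
      · exact H.fine_rect c hcov hlf hpr hxr hxr'
    · have hpF := hP4F p hp
      obtain ⟨cc, hc1, hc2⟩ := hchart p hpF (D.d p) (D.near p hp).1 (hD p hp)
      have e1 : dist x p ≤ D.d p := (dist_le_l1 _ _).trans hx.2
      have e2 : dist x' p ≤ D.d p := (dist_le_l1 _ _).trans hx'.2
      exact cc.small x hx.1 x' hx'.1 (by rw [hc1, hc2]; exact e1) (by rw [hc1, hc2]; exact e2)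
  · -- special cells do not meet
    intro y hy y' hy' hne
    have p1 := H.pos y hy
    have p2 := H.pos y' hy'
    exact (hdis y hy y' hy' hne).mono
      ((hsub y hy).trans (closedBall_subset_closedBall (by linarith)))
      ((hsub y' hy').trans (closedBall_subset_closedBall (by linarith)))

end P073.MOS
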