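import Vale.Agent.P073.MOS.Surf

/-!
# P073, block MOS: the rectangles of a rectangular surface form a mosaic (main theorem)
-/

open Set Metric Topology Function

namespace P073.MOS

open Rects

namespace RectSurf

variable {F : Set V3} {S : Rects} {a b v w : S.A} {z p : V3} {h h' : HA}

/-- two neighbouring rectangles share a segment, whose end points are contained in a third one -/
theorem edge_field (hS : RectSurf F S) (hvw : v ≠ w) (hnt : (S.rect v ∩ S.rect w).Nontrivial) :
    ∃ a b, ConBall 1 (S.rect v ∩ S.rect w) {a, b} ∧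
      ∀ p ∈ S.rect v ∩ S.rect w, (∃ u, u ≠ v ∧ u ≠ w ∧ p ∈ S.rect u) ↔ p = a ∨ p = b := by
  obtain ⟨z₁, hz₁, z₂, hz₂, hne⟩ := hnt
  obtain ⟨k, hk⟩ := Function.ne_iff.1 hne
  set lo : V3 := S.lo v ⊔ S.lo w with hlo
  set hi : V3 := S.hi v ⊓ S.hi w with hhi
  have hI : S.rect v ∩ S.rect w = Icc lo hi := Icc_inter_Icc
  have hlov : ∀ l, S.lo v l ≤ lo l := fun l => le_max_left _ _
  have hlow : ∀ l, S.lo w l ≤ lo l := fun l => le_max_right _ _
  have hhiv : ∀ l, hi l ≤ S.hi v l := fun l => min_le_left _ _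
  have hhiw : ∀ l, hi l ≤ S.hi w l := fun l => min_le_right _ _
  have hz₁' : z₁ ∈ Icc lo hi := hI ▸ hz₁
  have hz₂' : z₂ ∈ Icc lo hi := hI ▸ hz₂
  have hle : ∀ l, lo l ≤ hi l := fun l => (hz₁'.1 l).trans (hz₁'.2 l)
  have hlk : lo k < hi k := by
    rcases lt_or_gt_of_ne hk with h | h
    · exact lt_of_le_of_lt (hz₁'.1 k) (lt_of_lt_of_le h (hz₂'.2 k))
    · exact lt_of_le_of_lt (hz₂'.1 k) (lt_of_lt_of_le h (hz₁'.2 k))
  have hlomem : lo ∈ S.rect v ∩ S.rect w := by rw [hI]; exact ⟨le_rfl, hle⟩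
  have hhimem : hi ∈ S.rect v ∩ S.rect w := by rw [hI]; exact ⟨hle, le_rfl⟩
  have heq : ∀ l, l ≠ k → lo l = hi l := by
    intro l hl
    by_contra hcon
    have hll := lt_of_le_of_ne (hle l) hcon
    refine hvw (hS.disj v w lo (k, true) (l, true) ⟨hlomem.1, hl.symm, ?_, ?_⟩
      ⟨hlomem.2, hl.symm, ?_, ?_⟩)
    · exact lt_of_lt_of_le hlk (hhiv k)
    · exact lt_of_lt_of_le hll (hhiv l)
    · exact lt_of_lt_of_le hlk (hhiw k)
    · exact lt_of_lt_of_le hll (hhiw l)
  have hne' : lo ≠ hi := fun h => hlk.ne (congrFun h k)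
  have hseg : Icc lo hi = segment ℝ lo hi := by
    apply Subset.antisymm
    · intro x hx
      rw [segment_eq_image_lineMap]
      have hd : 0 < hi k - lo k := by linarith
      refine ⟨(x k - lo k) / (hi k - lo k), ⟨div_nonneg (by linarith [hx.1 k]) hd.le, ?_⟩, ?_⟩
      · rw [div_le_one hd]; linarith [hx.2 k]
      · funext l
        rw [AffineMap.lineMap_apply]
        show (x k - lo k) / (hi k - lo k) * (hi l - lo l) + lo l = x l
        by_cases hl : l = k
        · rw [hl, div_mul_cancel₀ _ hd.ne']; ring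
        · have h1 := heq l hl
          have h2 := hx.1 l
          have h3 := hx.2 l
          rw [← h1, sub_self, mul_zero, zero_add]
          rw [← h1] at h3
          exact le_antisymm h2 h3
    · exact (convex_Icc lo hi).segment_subset ⟨le_rfl, hle⟩ ⟨hle, le_rfl⟩
  refine ⟨lo, hi, ?_, ?_⟩
  · rw [hI, hseg]
    exact conBall_segment hne'
  · intro p hp
    have hp' : p ∈ Icc lo hi := hI ▸ hp
    constructor
    · rintro ⟨u, huv, huw, hu⟩
      by_contra hcon
      push Not at hcon
      have h1 : p k ≠ lo k := by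
        intro h
        apply hcon.1
        funext l
        by_cases hl : l = k
        · rw [hl, h]
        · exact le_antisymm ((hp'.2 l).trans (heq l hl).ge) (hp'.1 l)
      have h2 : p k ≠ hi k := by
        intro h
        apply hcon.2
        funext l
        by_cases hl : l = k
        · rw [hl, h]
        · exact le_antisymm (hp'.2 l) ((heq l hl).ge.trans (hp'.1 l))
      have h3 := lt_of_le_of_ne (hp'.1 k) h1.symm
      have h4 := lt_of_le_of_ne (hp'.2 k) h2
      have Hv : S.Ext v p (k, true) := lt_of_lt_of_le h4 (hhiv k)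
      have Hw : S.Ext w p (k, true) := lt_of_lt_of_le h4 (hhiw k)
      have Hv' : S.Ext v p (neg (k, true)) := by
        show S.Ext v p (k, false)
        rw [ext_false]; exact lt_of_le_of_lt (hlov k) h3
      have Hw' : S.Ext w p (neg (k, true)) := by
        show S.Ext w p (k, false)
        rw [ext_false]; exact lt_of_le_of_lt (hlow k) h3
      rcases hS.only_two hp.1 hp.2 hvw Hv Hw Hv' Hw' hu with h | h
      · exact huv h
      · exact huw h
    · rintro (rfl | rfl)
      · have Hv : S.Ext v lo (k, true) := lt_of_lt_of_le hlk (hhiv k)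
        have Hw : S.Ext w lo (k, true) := lt_of_lt_of_le hlk (hhiw k)
        rcases max_choice (S.lo v k) (S.lo w k) with h | h
        · have Hn : ¬ S.Ext v lo (neg (k, true)) := by
            show ¬ S.Ext v lo (k, false)
            rw [ext_false]
            show ¬ S.lo v k < max (S.lo v k) (S.lo w k)
            rw [h]; exact lt_irrefl _
          exact hS.exists_third hp.1 hp.2 hvw Hv Hw Hn
        · have Hn : ¬ S.Ext w lo (neg (k, true)) := by
            show ¬ S.Ext w lo (k, false)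
            rw [ext_false]
            show ¬ S.lo w k < max (S.lo v k) (S.lo w k)
            rw [h]; exact lt_irrefl _
          obtain ⟨u, h1, h2, h3⟩ := hS.exists_third hp.2 hp.1 hvw.symm Hw Hv Hn
          exact ⟨u, h2, h1, h3⟩
      · have Hv : S.Ext v hi (k, false) := by
          rw [ext_false]; exact lt_of_le_of_lt (hlov k) hlk
        have Hw : S.Ext w hi (k, false) := by
          rw [ext_false]; exact lt_of_le_of_lt (hlow k) hlk
        rcases min_choice (S.hi v k) (S.hi w k) with h | h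
        · have Hn : ¬ S.Ext v hi (neg (k, false)) := by
            show ¬ S.Ext v hi (k, true)
            rw [ext_true]
            show ¬ min (S.hi v k) (S.hi w k) < S.hi v k
            rw [h]; exact lt_irrefl _
          exact hS.exists_third hp.1 hp.2 hvw Hv Hw Hn
        · have Hn : ¬ S.Ext w hi (neg (k, false)) := by
            show ¬ S.Ext w hi (k, true)
            rw [ext_true]
            show ¬ min (S.hi v k) (S.hi w k) < S.hi w k
            rw [h]; exact lt_irrefl _
          obtain ⟨u, h1, h2, h3⟩ := hS.exists_third hp.2 hp.1 hvw.symm Hw Hv Hn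
          exact ⟨u, h2, h1, h3⟩

/-- the link of a point which is contained in at least three rectangles -/
theorem link_cycle (hS : RectSurf F S) {u : S.A} (hv : p ∈ S.rect v) (hw : p ∈ S.rect w)
    (hu : p ∈ S.rect u) (hvw : v ≠ w) (huv : u ≠ v) (huw : u ≠ w) :
    ∃ k, ∃ c : ZMod k → S.A, LinkCycle S.rect p k c := by
  obtain ⟨n, hn, c, hinj, hc⟩ := hS.cyc' hv
  have : NeZero n := ⟨by omega⟩
  have hnb := nbr_iff hinj hc
  have hAdj : ∀ i, ∃ a, S.Occ a p (c i) (c (i + 1)) := fun i => (hnb i _).2 (Or.inl rfl)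
  choose ρ hρ using hAdj
  have hρeq : ∀ i a, S.Occ a p (c i) (c (i + 1)) → a = ρ i := fun i a ha =>
    hS.disj _ _ _ _ _ ha (hρ i)
  have hρeq' : ∀ i a, S.Occ a p (c i) (c (i - 1)) → a = ρ (i - 1) := by
    intro i a ha
    refine hρeq (i - 1) a ?_
    rw [sub_add_cancel]
    exact ha.symm
  have hρ' : ∀ a, (∃ i, ρ i = a) ↔ p ∈ S.rect a := by
    intro a
    constructor
    · rintro ⟨i, rfl⟩; exact (hρ i).1
    · intro ha
      obtain ⟨g, g', hg⟩ := exists_occ ha
      obtain ⟨i, ⟨rfl, rfl⟩ | ⟨rfl, rfl⟩⟩ := (hc g g').1 ⟨a, hg⟩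
      · exact ⟨i, (hρeq i a hg).symm⟩
      · exact ⟨i, (hρeq i a hg.symm).symm⟩
  -- at an exit the rectangle does not extend to the other side
  have hA : ∀ i, ρ (i + 1) ≠ ρ i → ¬ S.Ext (ρ i) p (neg (c i)) := by
    intro i hi H
    have h1 : S.Occ (ρ i) p (c (i + 1)) (neg (c i)) :=
      ⟨(hρ i).1, (hρ i).2.1.symm, (hρ i).2.2.2, H⟩
    have hne : neg (c i) ≠ c i := by
      obtain ⟨k, b⟩ := c i
      cases b <;> simp [neg]
    rcases (hnb (i + 1) _).1 ⟨_, h1⟩ with h | h
    · rw [h] at h1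
      exact hi (hρeq (i + 1) _ h1).symm
    · rw [add_sub_cancel_right] at h
      exact hne h
  have hex : ∀ i j, ρ i = ρ j → ρ (i + 1) ≠ ρ i → ρ (j + 1) ≠ ρ j → i = j := by
    intro i j hij hi hj
    have Ai := hA i hi
    have Aj := hA j hj
    have oi := hρ i
    have oj := hρ j
    rw [← hij] at Aj oj
    have e1 : (c i).1 ≠ S.nrm (ρ i) := oi.2.2.1.ne_nrm oi.1
    have e2 : (c (i + 1)).1 ≠ S.nrm (ρ i) := oi.2.2.2.ne_nrm oi.1
    have e3 : (c j).1 ≠ S.nrm (ρ i) := oj.2.2.1.ne_nrm oi.1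
    have e4 : (c (j + 1)).1 ≠ S.nrm (ρ i) := oj.2.2.2.ne_nrm oi.1
    rcases fin3_cases oi.2.1 e1 e2 (c j).1 with h | h | h
    · rcases eq_or_eq_neg h with h | h
      · exact (hinj h).symm
      · exact absurd (h ▸ oj.2.2.1) Ai
    · exfalso
      have h5 : (c (j + 1)).1 = (c i).1 := by
        rcases fin3_cases oi.2.1 e1 e2 (c (j + 1)).1 with h' | h' | h'
        · exact h'
        · exact absurd (h'.trans h.symm) oj.2.1.symm
        · exact absurd h' e4
      have h6 : c (j + 1) = c i := by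
        rcases eq_or_eq_neg h5 with h' | h'
        · exact h'
        · exact absurd (h' ▸ oj.2.2.2) Ai
      have h7 : c (i + 1) = c j := by
        rcases eq_or_eq_neg h.symm with h' | h'
        · exact h'
        · exact absurd (h' ▸ oi.2.2.2) Aj
      have h8 := hinj h6
      have h9 := hinj h7
      apply zmod_two_ne hn
      have : (2 : ZMod n) = (i + 1) + 1 - i := by ring
      rw [this, h9, h8, sub_self]
    · exact absurd h e3
  obtain ⟨i, hi⟩ := (hρ' v).2 hv
  obtain ⟨j, hj⟩ := (hρ' w).2 hw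
  obtain ⟨k, hk2, c', hinj', hmem', hrel⟩ := exists_cyclic_enum ρ hex ⟨i, j, by rw [hi, hj]; exact hvw⟩
  have hmem : ∀ a, p ∈ S.rect a ↔ ∃ i, c' i = a := fun a => (hρ' a).symm.trans (hmem' a)
  have hadj1 : ∀ i, (S.rect (c' i) ∩ S.rect (c' (i + 1))).Nontrivial := by
    intro i
    obtain ⟨_, m, h1, h2⟩ := (hrel _ _).2 ⟨i, rfl, rfl⟩
    rw [← h1, ← h2]
    exact nontrivial_of_ext (hρ m).1 (hρ (m + 1)).1 (hρ m).2.2.2 (hρ (m + 1)).2.2.1
  refine ⟨k, c', three_le_of_three hk2 hvw huv.symm huw.symm ((hmem v).1 hv) ((hmem w).1 hw)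
    ((hmem u).1 hu), hinj', hmem, ?_⟩
  intro i j
  constructor
  · intro hnt
    by_cases hij : j = i
    · exact Or.inl hij
    right
    have hne : c' i ≠ c' j := fun h => hij (hinj' h).symm
    have hpi : p ∈ S.rect (c' i) := (hmem _).2 ⟨i, rfl⟩
    have hpj : p ∈ S.rect (c' j) := (hmem _).2 ⟨j, rfl⟩
    obtain ⟨q, hq, hqp⟩ := hnt.exists_ne p
    obtain ⟨g, hgi, hgj⟩ := exists_common_ext hq.1 hq.2 hqp.symm
    obtain ⟨x, hx⟩ := hgi.exists_occ hpi
    obtain ⟨y, hy⟩ := hgj.exists_occ hpj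
    have hxy : x ≠ y := fun h => hne (hS.disj _ _ p _ _ hx (h ▸ hy))
    obtain ⟨m, rfl⟩ : ∃ m, g = c m := by
      obtain ⟨m, ⟨h, _⟩ | ⟨h, _⟩⟩ := (hc g x).1 ⟨_, hx⟩
      · exact ⟨m, h⟩
      · exact ⟨m + 1, h⟩
    rcases (hnb m x).1 ⟨_, hx⟩ with h | h
    · rcases (hnb m y).1 ⟨_, hy⟩ with h' | h'
      · exact absurd (h.trans h'.symm) hxy
      · subst h h'
        have e1 := hρeq m _ hx
        have e2 := hρeq' m _ hy
        obtain ⟨j', h1, h2⟩ := (hrel (c' j) (c' i)).1 ⟨hne.symm, m - 1, e2.symm, by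
          rw [sub_add_cancel]; exact e1.symm⟩
        have h3 := hinj' h1
        subst h3
        exact Or.inr (hinj' h2).symm
    · rcases (hnb m y).1 ⟨_, hy⟩ with h' | h'
      · subst h h'
        have e1 := hρeq' m _ hx
        have e2 := hρeq m _ hy
        obtain ⟨j', h1, h2⟩ := (hrel (c' i) (c' j)).1 ⟨hne, m - 1, e1.symm, by
          rw [sub_add_cancel]; exact e2.symm⟩
        have h3 := hinj' h1
        subst h3
        exact Or.inl (hinj' h2).symm
      · exact absurd (h.trans h'.symm) hxy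
  · rintro (rfl | rfl | rfl)
    · rw [inter_self]; exact rect_nontrivial _
    · exact hadj1 i
    · rw [inter_comm]; exact hadj1 j

/-- **The rectangles of a rectangular surface form a mosaic.** -/
theorem mosaic (hS : RectSurf F S) : Mosaic F S.rect S.edge where
  ball := conBall
  cover := hS.cover
  fin := hS.fin
  edge := fun _ _ hvw hnt => hS.edge_field hvw hnt
  link := by
    intro v w hvw p hp
    by_cases h3 : ∃ u, u ≠ v ∧ u ≠ w ∧ p ∈ S.rect u
    · obtain ⟨u, huv, huw, hu⟩ := h3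
      exact Or.inr (hS.link_cycle hp.1 hp.2 hu hvw huv huw)
    · left
      push Not at h3
      refine ⟨?_, fun u hu => ?_⟩
      · obtain ⟨u, huv, hu, h₁, H1, H2⟩ := hS.exists_other_of_edge (hS.mem_edge hp.1 hp.2 hvw)
        have huw : u = w := by
          by_contra h
          exact h3 u huv h hu
        subst huw
        exact nontrivial_of_ext hp.1 hp.2 H1 H2
      · by_contra h
        push Not at h
        exact h3 u h.1 h.2 hu
  bdry := by
    intro v
    apply Subset.antisymm
    · intro z hz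
      obtain ⟨u, huv, hu, _⟩ := hS.exists_other_of_edge hz
      exact mem_iUnion₂.2 ⟨u, huv, hz.1, hu⟩
    · intro z hz
      obtain ⟨w, hwv, hz⟩ := mem_iUnion₂.1 hz
      exact hS.mem_edge hz.1 hz.2 hwv.symm

end RectSurf

end P073.MOS
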