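import Vale.Agent.P073.MOS.Surf

/-!
# P073, block MOS: polygons, cones over circles, regions between two graphs
-/

open Set Metric Topology Function Filter

namespace P073.MOS

variable {E : Type*} [NormedAddCommGroup E] [NormedSpace ℝ E]

/-- the cone over a conical sphere is a conical ball -/
theorem conBall_cone {n : ℕ} {L : Set E} {a : E} (hL : ConSphere n L) (ha : RayBaseAt a L) :
    ConBall (n + 1) (coneSetAt a L) L := by
  obtain ⟨φ⟩ := hL
  have hfr : sphere (0 : Fin (n + 1) → ℝ) 1 = frontier (closedBall 0 1) :=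
    (frontier_closedBall _ one_ne_zero).symm
  have hY : RayBaseAt (0 : Fin (n + 1) → ℝ) (sphere (0 : Fin (n + 1) → ℝ) 1) := by
    rw [hfr]
    exact rayBaseAt_frontier (isCompact_closedBall _ _) (convex_closedBall _ _)
      (closedBall_mem_nhds _ one_pos)
  have hcone : coneSetAt (0 : Fin (n + 1) → ℝ) (sphere (0 : Fin (n + 1) → ℝ) 1) =
      closedBall 0 1 := by
    rw [hfr]
    exact coneSetAt_frontier (isCompact_closedBall _ _) (convex_closedBall _ _)
      (closedBall_mem_nhds _ one_pos)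
  refine ⟨?_, (ConHomeo.coneAt ha hY φ).cast rfl hcone, ?_⟩
  · intro x hx
    exact ⟨1, ⟨zero_le_one, le_rfl⟩, x, hx, by rw [one_smul]; abel⟩
  · rw [ConHomeo.cast_toFun, (ConHomeo.coneAt_eqOn ha hY φ).image_eq, φ.image_eq]

/-- polygonal arcs -/
theorem conBall_polyArc (v : ℕ → E) (m : ℕ) (hne : ∀ i, i < m → v i ≠ v (i + 1))
    (hadj : ∀ i, i + 1 < m → segment ℝ (v i) (v (i + 1)) ∩
      segment ℝ (v (i + 1)) (v (i + 2)) ⊆ {v (i + 1)})
    (hdis : ∀ i j, i + 1 < j → j < m →
      Disjoint (segment ℝ (v i) (v (i + 1))) (segment ℝ (v j) (v (j + 1)))) (hm : 1 ≤ m) :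
    ConBall 1 (⋃ i ∈ {i | i < m}, segment ℝ (v i) (v (i + 1))) {v 0, v m} := by
  induction m, hm using Nat.le_induction with
  | base =>
    have : (⋃ i ∈ {i | i < 1}, segment ℝ (v i) (v (i + 1))) = segment ℝ (v 0) (v 1) := by
      ext x
      simp only [mem_ofPred_eq, Nat.lt_one_iff, iUnion_iUnion_eq_left]
    rw [this]
    exact conBall_segment (hne 0 one_pos)
  | succ m hm ih =>
    have ih' := ih (fun i hi => hne i (by omega)) (fun i hi => hadj i (by omega))
      (fun i j hij hj => hdis i j hij (by omega))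
    have hu : (⋃ i ∈ {i | i < m + 1}, segment ℝ (v i) (v (i + 1))) =
        (⋃ i ∈ {i | i < m}, segment ℝ (v i) (v (i + 1))) ∪ segment ℝ (v m) (v (m + 1)) := by
      ext x
      simp only [mem_ofPred_eq, mem_iUnion, mem_union, exists_prop]
      constructor
      · rintro ⟨i, hi, hx⟩
        rcases Nat.lt_succ_iff_lt_or_eq.1 hi with h | h
        · exact Or.inl ⟨i, h, hx⟩
        · exact Or.inr (h ▸ hx)
      · rintro (⟨i, hi, hx⟩ | hx)
        · exact ⟨i, by omega, hx⟩
        · exact ⟨m, by omega, hx⟩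
    rw [hu]
    refine ih'.concat (conBall_segment (hne m (by omega))) ?_
    rintro x ⟨hxU, hx'⟩
    obtain ⟨i, hi, hx⟩ := mem_iUnion₂.1 hxU
    clear hxU
    have hi' : i < m := hi
    rcases Nat.lt_or_ge (i + 1) m with h | h
    · exact absurd hx' (disjoint_left.1 (hdis i m h (by omega)) hx)
    · have : m = i + 1 := by omega
      subst this
      exact hadj i (by omega) ⟨hx, hx'⟩

/-- polygonal circles -/
theorem conSphere_poly (v : ℕ → E) (m : ℕ) (hm : 1 ≤ m) (hne : ∀ i, i < m → v i ≠ v (i + 1))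
    (hadj : ∀ i, i + 1 < m → segment ℝ (v i) (v (i + 1)) ∩
      segment ℝ (v (i + 1)) (v (i + 2)) ⊆ {v (i + 1)})
    (hdis : ∀ i j, i + 1 < j → j < m →
      Disjoint (segment ℝ (v i) (v (i + 1))) (segment ℝ (v j) (v (j + 1))))
    (hne' : v m ≠ v 0)
    (hlast : ∀ i, i < m → segment ℝ (v i) (v (i + 1)) ∩ segment ℝ (v m) (v 0) ⊆ {v 0, v m}) :
    ConSphere 1 ((⋃ i ∈ {i | i < m}, segment ℝ (v i) (v (i + 1))) ∪ segment ℝ (v m) (v 0)) := by
  have h1 := conBall_polyArc v m hne hadj hdis hm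
  have h2 : ConBall 1 (segment ℝ (v m) (v 0)) {v 0, v m} := by
    rw [pair_comm]
    exact conBall_segment hne'
  refine h1.circle h2 ?_
  rintro x ⟨hx, hx'⟩
  obtain ⟨i, hi, hx⟩ := mem_iUnion₂.1 hx
  exact hlast i hi ⟨hx, hx'⟩

/-! ### regions between two graphs -/

section between

/-- the region between the graphs of `f` and `g` over `[α, β]` -/
def btw (α β : ℝ) (f g : ℝ → ℝ) : Set (Fin 2 → ℝ) :=
  {v | α ≤ v 0 ∧ v 0 ≤ β ∧ f (v 0) ≤ v 1 ∧ v 1 ≤ g (v 0)}

/-- its boundary -/
def bdb (α β : ℝ) (f g : ℝ → ℝ) : Set (Fin 2 → ℝ) :=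
  {v | v ∈ btw α β f g ∧ (v 0 = α ∨ v 0 = β ∨ v 1 = f (v 0) ∨ v 1 = g (v 0))}

variable {α β : ℝ} {f g : ℝ → ℝ}

/-- graphs are arcs -/
theorem conBall_graph (h : α < β) (hf : Continuous f) (hc : ConicalOn f (Icc α β)) :
    ConBall 1 ((fun x => ![x, f x]) '' Icc α β) {![α, f α], ![β, f β]} := by
  have hX : ConicalSet (Icc α β) := P073.Convex.conicalSet (convex_Icc _ _)
  have h1 : ContinuousOn (fun x : ℝ => (![x, f x] : Fin 2 → ℝ)) (Icc α β) := by
    apply Continuous.continuousOn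
    refine continuous_pi fun i => ?_
    fin_cases i
    · exact continuous_id
    · exact hf
  have h2 : InjOn (fun x : ℝ => (![x, f x] : Fin 2 → ℝ)) (Icc α β) := by
    intro x _ y _ hxy
    exact congrFun hxy 0
  have h3 : ConicalOn (fun x : ℝ => (![x, f x] : Fin 2 → ℝ)) (Icc α β) := by
    intro x hx
    refine conicalWithinAt_pi (hX x hx) fun i => ?_
    fin_cases i
    · exact conicalOn_id hX x hx
    · exact hc x hx
  have := ConBall.of_param h (ConHomeo.ofCompact isCompact_Icc _ h1 h2 h3 rfl)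
  rwa [ConHomeo.ofCompact_toFun] at this

theorem mem_vseg {x c d : ℝ} (h : c ≤ d) {v : Fin 2 → ℝ} :
    v ∈ segment ℝ (![x, c] : Fin 2 → ℝ) ![x, d] ↔ v 0 = x ∧ c ≤ v 1 ∧ v 1 ≤ d := by
  rw [segment_eq_image_lineMap]
  constructor
  · rintro ⟨t, ⟨ht0, ht1⟩, rfl⟩
    rw [AffineMap.lineMap_apply]
    refine ⟨by simp, ?_, ?_⟩
    · show c ≤ t * (d - c) + c
      nlinarith [mul_nonneg ht0 (sub_nonneg.2 h)]
    · show t * (d - c) + c ≤ d
      nlinarith [mul_nonneg (sub_nonneg.2 ht1) (sub_nonneg.2 h)]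
  · rintro ⟨h0, h1, h2⟩
    rcases h.eq_or_lt with h' | h'
    · refine ⟨0, ⟨le_rfl, zero_le_one⟩, ?_⟩
      rw [AffineMap.lineMap_apply_zero]
      funext i
      fin_cases i
      · exact h0.symm
      · exact le_antisymm h1 (h2.trans h'.ge)
    · have hd : 0 < d - c := by linarith
      refine ⟨(v 1 - c) / (d - c), ⟨div_nonneg (by linarith) hd.le, ?_⟩, ?_⟩
      · rw [div_le_one hd]; linarith
      · rw [AffineMap.lineMap_apply]
        funext i
        fin_cases i
        · show (v 1 - c) / (d - c) * (x - x) + x = v 0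
          rw [sub_self, mul_zero, zero_add, h0]
        · show (v 1 - c) / (d - c) * (d - c) + c = v 1
          rw [div_mul_cancel₀ _ hd.ne']; ring

theorem conSphere_bdb (h : α < β) (hf : Continuous f) (hfc : ConicalOn f (Icc α β))
    (hg : Continuous g) (hgc : ConicalOn g (Icc α β)) (hfg : ∀ x ∈ Icc α β, f x < g x) :
    ConSphere 1 (bdb α β f g) := by
  have hα : α ∈ Icc α β := ⟨le_rfl, h.le⟩
  have hβ : β ∈ Icc α β := ⟨h.le, le_rfl⟩
  have A1 := conBall_graph h hf hfc
  have A3 := conBall_graph h hg hgc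
  have ne2 : (![β, f β] : Fin 2 → ℝ) ≠ ![β, g β] := fun h' =>
    (hfg β hβ).ne (congrFun h' 1)
  have ne4 : (![α, f α] : Fin 2 → ℝ) ≠ ![α, g α] := fun h' =>
    (hfg α hα).ne (congrFun h' 1)
  have A2 := conBall_segment ne2
  have A4 := conBall_segment ne4
  have B1 := A1.concat A2 (by
    rintro v ⟨⟨x, hx, rfl⟩, hv⟩
    rw [mem_vseg (hfg β hβ).le] at hv
    have : x = β := hv.1
    subst this
    rfl)
  rw [pair_comm] at A3
  have B2 := A4.concat (by rw [pair_comm]; exact A3) (r := ![β, g β]) (by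
    rintro v ⟨hv, ⟨x, hx, rfl⟩⟩
    rw [mem_vseg (hfg α hα).le] at hv
    have : x = α := hv.1
    subst this
    rfl)
  have key := B1.circle B2 (by
    rintro v ⟨⟨x, hx, rfl⟩ | hv, hv' | ⟨y, hy, hyv⟩⟩
    · rw [mem_vseg (hfg α hα).le] at hv'
      have : x = α := hv'.1
      subst this
      exact Or.inl rfl
    · exfalso
      have h0 : y = x := congrFun hyv 0
      have h1 : g y = f x := congrFun hyv 1
      subst h0
      exact (hfg y hx).ne h1.symm
    · exfalso
      rw [mem_vseg (hfg β hβ).le] at hv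
      rw [mem_vseg (hfg α hα).le] at hv'
      exact h.ne (hv'.1.symm.trans hv.1)
    · subst hyv
      rw [mem_vseg (hfg β hβ).le] at hv
      have : y = β := hv.1
      subst this
      exact Or.inr rfl)
  have hset : (fun x => ![x, f x]) '' Icc α β ∪ segment ℝ (![β, f β] : Fin 2 → ℝ) ![β, g β] ∪
      (segment ℝ (![α, f α] : Fin 2 → ℝ) ![α, g α] ∪ (fun x => ![x, g x]) '' Icc α β) =
      bdb α β f g := by
    ext v
    constructor
    · rintro ((⟨x, hx, rfl⟩ | hv) | (hv | ⟨x, hx, rfl⟩))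
      · exact ⟨⟨hx.1, hx.2, le_rfl, (hfg x hx).le⟩, Or.inr (Or.inr (Or.inl rfl))⟩
      · rw [mem_vseg (hfg β hβ).le] at hv
        obtain ⟨h0, h1, h2⟩ := hv
        refine ⟨⟨?_, ?_, ?_, ?_⟩, Or.inr (Or.inl h0)⟩ <;> rw [h0]
        · exact h.le
        · exact h1
        · exact h2
      · rw [mem_vseg (hfg α hα).le] at hv
        obtain ⟨h0, h1, h2⟩ := hv
        refine ⟨⟨?_, ?_, ?_, ?_⟩, Or.inl h0⟩ <;> rw [h0]
        · exact h.le
        · exact h1
        · exact h2
      · exact ⟨⟨hx.1, hx.2, (hfg x hx).le, le_rfl⟩, Or.inr (Or.inr (Or.inr rfl))⟩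
    · rintro ⟨⟨h1, h2, h3, h4⟩, h5 | h5 | h5 | h5⟩
      · right; left
        rw [mem_vseg (hfg α hα).le]
        rw [h5] at h3 h4
        exact ⟨h5, h3, h4⟩
      · left; right
        rw [mem_vseg (hfg β hβ).le]
        rw [h5] at h3 h4
        exact ⟨h5, h3, h4⟩
      · left; left
        refine ⟨v 0, ⟨h1, h2⟩, ?_⟩
        funext i
        fin_cases i
        · rfl
        · exact h5.symm
      · right; right
        refine ⟨v 0, ⟨h1, h2⟩, ?_⟩
        funext i
        fin_cases i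
        · rfl
        · exact h5.symm
  rw [← hset]
  exact key

theorem isClosed_btw (hf : Continuous f) (hg : Continuous g) : IsClosed (btw α β f g) := by
  have e : btw α β f g = {v : Fin 2 → ℝ | α ≤ v 0} ∩ {v | v 0 ≤ β} ∩ {v | f (v 0) ≤ v 1} ∩
      {v | v 1 ≤ g (v 0)} := by
    ext v; simp only [btw, mem_ofPred_eq, mem_inter_iff, and_assoc]
  rw [e]
  have c0 : Continuous fun v : Fin 2 → ℝ => v 0 := continuous_apply 0
  have c1 : Continuous fun v : Fin 2 → ℝ => v 1 := continuous_apply 1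
  exact (((isClosed_le continuous_const c0).inter (isClosed_le c0 continuous_const)).inter
    (isClosed_le (hf.comp c0) c1)).inter (isClosed_le c1 (hg.comp c0))

theorem isCompact_btw (hf : Continuous f) (hg : Continuous g) : IsCompact (btw α β f g) := by
  obtain ⟨c, hc⟩ := (isCompact_Icc (a := α) (b := β)).bddBelow_image hf.continuousOn
  obtain ⟨d, hd⟩ := (isCompact_Icc (a := α) (b := β)).bddAbove_image hg.continuousOn
  refine (isCompact_Icc (a := (![α, c] : Fin 2 → ℝ)) (b := ![β, d])).of_isClosed_subset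
    (isClosed_btw hf hg) ?_
  rintro v ⟨h1, h2, h3, h4⟩
  constructor <;> intro i <;> fin_cases i
  · exact h1
  · exact (hc (mem_image_of_mem f ⟨h1, h2⟩)).trans h3
  · exact h2
  · exact h4.trans (hd (mem_image_of_mem g ⟨h1, h2⟩))

theorem frontier_btw (hf : Continuous f) (hg : Continuous g) :
    frontier (btw α β f g) = bdb α β f g := by
  have c0 : Continuous fun v : Fin 2 → ℝ => v 0 := continuous_apply 0
  have c1 : Continuous fun v : Fin 2 → ℝ => v 1 := continuous_apply 1
  rw [(isClosed_btw hf hg).frontier_eq]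
  have hop : IsOpen {v : Fin 2 → ℝ | α < v 0 ∧ v 0 < β ∧ f (v 0) < v 1 ∧ v 1 < g (v 0)} :=
    (isOpen_lt continuous_const c0).inter ((isOpen_lt c0 continuous_const).inter
      ((isOpen_lt (hf.comp c0) c1).inter (isOpen_lt c1 (hg.comp c0))))
  have hint : interior (btw α β f g) =
      {v | α < v 0 ∧ v 0 < β ∧ f (v 0) < v 1 ∧ v 1 < g (v 0)} := by
    apply Subset.antisymm
    · intro v hv
      have hmem := interior_subset hv
      obtain ⟨h1, h2, h3, h4⟩ := hmem
      rw [mem_interior_iff_mem_nhds] at hv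
      -- moves
      have mv : ∀ w : Fin 2 → ℝ, ∀ᶠ t in 𝓝 (0:ℝ), v + t • w ∈ btw α β f g := by
        intro w
        have hcont : Continuous fun t : ℝ => v + t • w := by fun_prop
        have := hcont.tendsto 0
        rw [zero_smul, add_zero] at this
        exact this.eventually hv
      have pos : ∀ w : Fin 2 → ℝ, ∃ t : ℝ, 0 < t ∧ v + t • w ∈ btw α β f g := by
        intro w
        have := (mv w).filter_mono (nhdsWithin_le_nhds (s := Ioi (0:ℝ)))
        obtain ⟨t, h, ht⟩ := (this.and self_mem_nhdsWithin).exists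
        exact ⟨t, ht, h⟩
      refine ⟨?_, ?_, ?_, ?_⟩
      · obtain ⟨t, ht, h, _⟩ := pos ![-1, 0]
        have : α ≤ v 0 + t * (-1) := h
        linarith
      · obtain ⟨t, ht, _, h, _⟩ := pos ![1, 0]
        have : v 0 + t * 1 ≤ β := h
        linarith
      · obtain ⟨t, ht, _, _, h, _⟩ := pos ![0, -1]
        have : f (v 0 + t * 0) ≤ v 1 + t * (-1) := h
        rw [mul_zero, add_zero] at this
        linarith
      · obtain ⟨t, ht, _, _, _, h⟩ := pos ![0, 1]
        have : v 1 + t * 1 ≤ g (v 0 + t * 0) := h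
        rw [mul_zero, add_zero] at this
        linarith
    · exact interior_maximal (fun v hv => ⟨hv.1.le, hv.2.1.le, hv.2.2.1.le, hv.2.2.2.le⟩) hop
  rw [hint]
  ext v
  refine and_congr_right fun hv => ?_
  obtain ⟨h1, h2, h3, h4⟩ := hv
  show ¬ (α < v 0 ∧ v 0 < β ∧ f (v 0) < v 1 ∧ v 1 < g (v 0)) ↔ _
  constructor
  · intro hcon
    by_contra hne
    push Not at hne
    exact hcon ⟨lt_of_le_of_ne h1 hne.1.symm, lt_of_le_of_ne h2 hne.2.1,
      lt_of_le_of_ne h3 hne.2.2.1.symm, lt_of_le_of_ne h4 hne.2.2.2⟩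
  · rintro h ⟨g1, g2, g3, g4⟩
    rcases h with h | h | h | h
    · exact g1.ne h.symm
    · exact g2.ne h
    · exact g3.ne h.symm
    · exact g4.ne h

/-- **A convex region between two graphs is a conical disc.** -/
theorem conBall_btw (h : α < β) (hf : Continuous f) (hfc : ConicalOn f (Icc α β))
    (hg : Continuous g) (hgc : ConicalOn g (Icc α β)) (hfg : ∀ x ∈ Icc α β, f x < g x)
    (hconv : Convex ℝ (btw α β f g)) : ConBall 2 (btw α β f g) (bdb α β f g) := by
  have c0 : Continuous fun v : Fin 2 → ℝ => v 0 := continuous_apply 0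
  have c1 : Continuous fun v : Fin 2 → ℝ => v 1 := continuous_apply 1
  have hmid : (α + β) / 2 ∈ Icc α β := ⟨by linarith, by linarith⟩
  have hm := hfg _ hmid
  set a : Fin 2 → ℝ := ![(α + β) / 2, (f ((α + β) / 2) + g ((α + β) / 2)) / 2] with ha
  have hop : IsOpen {v : Fin 2 → ℝ | α < v 0 ∧ v 0 < β ∧ f (v 0) < v 1 ∧ v 1 < g (v 0)} :=
    (isOpen_lt continuous_const c0).inter ((isOpen_lt c0 continuous_const).inter
      ((isOpen_lt (hf.comp c0) c1).inter (isOpen_lt c1 (hg.comp c0))))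
  have hnhds : btw α β f g ∈ 𝓝 a := by
    refine mem_of_superset (hop.mem_nhds ?_)
      fun v hv => ⟨hv.1.le, hv.2.1.le, hv.2.2.1.le, hv.2.2.2.le⟩
    refine ⟨?_, ?_, ?_, ?_⟩
    · show α < (α + β) / 2; linarith
    · show (α + β) / 2 < β; linarith
    · show f ((α + β) / 2) < (f ((α + β) / 2) + g ((α + β) / 2)) / 2; linarith
    · show (f ((α + β) / 2) + g ((α + β) / 2)) / 2 < g ((α + β) / 2); linarith
  have hK := isCompact_btw (α := α) (β := β) hf hg
  have hr := rayBaseAt_frontier hK hconv hnhds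
  have hcs := coneSetAt_frontier hK hconv hnhds
  rw [frontier_btw hf hg] at hr hcs
  have := conBall_cone (conSphere_bdb h hf hfc hg hgc hfg) hr
  rwa [hcs] at this

end between

end P073.MOS
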