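import Vale.Agent.P073.MOS.Poly
import Vale.Agent.P073.MOS.Local

/-!
# P073, block MOS: rectangles with truncated corners are conical discs
-/

open Set Metric Topology Function Filter

namespace P073.MOS

/-- rectangle in the plane with truncated corners -/
def trc (α β c e d₁ d₂ d₃ d₄ : ℝ) : Set (Fin 2 → ℝ) :=
  {v | (α ≤ v 0 ∧ v 0 ≤ β ∧ c ≤ v 1 ∧ v 1 ≤ e) ∧ d₁ ≤ (v 0 - α) + (v 1 - c) ∧
    d₂ ≤ (β - v 0) + (v 1 - c) ∧ d₃ ≤ (v 0 - α) + (e - v 1) ∧ d₄ ≤ (β - v 0) + (e - v 1)}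

/-- its boundary -/
def bdt (α β c e d₁ d₂ d₃ d₄ : ℝ) : Set (Fin 2 → ℝ) :=
  {v | v ∈ trc α β c e d₁ d₂ d₃ d₄ ∧ ((v 0 = α ∨ v 0 = β ∨ v 1 = c ∨ v 1 = e) ∨
    (0 < d₁ ∧ (v 0 - α) + (v 1 - c) = d₁) ∨ (0 < d₂ ∧ (β - v 0) + (v 1 - c) = d₂) ∨
    (0 < d₃ ∧ (v 0 - α) + (e - v 1) = d₃) ∨ (0 < d₄ ∧ (β - v 0) + (e - v 1) = d₄))}

theorem convex_trc (α β c e d₁ d₂ d₃ d₄ : ℝ) : Convex ℝ (trc α β c e d₁ d₂ d₃ d₄) := by
  intro u hu v hv a b ha hb hab
  obtain rfl : b = 1 - a := by linarith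
  have key : ∀ p q r : ℝ, r ≤ p → r ≤ q → r ≤ a * p + (1 - a) * q := by
    intro p q r hp hq
    nlinarith [mul_nonneg ha (sub_nonneg.2 hp), mul_nonneg hb (sub_nonneg.2 hq)]
  have key' : ∀ p q r : ℝ, p ≤ r → q ≤ r → a * p + (1 - a) * q ≤ r := by
    intro p q r hp hq
    nlinarith [mul_nonneg ha (sub_nonneg.2 hp), mul_nonneg hb (sub_nonneg.2 hq)]
  obtain ⟨⟨h1, h2, h3, h4⟩, h5, h6, h7, h8⟩ := hu
  obtain ⟨⟨g1, g2, g3, g4⟩, g5, g6, g7, g8⟩ := hv
  have e0 : (a • u + (1 - a) • v) 0 = a * u 0 + (1 - a) * v 0 := rfl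
  have e1 : (a • u + (1 - a) • v) 1 = a * u 1 + (1 - a) * v 1 := rfl
  refine ⟨⟨?_, ?_, ?_, ?_⟩, ?_, ?_, ?_, ?_⟩ <;> simp only [e0, e1]
  · exact key _ _ _ h1 g1
  · exact key' _ _ _ h2 g2
  · exact key _ _ _ h3 g3
  · exact key' _ _ _ h4 g4
  · have := key _ _ _ h5 g5; nlinarith
  · have := key _ _ _ h6 g6; nlinarith
  · have := key _ _ _ h7 g7; nlinarith
  · have := key _ _ _ h8 g8; nlinarith

theorem conBall_trc {α β c e d₁ d₂ d₃ d₄ : ℝ} (hαβ : α < β) (hce : c < e)
    (h1 : 2 * d₁ < e - c) (h2 : 2 * d₂ < e - c)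
    (h3 : 2 * d₃ < e - c) (h4 : 2 * d₄ < e - c) :
    ConBall 2 (trc α β c e d₁ d₂ d₃ d₄) (bdt α β c e d₁ d₂ d₃ d₄) := by
  let f : ℝ → ℝ := fun x => c + max 0 (max (d₁ - (x - α)) (d₂ - (β - x)))
  let g : ℝ → ℝ := fun x => e - max 0 (max (d₃ - (x - α)) (d₄ - (β - x)))
  have hf : Continuous f := by unfold f; fun_prop
  have hg : Continuous g := by unfold g; fun_prop
  have hX : ConicalSet (Icc α β) := P073.Convex.conicalSet (convex_Icc _ _)
  have hid : ConicalOn (fun x : ℝ => x) (Icc α β) := conicalOn_id hX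
  have hmax : ∀ p q : ℝ, ConicalOn (fun x => max 0 (max (p - (x - α)) (q - (β - x))))
      (Icc α β) := by
    intro p q
    have a1 : ConicalOn (fun x => p - (x - α)) (Icc α β) :=
      (conicalOn_const p hX).sub (hid.sub (conicalOn_const α hX))
    have a2 : ConicalOn (fun x => q - (β - x)) (Icc α β) :=
      (conicalOn_const q hX).sub ((conicalOn_const β hX).sub hid)
    exact (conicalOn_const 0 hX).rmax (a1.rmax a2 (by fun_prop) (by fun_prop)) (by fun_prop)
      (by fun_prop)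
  have hfc : ConicalOn f (Icc α β) := (conicalOn_const c hX).add (hmax d₁ d₂)
  have hgc : ConicalOn g (Icc α β) := (conicalOn_const e hX).sub (hmax d₃ d₄)
  have hfle : ∀ x y : ℝ, f x ≤ y ↔ c ≤ y ∧ d₁ ≤ (x - α) + (y - c) ∧ d₂ ≤ (β - x) + (y - c) := by
    intro x y
    show c + max 0 (max (d₁ - (x - α)) (d₂ - (β - x))) ≤ y ↔ _
    rw [← le_sub_iff_add_le', max_le_iff, max_le_iff]
    constructor
    · rintro ⟨a, b, c⟩; exact ⟨by linarith, by linarith, by linarith⟩
    · rintro ⟨a, b, c⟩; exact ⟨by linarith, by linarith, by linarith⟩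
  have hgle : ∀ x y : ℝ, y ≤ g x ↔ y ≤ e ∧ d₃ ≤ (x - α) + (e - y) ∧ d₄ ≤ (β - x) + (e - y) := by
    intro x y
    show y ≤ e - max 0 (max (d₃ - (x - α)) (d₄ - (β - x))) ↔ _
    rw [le_sub_comm, max_le_iff, max_le_iff]
    constructor
    · rintro ⟨a, b, c⟩; exact ⟨by linarith, by linarith, by linarith⟩
    · rintro ⟨a, b, c⟩; exact ⟨by linarith, by linarith, by linarith⟩
  have hset : btw α β f g = trc α β c e d₁ d₂ d₃ d₄ := by
    ext v
    constructor
    · rintro ⟨a1, a2, a3, a4⟩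
      obtain ⟨b1, b2, b3⟩ := (hfle _ _).1 a3
      obtain ⟨b4, b5, b6⟩ := (hgle _ _).1 a4
      exact ⟨⟨a1, a2, b1, b4⟩, b2, b3, b5, b6⟩
    · rintro ⟨⟨a1, a2, b1, b4⟩, b2, b3, b5, b6⟩
      exact ⟨a1, a2, (hfle _ _).2 ⟨b1, b2, b3⟩, (hgle _ _).2 ⟨b4, b5, b6⟩⟩
  have hbd : bdb α β f g = bdt α β c e d₁ d₂ d₃ d₄ := by
    ext v
    show v ∈ btw α β f g ∧ _ ↔ v ∈ trc α β c e d₁ d₂ d₃ d₄ ∧ _
    rw [hset]
    refine and_congr_right fun hv => ?_
    obtain ⟨⟨a1, a2, a3, a4⟩, a5, a6, a7, a8⟩ := hv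
    constructor
    · rintro (h | h | h | h)
      · exact Or.inl (Or.inl h)
      · exact Or.inl (Or.inr (Or.inl h))
      · have h' : v 1 = c + max 0 (max (d₁ - (v 0 - α)) (d₂ - (β - v 0))) := h
        rcases max_choice 0 (max (d₁ - (v 0 - α)) (d₂ - (β - v 0))) with hm | hm
        · rw [hm] at h'
          exact Or.inl (Or.inr (Or.inr (Or.inl (by linarith))))
        · by_cases h0 : max (d₁ - (v 0 - α)) (d₂ - (β - v 0)) ≤ 0
          · have hm2 : max 0 (max (d₁ - (v 0 - α)) (d₂ - (β - v 0))) = 0 := max_eq_left h0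
            rw [hm2] at h'
            exact Or.inl (Or.inr (Or.inr (Or.inl (by linarith))))
          · push Not at h0
            rw [hm] at h'
            right
            rcases max_choice (d₁ - (v 0 - α)) (d₂ - (β - v 0)) with hm' | hm'
            · rw [hm'] at h' h0
              exact Or.inl ⟨by linarith, by linarith⟩
            · rw [hm'] at h' h0
              exact Or.inr (Or.inl ⟨by linarith, by linarith⟩)
      · have h' : v 1 = e - max 0 (max (d₃ - (v 0 - α)) (d₄ - (β - v 0))) := h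
        rcases max_choice 0 (max (d₃ - (v 0 - α)) (d₄ - (β - v 0))) with hm | hm
        · rw [hm] at h'
          exact Or.inl (Or.inr (Or.inr (Or.inr (by linarith))))
        · by_cases h0 : max (d₃ - (v 0 - α)) (d₄ - (β - v 0)) ≤ 0
          · have hm2 : max 0 (max (d₃ - (v 0 - α)) (d₄ - (β - v 0))) = 0 := max_eq_left h0
            rw [hm2] at h'
            exact Or.inl (Or.inr (Or.inr (Or.inr (by linarith))))
          · push Not at h0
            rw [hm] at h'
            right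
            rcases max_choice (d₃ - (v 0 - α)) (d₄ - (β - v 0)) with hm' | hm'
            · rw [hm'] at h' h0
              exact Or.inr (Or.inr (Or.inl ⟨by linarith, by linarith⟩))
            · rw [hm'] at h' h0
              exact Or.inr (Or.inr (Or.inr ⟨by linarith, by linarith⟩))
    · have F1 : f (v 0) ≤ v 1 := (hfle _ _).2 ⟨a3, a5, a6⟩
      have G1 : v 1 ≤ g (v 0) := (hgle _ _).2 ⟨a4, a7, a8⟩
      have F2 : c ≤ f (v 0) ∧ d₁ ≤ (v 0 - α) + (f (v 0) - c) ∧ d₂ ≤ (β - v 0) + (f (v 0) - c) :=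
        (hfle _ _).1 le_rfl
      have G2 : g (v 0) ≤ e ∧ d₃ ≤ (v 0 - α) + (e - g (v 0)) ∧ d₄ ≤ (β - v 0) + (e - g (v 0)) :=
        (hgle _ _).1 le_rfl
      rintro ((h | h | h | h) | ⟨_, h⟩ | ⟨_, h⟩ | ⟨_, h⟩ | ⟨_, h⟩)
      · exact Or.inl h
      · exact Or.inr (Or.inl h)
      · exact Or.inr (Or.inr (Or.inl (by linarith)))
      · exact Or.inr (Or.inr (Or.inr (by linarith)))
      · exact Or.inr (Or.inr (Or.inl (by linarith)))
      · exact Or.inr (Or.inr (Or.inl (by linarith)))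
      · exact Or.inr (Or.inr (Or.inr (by linarith)))
      · exact Or.inr (Or.inr (Or.inr (by linarith)))
  have hfg : ∀ x ∈ Icc α β, f x < g x := by
    rintro x ⟨hx1, hx2⟩
    have e1 : f x < (c + e) / 2 := by
      show c + max 0 (max (d₁ - (x - α)) (d₂ - (β - x))) < _
      rw [← lt_sub_iff_add_lt', max_lt_iff, max_lt_iff]
      exact ⟨by linarith, by linarith, by linarith⟩
    have e2 : (c + e) / 2 < g x := by
      show _ < e - max 0 (max (d₃ - (x - α)) (d₄ - (β - x)))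
      rw [lt_sub_comm, max_lt_iff, max_lt_iff]
      exact ⟨by linarith, by linarith, by linarith⟩
    exact e1.trans e2
  have := conBall_btw hαβ hf hfc hg hgc hfg (by rw [hset]; exact convex_trc _ _ _ _ _ _ _ _)
  rwa [hset, hbd] at this

theorem l1_planar {n : Fin 3} {x q : V3} (h : x n = q n) :
    l1 (x - q) = |x (n.succAbove 0) - q (n.succAbove 0)| +
      |x (n.succAbove 1) - q (n.succAbove 1)| := by
  unfold l1
  rw [Fin.sum_univ_succAbove _ n, Fin.sum_univ_two]
  show |x n - q n| + _ = _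
  rw [h, sub_self, abs_zero, zero_add]
  rfl

namespace Rects

variable {S : Rects}

/-- the rectangle minus open `ℓ¹` balls of radius `d q` around its corners `q` -/
def tr (S : Rects) (d : V3 → ℝ) (a : S.A) : Set V3 :=
  {x | x ∈ S.rect a ∧ ∀ q ∈ S.corner a, d q ≤ l1 (x - q)}

/-- its boundary -/
def trb (S : Rects) (d : V3 → ℝ) (a : S.A) : Set V3 :=
  {x | x ∈ S.tr d a ∧ (x ∈ S.edge a ∨ ∃ q ∈ S.corner a, 0 < d q ∧ l1 (x - q) = d q)}

/-- the corner of the rectangle `a` with the signs `b`, `b'` -/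
noncomputable def cor (S : Rects) (a : S.A) (b b' : Bool) : V3 :=
  insMap (S.nrm a) (S.lo a (S.nrm a))
    ![if b then S.hi a ((S.nrm a).succAbove 0) else S.lo a ((S.nrm a).succAbove 0),
      if b' then S.hi a ((S.nrm a).succAbove 1) else S.lo a ((S.nrm a).succAbove 1)]

theorem cor_nrm (a : S.A) (b b' : Bool) : S.cor a b b' (S.nrm a) = S.lo a (S.nrm a) :=
  insMap_same _ _ _

theorem cor_zero (a : S.A) (b b' : Bool) : S.cor a b b' ((S.nrm a).succAbove 0) =
    if b then S.hi a ((S.nrm a).succAbove 0) else S.lo a ((S.nrm a).succAbove 0) :=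
  insMap_succAbove _ _ _ _

theorem cor_one (a : S.A) (b b' : Bool) : S.cor a b b' ((S.nrm a).succAbove 1) =
    if b' then S.hi a ((S.nrm a).succAbove 1) else S.lo a ((S.nrm a).succAbove 1) :=
  insMap_succAbove _ _ _ _

theorem forall_axis {P : Fin 3 → Prop} (n : Fin 3) (h : P n) (h0 : P (n.succAbove 0))
    (h1 : P (n.succAbove 1)) : ∀ k, P k := by
  intro k
  by_cases hk : k = n
  · rw [hk]; exact h
  · obtain ⟨i, rfl⟩ := Fin.exists_succAbove_eq hk
    fin_cases i
    · exact h0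
    · exact h1

theorem mem_corner_iff {a : S.A} {q : V3} : q ∈ S.corner a ↔ ∃ b b', q = S.cor a b b' := by
  constructor
  · rintro ⟨hq, h⟩
    have h0 := h _ (Fin.succAbove_ne (S.nrm a) 0)
    have h1 := h _ (Fin.succAbove_ne (S.nrm a) 1)
    rw [rect_eq] at hq
    refine ⟨decide (q ((S.nrm a).succAbove 0) = S.hi a ((S.nrm a).succAbove 0)),
      decide (q ((S.nrm a).succAbove 1) = S.hi a ((S.nrm a).succAbove 1)), ?_⟩
    funext k
    revert k
    refine forall_axis (S.nrm a) ?_ ?_ ?_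
    · rw [cor_nrm]; exact hq.1
    · rw [cor_zero]
      by_cases h : q ((S.nrm a).succAbove 0) = S.hi a ((S.nrm a).succAbove 0)
      · simp [h]
      · rw [if_neg (by simpa using h)]
        exact h0.resolve_right h
    · rw [cor_one]
      by_cases h : q ((S.nrm a).succAbove 1) = S.hi a ((S.nrm a).succAbove 1)
      · simp [h]
      · rw [if_neg (by simpa using h)]
        exact h1.resolve_right h
  · rintro ⟨b, b', rfl⟩
    have w0 := S.wide a _ (Fin.succAbove_ne (S.nrm a) 0)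
    have w1 := S.wide a _ (Fin.succAbove_ne (S.nrm a) 1)
    constructor
    · rw [mem_rect]
      refine forall_axis (S.nrm a) ?_ ?_ ?_
      · rw [cor_nrm]; exact ⟨le_rfl, lo_le_hi _ _⟩
      · rw [cor_zero]; cases b <;> simp [w0.le]
      · rw [cor_one]; cases b' <;> simp [w1.le]
    · refine forall_axis (P := fun k => k ≠ S.nrm a → (S.cor a b b' k = S.lo a k ∨
        S.cor a b b' k = S.hi a k)) (S.nrm a) (fun h => absurd rfl h) (fun _ => ?_) fun _ => ?_
      · rw [cor_zero]; cases b <;> simp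
      · rw [cor_one]; cases b' <;> simp

/-- **Truncated rectangles are conical discs.** -/
theorem conBall_tr {d : V3 → ℝ} {a : S.A}
    (hd : ∀ q ∈ S.corner a, ∀ k, k ≠ S.nrm a → 2 * d q < S.hi a k - S.lo a k) :
    ConBall 2 (S.tr d a) (S.trb d a) := by
  have w0 := S.wide a _ (Fin.succAbove_ne (S.nrm a) 0)
  have w1 := S.wide a _ (Fin.succAbove_ne (S.nrm a) 1)
  have hc : ∀ b b', S.cor a b b' ∈ S.corner a := fun b b' => mem_corner_iff.2 ⟨b, b', rfl⟩
  have hd1 : ∀ b b', 2 * d (S.cor a b b') < S.hi a ((S.nrm a).succAbove 1) -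
      S.lo a ((S.nrm a).succAbove 1) := fun b b' => hd _ (hc b b') _ (Fin.succAbove_ne _ 1)
  have key := (conBall_trc w0 w1 (hd1 false false) (hd1 true false) (hd1 false true)
    (hd1 true true)).image_affine (insMap (S.nrm a) (S.lo a (S.nrm a)))
    (insMap_injective _ _) (continuous_insMap _ _)
  -- distances to the corners
  have hl : ∀ x ∈ S.rect a,
      l1 (x - S.cor a false false) = (x ((S.nrm a).succAbove 0) - S.lo a ((S.nrm a).succAbove 0)) +
        (x ((S.nrm a).succAbove 1) - S.lo a ((S.nrm a).succAbove 1)) ∧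
      l1 (x - S.cor a true false) = (S.hi a ((S.nrm a).succAbove 0) - x ((S.nrm a).succAbove 0)) +
        (x ((S.nrm a).succAbove 1) - S.lo a ((S.nrm a).succAbove 1)) ∧
      l1 (x - S.cor a false true) = (x ((S.nrm a).succAbove 0) - S.lo a ((S.nrm a).succAbove 0)) +
        (S.hi a ((S.nrm a).succAbove 1) - x ((S.nrm a).succAbove 1)) ∧
      l1 (x - S.cor a true true) = (S.hi a ((S.nrm a).succAbove 0) - x ((S.nrm a).succAbove 0)) +
        (S.hi a ((S.nrm a).succAbove 1) - x ((S.nrm a).succAbove 1)) := by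
    intro x hx
    have hx' := mem_rect.1 hx
    have hxn : x (S.nrm a) = S.lo a (S.nrm a) := by
      rw [rect_eq] at hx; exact hx.1
    have hb := hx' ((S.nrm a).succAbove 0)
    have hb' := hx' ((S.nrm a).succAbove 1)
    refine ⟨?_, ?_, ?_, ?_⟩ <;> rw [l1_planar (hxn.trans (cor_nrm a _ _).symm), cor_zero, cor_one]
    · simp only [Bool.false_eq_true, if_false]
      rw [abs_of_nonneg (by linarith), abs_of_nonneg (by linarith)]
    · simp only [Bool.false_eq_true, if_false, if_true]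
      rw [abs_of_nonpos (by linarith), abs_of_nonneg (by linarith)]; ring
    · simp only [Bool.false_eq_true, if_false, if_true]
      rw [abs_of_nonneg (by linarith), abs_of_nonpos (by linarith)]; ring
    · simp only [if_true]
      rw [abs_of_nonpos (by linarith), abs_of_nonpos (by linarith)]; ring
  have hins : ∀ x ∈ S.rect a, insMap (S.nrm a) (S.lo a (S.nrm a))
      (fun i => x ((S.nrm a).succAbove i)) = x := by
    intro x hx
    rw [rect_eq] at hx
    funext k
    revert k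
    refine forall_axis (S.nrm a) ?_ ?_ ?_
    · rw [insMap_same]; exact hx.1.symm
    · rw [insMap_succAbove]
    · rw [insMap_succAbove]
  have hrect : ∀ v : Fin 2 → ℝ, insMap (S.nrm a) (S.lo a (S.nrm a)) v ∈ S.rect a ↔
      (S.lo a ((S.nrm a).succAbove 0) ≤ v 0 ∧ v 0 ≤ S.hi a ((S.nrm a).succAbove 0) ∧
        S.lo a ((S.nrm a).succAbove 1) ≤ v 1 ∧ v 1 ≤ S.hi a ((S.nrm a).succAbove 1)) := by
    intro v
    rw [mem_rect]
    constructor
    · intro h
      have h0 := h ((S.nrm a).succAbove 0)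
      have h1 := h ((S.nrm a).succAbove 1)
      rw [insMap_succAbove] at h0 h1
      exact ⟨h0.1, h0.2, h1.1, h1.2⟩
    · rintro ⟨h1, h2, h3, h4⟩
      refine forall_axis (S.nrm a) ?_ ?_ ?_
      · rw [insMap_same]; exact ⟨le_rfl, lo_le_hi _ _⟩
      · rw [insMap_succAbove]; exact ⟨h1, h2⟩
      · rw [insMap_succAbove]; exact ⟨h3, h4⟩
  have hv0 : ∀ v : Fin 2 → ℝ, insMap (S.nrm a) (S.lo a (S.nrm a)) v ((S.nrm a).succAbove 0) = v 0 :=
    fun v => insMap_succAbove _ _ _ _
  have hv1 : ∀ v : Fin 2 → ℝ, insMap (S.nrm a) (S.lo a (S.nrm a)) v ((S.nrm a).succAbove 1) = v 1 :=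
    fun v => insMap_succAbove _ _ _ _
  have htr : ∀ v : Fin 2 → ℝ, insMap (S.nrm a) (S.lo a (S.nrm a)) v ∈ S.tr d a ↔
      v ∈ trc (S.lo a ((S.nrm a).succAbove 0)) (S.hi a ((S.nrm a).succAbove 0))
        (S.lo a ((S.nrm a).succAbove 1)) (S.hi a ((S.nrm a).succAbove 1))
        (d (S.cor a false false)) (d (S.cor a true false)) (d (S.cor a false true))
        (d (S.cor a true true)) := by
    intro v
    constructor
    · rintro ⟨h1, h2⟩
      obtain ⟨e1, e2, e3, e4⟩ := hl _ h1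
      rw [hv0, hv1] at e1 e2 e3 e4
      refine ⟨(hrect v).1 h1, ?_, ?_, ?_, ?_⟩
      · rw [← e1]; exact h2 _ (hc _ _)
      · rw [← e2]; exact h2 _ (hc _ _)
      · rw [← e3]; exact h2 _ (hc _ _)
      · rw [← e4]; exact h2 _ (hc _ _)
    · rintro ⟨h1, h2, h3, h4, h5⟩
      have h1' := (hrect v).2 h1
      obtain ⟨e1, e2, e3, e4⟩ := hl _ h1'
      rw [hv0, hv1] at e1 e2 e3 e4
      refine ⟨h1', fun q hq => ?_⟩
      obtain ⟨b, b', rfl⟩ := mem_corner_iff.1 hq
      cases b <;> cases b'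
      · rw [e1]; exact h2
      · rw [e3]; exact h4
      · rw [e2]; exact h3
      · rw [e4]; exact h5
  have E1 : insMap (S.nrm a) (S.lo a (S.nrm a)) ''
      trc (S.lo a ((S.nrm a).succAbove 0)) (S.hi a ((S.nrm a).succAbove 0))
        (S.lo a ((S.nrm a).succAbove 1)) (S.hi a ((S.nrm a).succAbove 1))
        (d (S.cor a false false)) (d (S.cor a true false)) (d (S.cor a false true))
        (d (S.cor a true true)) = S.tr d a := by
    ext x
    constructor
    · rintro ⟨v, hv, rfl⟩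
      exact (htr v).2 hv
    · intro hx
      refine ⟨fun i => x ((S.nrm a).succAbove i), ?_, hins x hx.1⟩
      rw [← htr, hins x hx.1]
      exact hx
  have htrb : ∀ v : Fin 2 → ℝ, insMap (S.nrm a) (S.lo a (S.nrm a)) v ∈ S.trb d a ↔
      v ∈ bdt (S.lo a ((S.nrm a).succAbove 0)) (S.hi a ((S.nrm a).succAbove 0))
        (S.lo a ((S.nrm a).succAbove 1)) (S.hi a ((S.nrm a).succAbove 1))
        (d (S.cor a false false)) (d (S.cor a true false)) (d (S.cor a false true))
        (d (S.cor a true true)) := by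
    intro v
    constructor
    · rintro ⟨h, he⟩
      obtain ⟨e1, e2, e3, e4⟩ := hl _ h.1
      rw [hv0, hv1] at e1 e2 e3 e4
      refine ⟨(htr v).1 h, ?_⟩
      rcases he with ⟨_, k, hk, he⟩ | ⟨q, hq, hpos, he⟩
      · left
        obtain ⟨i, rfl⟩ := Fin.exists_succAbove_eq hk
        rw [insMap_succAbove] at he
        fin_cases i
        · rcases he with he | he
          · exact Or.inl he
          · exact Or.inr (Or.inl he)
        · rcases he with he | he
          · exact Or.inr (Or.inr (Or.inl he))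
          · exact Or.inr (Or.inr (Or.inr he))
      · right
        obtain ⟨b, b', rfl⟩ := mem_corner_iff.1 hq
        cases b <;> cases b'
        · rw [e1] at he; exact Or.inl ⟨hpos, he⟩
        · rw [e3] at he; exact Or.inr (Or.inr (Or.inl ⟨hpos, he⟩))
        · rw [e2] at he; exact Or.inr (Or.inl ⟨hpos, he⟩)
        · rw [e4] at he; exact Or.inr (Or.inr (Or.inr ⟨hpos, he⟩))
    · rintro ⟨h, he⟩
      have h' := (htr v).2 h
      obtain ⟨e1, e2, e3, e4⟩ := hl _ h'.1
      rw [hv0, hv1] at e1 e2 e3 e4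
      refine ⟨h', ?_⟩
      rcases he with (he | he | he | he) | ⟨hpos, he⟩ | ⟨hpos, he⟩ | ⟨hpos, he⟩ | ⟨hpos, he⟩
      · exact Or.inl ⟨h'.1, _, Fin.succAbove_ne _ 0, Or.inl (by rw [hv0]; exact he)⟩
      · exact Or.inl ⟨h'.1, _, Fin.succAbove_ne _ 0, Or.inr (by rw [hv0]; exact he)⟩
      · exact Or.inl ⟨h'.1, _, Fin.succAbove_ne _ 1, Or.inl (by rw [hv1]; exact he)⟩
      · exact Or.inl ⟨h'.1, _, Fin.succAbove_ne _ 1, Or.inr (by rw [hv1]; exact he)⟩
      · exact Or.inr ⟨_, hc false false, hpos, e1.trans he⟩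
      · exact Or.inr ⟨_, hc true false, hpos, e2.trans he⟩
      · exact Or.inr ⟨_, hc false true, hpos, e3.trans he⟩
      · exact Or.inr ⟨_, hc true true, hpos, e4.trans he⟩
  have E2 : insMap (S.nrm a) (S.lo a (S.nrm a)) ''
      bdt (S.lo a ((S.nrm a).succAbove 0)) (S.hi a ((S.nrm a).succAbove 0))
        (S.lo a ((S.nrm a).succAbove 1)) (S.hi a ((S.nrm a).succAbove 1))
        (d (S.cor a false false)) (d (S.cor a true false)) (d (S.cor a false true))
        (d (S.cor a true true)) = S.trb d a := by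
    ext x
    constructor
    · rintro ⟨v, hv, rfl⟩
      exact (htrb v).2 hv
    · intro hx
      refine ⟨fun i => x ((S.nrm a).succAbove i), ?_, hins x hx.1.1⟩
      rw [← htrb, hins x hx.1.1]
      exact hx
  rwa [E1, E2] at key

end Rects

end P073.MOS
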