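import Vale.Agent.P073.MOS.Mos
import Vale.Agent.P073.MOS.Trunc
import Vale.Agent.P073.MOS.Diam

/-!
# P073, block MOS: the truncated mosaic, preparations

The vertices of valence at least four of a rectangular surface are corners of all rectangles
through them; they are replaced by small diamonds.
-/

open Set Metric Topology Function Filter

namespace P073.MOS

open Rects

theorem Rects.Occ.ext_left {S : Rects} {a : S.A} {z : V3} {h h' : HA} (H : S.Occ a z h h') :
    S.Ext a z h := H.2.2.1

theorem Rects.Occ.ext_right {S : Rects} {a : S.A} {z : V3} {h h' : HA} (H : S.Occ a z h h') :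
    S.Ext a z h' := H.2.2.2

theorem neg_ne (h : HA) : neg h ≠ h := by
  obtain ⟨k, b⟩ := h
  cases b <;> simp [neg]

theorem neg_neg' (h : HA) : neg (neg h) = h := by
  obtain ⟨k, b⟩ := h
  cases b <;> simp [neg]

/-- the points in at least four rectangles -/
def Rects.P4 (S : Rects) : Set V3 :=
  {p | ∃ a b c e, a ≠ b ∧ a ≠ c ∧ a ≠ e ∧ b ≠ c ∧ b ≠ e ∧ c ≠ e ∧ p ∈ S.rect a ∧ p ∈ S.rect b ∧
    p ∈ S.rect c ∧ p ∈ S.rect e}

/-- a point of a rectangle is a corner of the rectangle, or `F` is invariant near the point in the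
direction of an axis -/
def GoodCorners (S : Rects) : Prop :=
  ∀ a, ∀ z ∈ S.rect a, z ∈ S.corner a ∨ ∃ k, ∀ h h', S.Adj z h h' → h.1 = k ∨ h'.1 = k

/-- in a corner a rectangle does not extend in opposite directions -/
theorem corner_of_not_ext {S : Rects} {a : S.A} {z : V3} (hz : z ∈ S.rect a)
    (H : ∀ h, S.Ext a z h → ¬ S.Ext a z (neg h)) : z ∈ S.corner a := by
  refine ⟨hz, fun k hk => ?_⟩
  by_contra hcon
  push Not at hcon
  have h1 := mem_rect.1 hz k
  refine H (k, true) ?_ ?_
  · rw [ext_true]; exact lt_of_le_of_ne h1.2 hcon.2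
  · show S.Ext a z (k, false)
    rw [ext_false]; exact lt_of_le_of_ne h1.1 hcon.1.symm

theorem not_ext_of_corner {S : Rects} {a : S.A} {z : V3} (hz : z ∈ S.corner a) {h : HA}
    (H : S.Ext a z h) : ¬ S.Ext a z (neg h) := by
  intro H'
  have hk := H.ne_nrm hz.1
  have hc := hz.2 _ hk
  obtain ⟨k, b⟩ := h
  cases b
  · rw [ext_false] at H
    have H'' : z k < S.hi a k := H'
    rcases hc with h | h
    · exact H.ne h.symm
    · exact H''.ne h
  · have H1 : z k < S.hi a k := H
    have H2 : S.Ext a z (k, false) := H'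
    rw [ext_false] at H2
    rcases hc with h | h
    · exact H2.ne h.symm
    · exact H1.ne h

namespace RectSurf

variable {F : Set V3} {S : Rects} {a b v w : S.A} {z p : V3} {h h' : HA}

/-- **vertices of valence at least four are corners** -/
theorem corner_of_P4 (hS : RectSurf F S) (hg : GoodCorners S) (hp : p ∈ S.P4)
    (ha : p ∈ S.rect a) : p ∈ S.corner a := by
  rcases hg a p ha with h | ⟨k, hk⟩
  · exact h
  by_contra hcon
  -- `a` extends in opposite directions
  obtain ⟨g, hg1, hg2⟩ : ∃ g, S.Ext a p g ∧ S.Ext a p (neg g) := by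
    by_contra h
    push Not at h
    exact hcon (corner_of_not_ext ha h)
  -- every rectangle extends in direction of the axis `k`
  have hext : ∀ u, p ∈ S.rect u → ∃ b, S.Ext u p (k, b) := by
    intro u hu
    obtain ⟨x, y, hxy⟩ := exists_occ hu
    rcases hk x y ⟨u, hxy⟩ with h | h
    · exact ⟨x.2, by rw [← h]; exact hxy.ext_left⟩
    · exact ⟨y.2, by rw [← h]; exact hxy.ext_right⟩
  -- there is a direction `g0` on the axis `k` such that all rectangles which extend there
  -- are among two; and in the opposite direction two, with `a` in both, or only `a` in one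
  have key : ∃ v w, ∀ u, p ∈ S.rect u → u = a ∨ u = v ∨ u = w := by
    -- in each direction there are at most two rectangles
    have two : ∀ g, ∃ v, ∀ u, p ∈ S.rect u → S.Ext a p g → S.Ext u p g → u = a ∨ u = v := by
      intro g
      by_cases h1 : ∃ v, v ≠ a ∧ p ∈ S.rect v ∧ S.Ext v p g
      · obtain ⟨v, hva, hv, hvg⟩ := h1
        refine ⟨v, fun u hu hag hug => ?_⟩
        exact hS.eq_or_eq_of_ext ha hv hag hvg hva.symm hu hug
      · push Not at h1
        refine ⟨a, fun u hu _ hug => ?_⟩
        by_contra h2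
        push Not at h2
        exact h1 u h2.1 hu hug
    by_cases hgk : g.1 = k
    · obtain ⟨v, hv⟩ := two g
      obtain ⟨w, hw⟩ := two (neg g)
      refine ⟨v, w, fun u hu => ?_⟩
      obtain ⟨b, hb⟩ := hext u hu
      rcases eq_or_eq_neg (h := g) (h' := (k, b)) hgk.symm with h | h
      · rw [h] at hb
        rcases hv u hu hg1 hb with h' | h'
        · exact Or.inl h'
        · exact Or.inr (Or.inl h')
      · rw [h] at hb
        rcases hw u hu hg2 hb with h' | h'
        · exact Or.inl h'
        · exact Or.inr (Or.inr h')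
    · -- `a` is alone in its direction on the axis `k`
      obtain ⟨b, hab⟩ := hext a ha
      have hocc1 : S.Occ a p (k, b) g := ⟨ha, fun h => hgk h.symm, hab, hg1⟩
      have hocc2 : S.Occ a p (k, b) (neg g) := ⟨ha, fun h => hgk h.symm, hab, hg2⟩
      have alone : ∀ u, p ∈ S.rect u → S.Ext u p (k, b) → u = a := by
        intro u hu hub
        obtain ⟨y, hy⟩ := hub.exists_occ hu
        rcases (hS.cyc' ha).two ⟨a, hocc1⟩ ⟨a, hocc2⟩ (neg_ne g).symm ⟨u, hy⟩ with h | h
        · subst h; exact hS.disj _ _ _ _ _ hy hocc1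
        · subst h; exact hS.disj _ _ _ _ _ hy hocc2
      -- the rectangles in the opposite direction
      by_cases h1 : ∃ v, p ∈ S.rect v ∧ S.Ext v p (k, !b)
      · obtain ⟨v, hv, hvg⟩ := h1
        by_cases h2 : ∃ w, w ≠ v ∧ p ∈ S.rect w ∧ S.Ext w p (k, !b)
        · obtain ⟨w, hwv, hw, hwg⟩ := h2
          refine ⟨v, w, fun u hu => ?_⟩
          obtain ⟨b', hb'⟩ := hext u hu
          by_cases hbb : b' = b
          · subst hbb
            exact Or.inl (alone u hu hb')
          · have : b' = !b := by cases b <;> cases b' <;> simp at hbb ⊢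
            subst this
            exact Or.inr (hS.eq_or_eq_of_ext hv hw hvg hwg hwv.symm hu hb')
        · push Not at h2
          refine ⟨v, v, fun u hu => ?_⟩
          obtain ⟨b', hb'⟩ := hext u hu
          by_cases hbb : b' = b
          · subst hbb
            exact Or.inl (alone u hu hb')
          · have : b' = !b := by cases b <;> cases b' <;> simp at hbb ⊢
            subst this
            by_contra h3
            push Not at h3
            exact h2 u h3.2.1 hu hb'
      · push Not at h1
        refine ⟨a, a, fun u hu => ?_⟩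
        obtain ⟨b', hb'⟩ := hext u hu
        by_cases hbb : b' = b
        · subst hbb
          exact Or.inl (alone u hu hb')
        · have : b' = !b := by cases b <;> cases b' <;> simp at hbb ⊢
          subst this
          exact absurd hb' (h1 u hu)
  obtain ⟨v, w, hvw⟩ := key
  obtain ⟨c1, c2, c3, c4, n1, n2, n3, n4, n5, n6, m1, m2, m3, m4⟩ := hp
  classical
  have hsub : ({c1, c2, c3, c4} : Finset S.A) ⊆ {a, v, w} := by
    intro x hx
    simp only [Finset.mem_insert, Finset.mem_singleton] at hx ⊢
    rcases hx with rfl | rfl | rfl | rfl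
    · exact hvw _ m1
    · exact hvw _ m2
    · exact hvw _ m3
    · exact hvw _ m4
  have h1 := Finset.card_le_card hsub
  have h2 : ({a, v, w} : Finset S.A).card ≤ 3 := Finset.card_le_three
  have h3 : ({c1, c2, c3, c4} : Finset S.A).card = 4 := by
    rw [Finset.card_insert_of_notMem, Finset.card_insert_of_notMem,
      Finset.card_insert_of_notMem, Finset.card_singleton]
    · simpa using n6
    · simp only [Finset.mem_insert, Finset.mem_singleton, not_or]; exact ⟨n4, n5⟩
    · simp only [Finset.mem_insert, Finset.mem_singleton, not_or]; exact ⟨n1, n2, n3⟩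
  omega

/-- structure of the intersection of two neighbouring rectangles -/
theorem seg_struct (hS : RectSurf F S) (hvw : v ≠ w)
    (hnt : (S.rect v ∩ S.rect w).Nontrivial) : ∃ (k : Fin 3) (lo hi : V3),
      S.rect v ∩ S.rect w = Icc lo hi ∧ lo k < hi k ∧ (∀ l, l ≠ k → lo l = hi l) ∧
      (∀ p ∈ S.rect v ∩ S.rect w, (∃ u, u ≠ v ∧ u ≠ w ∧ p ∈ S.rect u) ↔ p = lo ∨ p = hi) ∧
      (k ≠ S.nrm v ∧ k ≠ S.nrm w) ∧
      (lo k = S.lo v k ∨ lo k = S.lo w k) ∧ (hi k = S.hi v k ∨ hi k = S.hi w k) ∧
      hi k ≤ S.hi v k ∧ hi k ≤ S.hi w k ∧ S.lo v k ≤ lo k ∧ S.lo w k ≤ lo k := by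
  obtain ⟨z₁, hz₁, z₂, hz₂, hne⟩ := hnt
  obtain ⟨k, hk⟩ := Function.ne_iff.1 hne
  set lo : V3 := S.lo v ⊔ S.lo w with hlo
  set hi : V3 := S.hi v ⊓ S.hi w with hhi
  have hI : S.rect v ∩ S.rect w = Icc lo hi := Icc_inter_Icc
  have hlov : ∀ l, S.lo v l ≤ lo l := fun l => le_max_left _ _
  have hlow : ∀ l, S.lo w l ≤ lo l := fun l => le_max_right _ _
  have hhiv : ∀ l, hi l ≤ S.hi v l := fun l => min_le_left _ _
  have hhiw : ∀ l, hi l ≤ S.hi w l := fun l => min_le_right _ _
  have hz₁' : z₁ ∈ Icc lo hi := hI ▸ hz₁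
  have hz₂' : z₂ ∈ Icc lo hi := hI ▸ hz₂
  have hle : ∀ l, lo l ≤ hi l := fun l => (hz₁'.1 l).trans (hz₁'.2 l)
  have hlk : lo k < hi k := by
    rcases lt_or_gt_of_ne hk with h | h
    · exact lt_of_le_of_lt (hz₁'.1 k) (lt_of_lt_of_le h (hz₂'.2 k))
    · exact lt_of_le_of_lt (hz₂'.1 k) (lt_of_lt_of_le h (hz₁'.2 k))
  have hlomem : lo ∈ S.rect v ∩ S.rect w := by rw [hI]; exact ⟨le_rfl, hle⟩
  have hhimem : hi ∈ S.rect v ∩ S.rect w := by rw [hI]; exact ⟨hle, le_rfl⟩
  have heq : ∀ l, l ≠ k → lo l = hi l := by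
    intro l hl
    by_contra hcon
    have hll := lt_of_le_of_ne (hle l) hcon
    refine hvw (hS.disj v w lo (k, true) (l, true) ⟨hlomem.1, hl.symm, ?_, ?_⟩
      ⟨hlomem.2, hl.symm, ?_, ?_⟩)
    · exact lt_of_lt_of_le hlk (hhiv k)
    · exact lt_of_lt_of_le hll (hhiv l)
    · exact lt_of_lt_of_le hlk (hhiw k)
    · exact lt_of_lt_of_le hll (hhiw l)
  refine ⟨k, lo, hi, hI, hlk, heq, ?_, ⟨?_, ?_⟩, max_choice _ _, min_choice _ _, hhiv k, hhiw k,
    hlov k, hlow k⟩
  · -- the third rectangle
    obtain ⟨a, b, hball, hab⟩ := hS.edge_field hvw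
      ⟨z₁, hz₁, z₂, hz₂, hne⟩
    intro p hp
    have hp' : p ∈ Icc lo hi := hI ▸ hp
    constructor
    · rintro ⟨u, huv, huw, hu⟩
      by_contra hcon
      push Not at hcon
      have h1 : p k ≠ lo k := by
        intro h
        apply hcon.1
        funext l
        by_cases hl : l = k
        · rw [hl, h]
        · exact le_antisymm ((hp'.2 l).trans (heq l hl).ge) (hp'.1 l)
      have h2 : p k ≠ hi k := by
        intro h
        apply hcon.2
        funext l
        by_cases hl : l = k
        · rw [hl, h]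
        · exact le_antisymm (hp'.2 l) ((heq l hl).ge.trans (hp'.1 l))
      have h3 := lt_of_le_of_ne (hp'.1 k) h1.symm
      have h4 := lt_of_le_of_ne (hp'.2 k) h2
      have Hv : S.Ext v p (k, true) := lt_of_lt_of_le h4 (hhiv k)
      have Hw : S.Ext w p (k, true) := lt_of_lt_of_le h4 (hhiw k)
      have Hv' : S.Ext v p (neg (k, true)) := by
        show S.Ext v p (k, false)
        rw [ext_false]; exact lt_of_le_of_lt (hlov k) h3
      have Hw' : S.Ext w p (neg (k, true)) := by
        show S.Ext w p (k, false)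
        rw [ext_false]; exact lt_of_le_of_lt (hlow k) h3
      rcases hS.only_two hp.1 hp.2 hvw Hv Hw Hv' Hw' hu with h | h
      · exact huv h
      · exact huw h
    · rintro (rfl | rfl)
      · have Hv : S.Ext v lo (k, true) := lt_of_lt_of_le hlk (hhiv k)
        have Hw : S.Ext w lo (k, true) := lt_of_lt_of_le hlk (hhiw k)
        rcases max_choice (S.lo v k) (S.lo w k) with h | h
        · have Hn : ¬ S.Ext v lo (neg (k, true)) := by
            show ¬ S.Ext v lo (k, false)
            rw [ext_false]
            show ¬ S.lo v k < max (S.lo v k) (S.lo w k)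
            rw [h]; exact lt_irrefl _
          exact hS.exists_third hp.1 hp.2 hvw Hv Hw Hn
        · have Hn : ¬ S.Ext w lo (neg (k, true)) := by
            show ¬ S.Ext w lo (k, false)
            rw [ext_false]
            show ¬ S.lo w k < max (S.lo v k) (S.lo w k)
            rw [h]; exact lt_irrefl _
          obtain ⟨u, h1, h2, h3⟩ := hS.exists_third hp.2 hp.1 hvw.symm Hw Hv Hn
          exact ⟨u, h2, h1, h3⟩
      · have Hv : S.Ext v hi (k, false) := by
          rw [ext_false]; exact lt_of_le_of_lt (hlov k) hlk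
        have Hw : S.Ext w hi (k, false) := by
          rw [ext_false]; exact lt_of_le_of_lt (hlow k) hlk
        rcases min_choice (S.hi v k) (S.hi w k) with h | h
        · have Hn : ¬ S.Ext v hi (neg (k, false)) := by
            show ¬ S.Ext v hi (k, true)
            rw [ext_true]
            show ¬ min (S.hi v k) (S.hi w k) < S.hi v k
            rw [h]; exact lt_irrefl _
          exact hS.exists_third hp.1 hp.2 hvw Hv Hw Hn
        · have Hn : ¬ S.Ext w hi (neg (k, false)) := by
            show ¬ S.Ext w hi (k, true)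
            rw [ext_true]
            show ¬ min (S.hi v k) (S.hi w k) < S.hi w k
            rw [h]; exact lt_irrefl _
          obtain ⟨u, h1, h2, h3⟩ := hS.exists_third hp.2 hp.1 hvw.symm Hw Hv Hn
          exact ⟨u, h2, h1, h3⟩
  · intro h
    have h1 := mem_rect.1 hlomem.1 k
    have h2 := mem_rect.1 hhimem.1 k
    have h3 := S.flat v
    rw [← h] at h3
    linarith
  · intro h
    have h1 := mem_rect.1 hlomem.2 k
    have h2 := mem_rect.1 hhimem.2 k
    have h3 := S.flat w
    rw [← h] at h3
    linarith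

end RectSurf

end P073.MOS
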