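import Vale.Agent.P073.MOS.TD

/-!
# P073, block MOS: the truncated mosaic

All vertices have valence three: the vertices of valence at least four of a rectangular surface are
replaced by diamonds.
-/

open Set Metric Topology Function Filter

namespace P073.MOS

open Rects

/-- the data for the truncated mosaic -/
structure TD (F : Set V3) (S : Rects) where
  hS : RectSurf F S
  /-- the radius of the diamonds, zero off `S.P4` -/
  d : V3 → ℝ
  hd0 : ∀ p, p ∉ S.P4 → d p = 0
  near : ∀ p ∈ S.P4, 0 < d p ∧ ∃ ε, d p < ε ∧ ∃ Q, NearCyc F p ε Q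
  D1 : ∀ p ∈ S.P4, ∀ a, ∀ x ∈ S.rect a, l1 (x - p) ≤ d p → p ∈ S.rect a
  D2 : ∀ p ∈ S.P4, ∀ a, p ∈ S.rect a → p ∈ S.corner a ∧
    ∀ k, k ≠ S.nrm a → 2 * d p < S.hi a k - S.lo a k

namespace TD

variable {F : Set V3} {S : Rects} (D : TD F S) {a b c : S.A} {x p q : V3} {h h' : HA}

/-- the diamond -/
def dia (p : V3) : Set V3 := F ∩ {x | l1 (x - p) ≤ D.d p}

/-- index of the cells -/
abbrev W (_ : TD F S) : Type := S.A ⊕ {p // p ∈ S.P4}

/-- the cells -/
def R (v : D.W) : Set V3 := Sum.elim (fun a => S.tr D.d a) (fun p => D.dia p.1) v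

/-- the boundaries of the cells -/
def bd (v : D.W) : Set V3 :=
  Sum.elim (fun a => S.trb D.d a) (fun p => F ∩ {x | l1 (x - p.1) = D.d p.1}) v

theorem l1_self (x : V3) : l1 (x - x) = 0 := by rw [sub_self]; simp [l1]

theorem d_nonneg (p : V3) : 0 ≤ D.d p := by
  by_cases hp : p ∈ S.P4
  · exact (D.near p hp).1.le
  · rw [D.hd0 p hp]

/-- the constraint on the truncated rectangles does not depend on the rectangle -/
theorem mem_tr : x ∈ S.tr D.d a ↔ x ∈ S.rect a ∧ ∀ p, D.d p ≤ l1 (x - p) := by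
  constructor
  · rintro ⟨hx, hq⟩
    refine ⟨hx, fun p => ?_⟩
    by_cases hp : p ∈ S.P4
    · by_contra hcon
      push Not at hcon
      have hpa := D.D1 p hp a x hx hcon.le
      exact absurd (hq p (D.D2 p hp a hpa).1) (not_le.2 hcon)
    · rw [D.hd0 p hp]; exact l1_nonneg _
  · rintro ⟨hx, hq⟩
    exact ⟨hx, fun p _ => hq p⟩

theorem mem_inl : x ∈ D.R (Sum.inl a) ↔ x ∈ S.rect a ∧ ∀ p, D.d p ≤ l1 (x - p) := D.mem_tr

theorem mem_inr {p : {p // p ∈ S.P4}} : x ∈ D.R (Sum.inr p) ↔ x ∈ F ∧ l1 (x - p.1) ≤ D.d p.1 :=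
  Iff.rfl

/-- points of truncated rectangles are not in `P4` -/
theorem notMem_P4 (hx : ∀ p, D.d p ≤ l1 (x - p)) : x ∉ S.P4 := by
  intro h
  have h1 := hx x
  rw [l1_self] at h1
  exact absurd (D.near x h).1 (not_lt.2 h1)

include D in
theorem exists_rect (hx : x ∈ F) : ∃ a, x ∈ S.rect a := by
  rw [← D.hS.cover] at hx
  exact mem_iUnion.1 hx

/-- two corners of a rectangle -/
theorem corner_dist (hp : p ∈ S.P4) (hq : q ∈ S.P4) (hpq : p ≠ q) (ha : p ∈ S.rect a)
    (hb : q ∈ S.rect a) : D.d p + D.d q < l1 (p - q) := by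
  obtain ⟨cp, dp⟩ := D.D2 p hp a ha
  obtain ⟨cq, dq⟩ := D.D2 q hq a hb
  obtain ⟨k, hk⟩ := Function.ne_iff.1 hpq
  have hkn : k ≠ S.nrm a := by
    rintro rfl
    have h1 := mem_rect.1 ha (S.nrm a)
    have h2 := mem_rect.1 hb (S.nrm a)
    rw [S.flat a] at h1 h2
    exact hk ((le_antisymm h1.2 h1.1).trans (le_antisymm h2.2 h2.1).symm)
  have h1 := dp k hkn
  have h2 := dq k hkn
  have h3 : S.hi a k - S.lo a k ≤ |(p - q) k| := by
    rw [Pi.sub_apply]
    rcases cp.2 k hkn with h | h <;> rcases cq.2 k hkn with h' | h' <;> rw [h, h']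
    · rw [h, h'] at hk; exact absurd rfl hk
    · rw [abs_sub_comm]; exact le_abs_self _
    · exact le_abs_self _
    · rw [h, h'] at hk; exact absurd rfl hk
  have h4 := abs_le_l1 (p - q) k
  linarith

/-- the diamonds are disjoint -/
theorem dia_disj (hx : x ∈ F) (hp : p ∈ S.P4) (hq : q ∈ S.P4) (h1 : l1 (x - p) ≤ D.d p)
    (h2 : l1 (x - q) ≤ D.d q) : p = q := by
  by_contra hne
  obtain ⟨a, ha⟩ := D.exists_rect hx
  have h3 := D.corner_dist hp hq hne (D.D1 p hp a x ha h1) (D.D1 q hq a x ha h2)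
  have h4 := l1_triangle p x q
  rw [l1_sub_comm p x] at h4
  linarith

/-- `P4` points have a third rectangle -/
theorem P4_third (hp : p ∈ S.P4) (a b : S.A) : ∃ u, u ≠ a ∧ u ≠ b ∧ p ∈ S.rect u := by
  obtain ⟨c1, c2, c3, c4, n1, n2, n3, n4, n5, n6, m1, m2, m3, m4⟩ := hp
  by_contra hcon
  push Not at hcon
  have key : ∀ u, p ∈ S.rect u → u = a ∨ u = b := by
    intro u hu
    by_contra h
    push Not at h
    exact hcon u h.1 h.2 hu
  rcases key c1 m1 with h1 | h1 <;> rcases key c2 m2 with h2 | h2 <;>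
    rcases key c3 m3 with h3 | h3
  · exact n1 (h1.trans h2.symm)
  · exact n1 (h1.trans h2.symm)
  · exact n2 (h1.trans h3.symm)
  · exact n4 (h2.trans h3.symm)
  · exact n4 (h2.trans h3.symm)
  · exact n2 (h1.trans h3.symm)
  · exact n1 (h1.trans h2.symm)
  · exact n1 (h1.trans h2.symm)

/-! ### the common edge of two truncated rectangles -/

/-- description of the common edge -/
structure Seg (a b : S.A) (k : Fin 3) (lo hi : V3) : Prop where
  inter : S.rect a ∩ S.rect b = Icc lo hi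
  eq : ∀ l, l ≠ k → lo l = hi l
  third : ∀ p ∈ S.rect a ∩ S.rect b, (∃ u, u ≠ a ∧ u ≠ b ∧ p ∈ S.rect u) ↔ p = lo ∨ p = hi
  dlo : 2 * D.d lo < hi k - lo k
  dhi : 2 * D.d hi < hi k - lo k

theorem exists_seg (hab : a ≠ b) (hnt : (S.rect a ∩ S.rect b).Nontrivial) :
    ∃ k lo hi, D.Seg a b k lo hi := by
  obtain ⟨k, lo, hi, h1, h2, h3, h4, ⟨n1, n2⟩, h5, h6, h7, h8, h9, h10⟩ :=
    D.hS.seg_struct hab hnt
  have hle : lo ≤ hi := by
    intro l
    by_cases hl : l = k
    · rw [hl]; exact h2.le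
    · exact (h3 l hl).le
  have hlo : lo ∈ S.rect a ∩ S.rect b := by rw [h1]; exact ⟨le_rfl, hle⟩
  have hhi : hi ∈ S.rect a ∩ S.rect b := by rw [h1]; exact ⟨hle, le_rfl⟩
  refine ⟨k, lo, hi, h1, h3, h4, ?_, ?_⟩
  · by_cases hp : lo ∈ S.P4
    · obtain ⟨ca, da⟩ := D.D2 _ hp a hlo.1
      obtain ⟨cb, db⟩ := D.D2 _ hp b hlo.2
      have ea : lo k = S.lo a k := by
        rcases ca.2 k n1 with h | h
        · exact h
        · exfalso; linarith
      have eb : lo k = S.lo b k := by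
        rcases cb.2 k n2 with h | h
        · exact h
        · exfalso; linarith
      rcases h6 with h | h
      · rw [h, ea]; exact da k n1
      · rw [h, eb]; exact db k n2
    · rw [D.hd0 _ hp]; linarith
  · by_cases hp : hi ∈ S.P4
    · obtain ⟨ca, da⟩ := D.D2 _ hp a hhi.1
      obtain ⟨cb, db⟩ := D.D2 _ hp b hhi.2
      have ea : hi k = S.hi a k := by
        rcases ca.2 k n1 with h | h
        · exfalso; linarith
        · exact h
      have eb : hi k = S.hi b k := by
        rcases cb.2 k n2 with h | h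
        · exfalso; linarith
        · exact h
      rcases h5 with h | h
      · rw [h, ea]; exact da k n1
      · rw [h, eb]; exact db k n2
    · rw [D.hd0 _ hp]; linarith

namespace Seg

variable {D} {k : Fin 3} {lo hi : V3} (G : D.Seg a b k lo hi)

include G

theorem lt : lo k < hi k := by
  have := G.dlo
  have := D.d_nonneg lo
  linarith

theorem le : lo ≤ hi := by
  intro l
  by_cases hl : l = k
  · rw [hl]; exact G.lt.le
  · exact (G.eq l hl).le

theorem l1_lo (hx : x ∈ Icc lo hi) : l1 (x - lo) = x k - lo k := by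
  unfold l1
  rw [Finset.sum_eq_single k]
  · rw [Pi.sub_apply, abs_of_nonneg]
    linarith [hx.1 k]
  · intro l _ hl
    have : x l = lo l := le_antisymm ((hx.2 l).trans (G.eq l hl).ge) (hx.1 l)
    rw [Pi.sub_apply, this, sub_self, abs_zero]
  · intro h; exact absurd (Finset.mem_univ k) h

theorem l1_hi (hx : x ∈ Icc lo hi) : l1 (x - hi) = hi k - x k := by
  unfold l1
  rw [Finset.sum_eq_single k]
  · rw [Pi.sub_apply, abs_of_nonpos]
    · ring
    · linarith [hx.2 k]
  · intro l _ hl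
    have : x l = hi l := le_antisymm (hx.2 l) ((G.eq l hl).ge.trans (hx.1 l))
    rw [Pi.sub_apply, this, sub_self, abs_zero]
  · intro h; exact absurd (Finset.mem_univ k) h

/-- ends of the shortened edge -/
noncomputable def _root_.P073.MOS.TD.e0 (D : TD F S) (k : Fin 3) (lo : V3) : V3 :=
  update lo k (lo k + D.d lo)

noncomputable def _root_.P073.MOS.TD.e1 (D : TD F S) (k : Fin 3) (hi : V3) : V3 :=
  update hi k (hi k - D.d hi)

theorem mem_Icc : x ∈ Icc (D.e0 k lo) (D.e1 k hi) ↔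
    x ∈ Icc lo hi ∧ lo k + D.d lo ≤ x k ∧ x k ≤ hi k - D.d hi := by
  have d0 := D.d_nonneg lo
  have d1 := D.d_nonneg hi
  constructor
  · rintro ⟨h1, h2⟩
    have h1k := h1 k
    have h2k := h2 k
    unfold TD.e0 at h1 h1k
    unfold TD.e1 at h2 h2k
    rw [update_self] at h1k h2k
    refine ⟨⟨fun l => ?_, fun l => ?_⟩, h1k, h2k⟩
    · by_cases hl : l = k
      · rw [hl]; linarith
      · have := h1 l; rwa [update_of_ne hl] at this
    · by_cases hl : l = k
      · rw [hl]; linarith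
      · have := h2 l; rwa [update_of_ne hl] at this
  · rintro ⟨⟨h1, h2⟩, h3, h4⟩
    constructor <;> intro l
    · unfold TD.e0
      by_cases hl : l = k
      · rw [hl, update_self]; exact h3
      · rw [update_of_ne hl]; exact h1 l
    · unfold TD.e1
      by_cases hl : l = k
      · rw [hl, update_self]; exact h4
      · rw [update_of_ne hl]; exact h2 l

theorem e_lt : D.e0 k lo k < D.e1 k hi k := by
  unfold TD.e0 TD.e1
  rw [update_self, update_self]
  have := G.dlo
  have := G.dhi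
  linarith

theorem e_eq (l : Fin 3) (hl : l ≠ k) : D.e0 k lo l = D.e1 k hi l := by
  unfold TD.e0 TD.e1
  rw [update_of_ne hl, update_of_ne hl]
  exact G.eq l hl

theorem e_le : D.e0 k lo ≤ D.e1 k hi := by
  intro l
  by_cases hl : l = k
  · rw [hl]; exact G.e_lt.le
  · exact (G.e_eq l hl).le

theorem P4_end (hp : p ∈ S.P4) (hpab : p ∈ S.rect a ∩ S.rect b) : p = lo ∨ p = hi :=
  (G.third p hpab).1 (P4_third hp a b)

/-- the intersection of the truncated rectangles -/
theorem inter_tr : D.R (Sum.inl a) ∩ D.R (Sum.inl b) = Icc (D.e0 k lo) (D.e1 k hi) := by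
  ext x
  rw [G.mem_Icc, mem_inter_iff, D.mem_inl, D.mem_inl, ← G.inter]
  constructor
  · rintro ⟨⟨h1, h2⟩, h3, -⟩
    have hx : x ∈ Icc lo hi := by rw [← G.inter]; exact ⟨h1, h3⟩
    have e1 := h2 lo
    have e2 := h2 hi
    rw [G.l1_lo hx] at e1
    rw [G.l1_hi hx] at e2
    exact ⟨⟨h1, h3⟩, by linarith, by linarith⟩
  · rintro ⟨⟨h1, h3⟩, h4, h5⟩
    have hx : x ∈ Icc lo hi := by rw [← G.inter]; exact ⟨h1, h3⟩
    have key : ∀ p, D.d p ≤ l1 (x - p) := by
      intro p
      by_cases hp : p ∈ S.P4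
      · by_contra hcon
        push Not at hcon
        have hpab : p ∈ S.rect a ∩ S.rect b :=
          ⟨D.D1 p hp a x h1 hcon.le, D.D1 p hp b x h3 hcon.le⟩
        rcases G.P4_end hp hpab with rfl | rfl
        · rw [G.l1_lo hx] at hcon; linarith
        · rw [G.l1_hi hx] at hcon; linarith
      · rw [D.hd0 p hp]; exact l1_nonneg _
    exact ⟨⟨h1, key⟩, h3, key⟩

theorem nontrivial : (D.R (Sum.inl a) ∩ D.R (Sum.inl b)).Nontrivial := by
  rw [G.inter_tr]
  exact ⟨_, ⟨le_rfl, G.e_le⟩, _, ⟨G.e_le, le_rfl⟩, fun h => G.e_lt.ne (congrFun h k)⟩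

theorem conBall : ConBall 1 (D.R (Sum.inl a) ∩ D.R (Sum.inl b)) {D.e0 k lo, D.e1 k hi} := by
  have hne : D.e0 k lo ≠ D.e1 k hi := fun h => G.e_lt.ne (congrFun h k)
  have hseg : Icc (D.e0 k lo) (D.e1 k hi) = segment ℝ (D.e0 k lo) (D.e1 k hi) := by
    apply Subset.antisymm
    · intro x hx
      rw [segment_eq_image_lineMap]
      have hd : 0 < D.e1 k hi k - D.e0 k lo k := by linarith [G.e_lt]
      refine ⟨(x k - D.e0 k lo k) / (D.e1 k hi k - D.e0 k lo k),
        ⟨div_nonneg (by linarith [hx.1 k]) hd.le, ?_⟩, ?_⟩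
      · rw [div_le_one hd]; linarith [hx.2 k]
      · funext l
        rw [AffineMap.lineMap_apply]
        show (x k - D.e0 k lo k) / (D.e1 k hi k - D.e0 k lo k) * (D.e1 k hi l - D.e0 k lo l) +
          D.e0 k lo l = x l
        by_cases hl : l = k
        · rw [hl, div_mul_cancel₀ _ hd.ne']; ring
        · have h1 := G.e_eq l hl
          have h2 := hx.1 l
          have h3 := hx.2 l
          rw [← h1, sub_self, mul_zero, zero_add]
          rw [← h1] at h3
          exact le_antisymm h2 h3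
    · exact (convex_Icc _ _).segment_subset ⟨le_rfl, G.e_le⟩ ⟨G.e_le, le_rfl⟩
  rw [G.inter_tr, hseg]
  exact conBall_segment hne

/-- a diamond at a point of the shortened edge -/
theorem end_of_dia (hx : x ∈ Icc (D.e0 k lo) (D.e1 k hi)) (hp : p ∈ S.P4)
    (hpx : l1 (x - p) ≤ D.d p) : (p = lo ∧ x = D.e0 k lo) ∨ (p = hi ∧ x = D.e1 k hi) := by
  obtain ⟨hxI, h1, h2⟩ := G.mem_Icc.1 hx
  have hxab : x ∈ S.rect a ∩ S.rect b := by rw [G.inter]; exact hxI
  have hpab : p ∈ S.rect a ∩ S.rect b := ⟨D.D1 p hp a x hxab.1 hpx, D.D1 p hp b x hxab.2 hpx⟩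
  rcases G.P4_end hp hpab with rfl | rfl
  · left
    rw [G.l1_lo hxI] at hpx
    refine ⟨rfl, ?_⟩
    unfold TD.e0
    funext l
    by_cases hl : l = k
    · rw [hl, update_self]; linarith
    · rw [update_of_ne hl]
      exact le_antisymm ((hxI.2 l).trans (G.eq l hl).ge) (hxI.1 l)
  · right
    rw [G.l1_hi hxI] at hpx
    refine ⟨rfl, ?_⟩
    unfold TD.e1
    funext l
    by_cases hl : l = k
    · rw [hl, update_self]; linarith
    · rw [update_of_ne hl]
      exact le_antisymm (hxI.2 l) ((G.eq l hl).ge.trans (hxI.1 l))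

/-- a third rectangle at a point of the shortened edge -/
theorem end_of_third (hx : x ∈ Icc (D.e0 k lo) (D.e1 k hi)) {u : S.A} (hua : u ≠ a) (hub : u ≠ b)
    (hu : x ∈ S.rect u) : (x = D.e0 k lo ∧ x = lo) ∨ (x = D.e1 k hi ∧ x = hi) := by
  obtain ⟨hxI, h1, h2⟩ := G.mem_Icc.1 hx
  have hxab : x ∈ S.rect a ∩ S.rect b := by rw [G.inter]; exact hxI
  have d0 := D.d_nonneg lo
  have d1 := D.d_nonneg hi
  rcases (G.third x hxab).1 ⟨u, hua, hub, hu⟩ with rfl | rfl
  · left
    have : D.d x = 0 := by linarith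
    refine ⟨?_, rfl⟩
    unfold TD.e0
    rw [this, add_zero, update_eq_self]
  · right
    have : D.d x = 0 := by linarith
    refine ⟨?_, rfl⟩
    unfold TD.e1
    rw [this, sub_zero, update_eq_self]

/-- no third rectangle at a point with a diamond -/
theorem no_third_of_dia (hx : x ∈ Icc (D.e0 k lo) (D.e1 k hi)) (hp : p ∈ S.P4)
    (hpx : l1 (x - p) ≤ D.d p) {u : S.A} (hu : x ∈ S.rect u) : u = a ∨ u = b := by
  by_contra hcon
  push Not at hcon
  have hpos := (D.near p hp).1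
  rcases G.end_of_dia hx hp hpx with ⟨rfl, h1⟩ | ⟨rfl, h1⟩ <;>
    rcases G.end_of_third hx hcon.1 hcon.2 hu with ⟨h2, h3⟩ | ⟨h2, h3⟩
  · have := congrFun (h1.symm.trans h3) k
    unfold TD.e0 at this
    rw [update_self] at this
    linarith
  · exact G.e_lt.ne (congrFun (h1.symm.trans h2) k)
  · exact G.e_lt.ne (congrFun (h2.symm.trans h1) k)
  · have := congrFun (h1.symm.trans h3) k
    unfold TD.e1 at this
    rw [update_self] at this
    linarith

end Seg

end TD

end P073.MOS
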