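import Vale.Agent.P073.MOS.TMos

/-!
# P073, block MOS: the truncated mosaic is a mosaic all of whose vertices have valence three
-/

open Set Metric Topology Function Filter

namespace P073

/-- three cells which are pairwise neighbours form a link cycle -/
theorem exists_linkCycle_three {E : Type*} [NormedAddCommGroup E] [NormedSpace ℝ E] {W : Type*}
    {R : W → Set E} {x : E} {u v w : W} (huv : u ≠ v) (huw : u ≠ w) (hvw : v ≠ w)
    (hmem : ∀ t, x ∈ R t ↔ t = u ∨ t = v ∨ t = w) (nuv : (R u ∩ R v).Nontrivial)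
    (nuw : (R u ∩ R w).Nontrivial) (nvw : (R v ∩ R w).Nontrivial) :
    ∃ k, ∃ c : ZMod k → W, LinkCycle R x k c := by
  let c : ZMod 3 → W := ![u, v, w]
  have c0 : c 0 = u := rfl
  have c1 : c 1 = v := rfl
  have c2 : c 2 = w := rfl
  have hall : ∀ i : ZMod 3, i = 0 ∨ i = 1 ∨ i = 2 := by decide
  refine ⟨3, c, le_rfl, ?_, ?_, ?_⟩
  · intro i j hij
    rcases hall i with rfl | rfl | rfl <;> rcases hall j with rfl | rfl | rfl <;>
      simp only [c0, c1, c2] at hij
    · rfl
    · exact absurd hij huv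
    · exact absurd hij huw
    · exact absurd hij.symm huv
    · rfl
    · exact absurd hij hvw
    · exact absurd hij.symm huw
    · exact absurd hij.symm hvw
    · rfl
  · intro t
    rw [hmem]
    constructor
    · rintro (rfl | rfl | rfl)
      · exact ⟨0, c0⟩
      · exact ⟨1, c1⟩
      · exact ⟨2, c2⟩
    · rintro ⟨i, rfl⟩
      rcases hall i with rfl | rfl | rfl
      · exact Or.inl c0
      · exact Or.inr (Or.inl c1)
      · exact Or.inr (Or.inr c2)
  · have hR : ∀ i j : ZMod 3, j = i ∨ j = i + 1 ∨ i = j + 1 := by decide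
    intro i j
    refine ⟨fun _ => hR i j, fun _ => ?_⟩
    have su : (R u).Nontrivial := nuv.mono inter_subset_left
    have sv : (R v).Nontrivial := nuv.mono inter_subset_right
    have sw : (R w).Nontrivial := nuw.mono inter_subset_right
    rcases hall i with rfl | rfl | rfl <;> rcases hall j with rfl | rfl | rfl <;>
      simp only [c0, c1, c2]
    · rwa [inter_self]
    · exact nuv
    · exact nuw
    · rwa [inter_comm]
    · rwa [inter_self]
    · exact nvw
    · rwa [inter_comm]
    · rwa [inter_comm]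
    · rwa [inter_self]

namespace MOS

open Rects

namespace TD

variable {F : Set V3} {S : Rects} (D : TD F S) {a b c : S.A} {x p q : V3} {h h' : HA}

/-! ### the arc between a rectangle and a diamond -/

theorem corner_coord (ha : p ∈ S.corner a) (H : S.Ext a p h) (hx : x ∈ S.rect a) :
    0 ≤ sg h * (x h.1 - p h.1) := by
  have hk := H.ne_nrm ha.1
  have hc := ha.2 _ hk
  have hx' := mem_rect.1 hx h.1
  obtain ⟨k, b⟩ := h
  cases b
  · rw [ext_false] at H
    simp only [sg, Bool.false_eq_true, if_false]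
    have e : p k = S.hi a k := hc.resolve_left (by intro h; exact H.ne h.symm)
    simp only at hx'
    linarith [hx'.2]
  · have H' : p k < S.hi a k := H
    simp only [sg, if_true]
    have e : p k = S.lo a k := hc.resolve_right (by intro h; exact H'.ne h)
    simp only at hx'
    linarith [hx'.1]

theorem eq_qpt (H : S.Occ a p h h') (hx : x ∈ S.rect a) :
    x = p + (sg h * (x h.1 - p h.1)) • hv h + (sg h' * (x h'.1 - p h'.1)) • hv h' := by
  have n1 := H.ext_left.ne_nrm H.1
  have n2 := H.ext_right.ne_nrm H.1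
  have hne := H.2.1
  funext l
  rcases fin3_cases hne n1 n2 l with hl | hl | hl
  · rw [hl, qpt_left hne, mul_right_comm, sg_sq]; ring
  · rw [hl, qpt_right hne, mul_right_comm, sg_sq]; ring
  · rw [hl, qpt_other n1.symm n2.symm]
    have h1 := mem_rect.1 hx (S.nrm a)
    have h2 := mem_rect.1 H.1 (S.nrm a)
    rw [S.flat a] at h1 h2
    exact (le_antisymm h1.2 h1.1).trans (le_antisymm h2.2 h2.1).symm

theorem coord_mem (hp : p ∈ S.P4) (ha : p ∈ S.rect a) (H : S.Ext a p h) {s : ℝ} (hs : 0 ≤ s)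
    (hsd : s ≤ D.d p) : S.lo a h.1 ≤ p h.1 + s * sg h ∧ p h.1 + s * sg h ≤ S.hi a h.1 := by
  have hk := H.ne_nrm ha
  obtain ⟨hc, hd⟩ := D.D2 p hp a ha
  have hc := hc.2 _ hk
  have hd := hd _ hk
  obtain ⟨k, b⟩ := h
  cases b
  · rw [ext_false] at H
    simp only [sg, Bool.false_eq_true, if_false]
    simp only at hc hd
    have e : p k = S.hi a k := hc.resolve_left (by intro h; exact H.ne h.symm)
    constructor <;> linarith
  · have H' : p k < S.hi a k := H
    simp only [sg, if_true]
    simp only at hc hd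
    have e : p k = S.lo a k := hc.resolve_right (by intro h; exact H'.ne h)
    constructor <;> linarith

theorem apt_mem (hp : p ∈ S.P4) (ha : p ∈ S.rect a) (H : S.Ext a p h) :
    apt p (D.d p) h ∈ S.rect a := by
  rw [mem_rect]
  intro l
  unfold apt
  have e : (p + D.d p • hv h) l = p l + D.d p * hv h l := by simp
  rw [e]
  by_cases hl : l = h.1
  · rw [hl, hv_same]
    exact D.coord_mem hp ha H (D.near p hp).1.le le_rfl
  · rw [hv_ne hl, mul_zero, add_zero]
    exact mem_rect.1 ha l

theorem constr_of_eq (hx : x ∈ F) (hp : p ∈ S.P4) (hpx : l1 (x - p) = D.d p) (q : V3) :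
    D.d q ≤ l1 (x - q) := by
  by_cases hq : q ∈ S.P4
  · by_contra hcon
    push Not at hcon
    have := D.dia_disj hx hp hq hpx.le hcon.le
    subst this
    exact hcon.ne hpx
  · rw [D.hd0 q hq]; exact l1_nonneg _

theorem inter_arc (hp : p ∈ S.P4) (H : S.Occ a p h h') :
    D.R (Sum.inl a) ∩ D.R (Sum.inr ⟨p, hp⟩) =
      segment ℝ (apt p (D.d p) h) (apt p (D.d p) h') := by
  have hpos := (D.near p hp).1
  have hc := (D.D2 p hp a H.1).1
  ext x
  rw [mem_aseg hpos, mem_inter_iff, D.mem_inl, D.mem_inr]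
  constructor
  · rintro ⟨⟨hx, hq⟩, hxF, hxp⟩
    have e := eq_qpt H hx
    have s0 := corner_coord hc H.ext_left hx
    have t0 := corner_coord hc H.ext_right hx
    refine ⟨_, _, s0, t0, ?_, e⟩
    have h1 : l1 (x - p) = D.d p := le_antisymm hxp (hq p)
    rw [← h1]
    conv_rhs => rw [e]
    rw [l1_qpt s0 t0 H.2.1]
  · rintro ⟨s, t, hs, ht, hst, rfl⟩
    have hx : p + s • hv h + t • hv h' ∈ S.rect a := by
      have n1 := H.ext_left.ne_nrm H.1
      have n2 := H.ext_right.ne_nrm H.1
      rw [mem_rect]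
      intro l
      rcases fin3_cases H.2.1 n1 n2 l with hl | hl | hl
      · rw [hl, qpt_left H.2.1]
        exact D.coord_mem hp H.1 H.ext_left hs (by linarith)
      · rw [hl, qpt_right H.2.1]
        exact D.coord_mem hp H.1 H.ext_right ht (by linarith)
      · rw [hl, qpt_other n1.symm n2.symm]
        exact mem_rect.1 H.1 _
    have hl := l1_qpt (p := p) hs ht H.2.1
    have hxF := D.hS.mem hx
    exact ⟨⟨hx, D.constr_of_eq hxF hp (hl.trans hst)⟩, hxF, (hl.trans hst).le⟩

theorem arc_nontrivial (hp : p ∈ S.P4) (ha : p ∈ S.rect a) :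
    (D.R (Sum.inl a) ∩ D.R (Sum.inr ⟨p, hp⟩)).Nontrivial := by
  obtain ⟨h, h', H⟩ := exists_occ ha
  rw [D.inter_arc hp H]
  refine ⟨_, left_mem_segment _ _ _, _, right_mem_segment _ _ _, fun he => ?_⟩
  exact H.2.1 (congrArg Prod.fst (apt_injective p (D.near p hp).1 he))

include D in
theorem exists_other_at (hp : p ∈ S.P4) (H : S.Occ a p h h') :
    ∃ b, b ≠ a ∧ p ∈ S.rect b ∧ S.Ext b p h := by
  have hc := (D.D2 p hp a H.1).1
  obtain ⟨h₁, y, h1, _, u, hua, hu⟩ := D.hS.exists_other H.1 H.ext_right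
    (not_ext_of_corner hc H.ext_right)
  refine ⟨u, hua, hu.1, ?_⟩
  have n1 := H.ext_left.ne_nrm H.1
  have n2 := H.ext_right.ne_nrm H.1
  have n3 := h1.ext_right.ne_nrm H.1
  have : h₁.1 = h.1 := by
    rcases fin3_cases H.2.1 n1 n2 h₁.1 with h | h | h
    · exact h
    · exact absurd h h1.2.1.symm
    · exact absurd h n3
  rcases eq_or_eq_neg this with h | h
  · rw [← h]; exact hu.ext_left
  · exact absurd (h ▸ h1.ext_right) (not_ext_of_corner hc H.ext_left)

theorem edge_arc (hp : p ∈ S.P4) (ha : p ∈ S.rect a) :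
    ∃ e f, ConBall 1 (D.R (Sum.inl a) ∩ D.R (Sum.inr ⟨p, hp⟩)) {e, f} ∧
      ∀ x ∈ D.R (Sum.inl a) ∩ D.R (Sum.inr ⟨p, hp⟩),
        (∃ u, u ≠ Sum.inl a ∧ u ≠ Sum.inr ⟨p, hp⟩ ∧ x ∈ D.R u) ↔ x = e ∨ x = f := by
  obtain ⟨h, h', H⟩ := exists_occ ha
  have hpos := (D.near p hp).1
  refine ⟨apt p (D.d p) h, apt p (D.d p) h', ?_, ?_⟩
  · rw [D.inter_arc hp H]
    refine conBall_segment fun he => ?_
    exact H.2.1 (congrArg Prod.fst (apt_injective p hpos he))
  · intro x hx
    have hxx := hx
    rw [D.inter_arc hp H, mem_aseg hpos] at hx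
    obtain ⟨s, t, hs, ht, hst, rfl⟩ := hx
    have hl := l1_qpt (p := p) hs ht H.2.1
    constructor
    · rintro ⟨u, hu1, hu2, hu⟩
      rcases u with b | q
      · have hba : b ≠ a := fun h => hu1 (by rw [h])
        have hb := (D.mem_inl.1 hu).1
        rcases hs.eq_or_lt with h0 | h0
        · right
          subst h0
          have : t = D.d p := by linarith
          rw [this, zero_smul, add_zero]; rfl
        · rcases ht.eq_or_lt with h1 | h1
          · left
            subst h1
            have : s = D.d p := by linarith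
            rw [this, zero_smul, add_zero]; rfl
          · exfalso
            have hpb := D.D1 p hp b _ hb (hl.trans hst).le
            refine hba (D.hS.disj b a p h h' ?_ H)
            have e1 := mem_rect.1 hb h.1
            have e2 := mem_rect.1 hb h'.1
            rw [qpt_left H.2.1] at e1
            rw [qpt_right H.2.1] at e2
            have key : ∀ (h : HA) (s : ℝ), 0 < s → S.lo b h.1 ≤ p h.1 + s * sg h ∧
                p h.1 + s * sg h ≤ S.hi b h.1 → S.Ext b p h := by
              intro h s hs hh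
              obtain ⟨k, c⟩ := h
              cases c
              · rw [ext_false]
                simp only [sg, Bool.false_eq_true, if_false] at hh
                linarith
              · rw [ext_true]
                simp only [sg, if_true] at hh
                linarith
            exact ⟨hpb, H.2.1, key h s h0 e1, key h' t h1 e2⟩
      · exfalso
        have hq := D.mem_inr.1 hu
        have := D.dia_disj hq.1 hp q.2 (hl.trans hst).le hq.2
        exact hu2 (by congr 1; exact Subtype.ext this.symm)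
    · have hcon : ∀ q, D.d q ≤ l1 (p + s • hv h + t • hv h' - q) := (D.mem_inl.1 hxx.1).2
      rintro (he | he)
      · obtain ⟨b, hba, hb, hbe⟩ := D.exists_other_at hp H
        refine ⟨Sum.inl b, fun h => hba (Sum.inl_injective h), by simp, ?_⟩
        rw [D.mem_inl]
        refine ⟨?_, hcon⟩
        rw [he]
        exact D.apt_mem hp hb hbe
      · obtain ⟨b, hba, hb, hbe⟩ := D.exists_other_at hp H.symm
        refine ⟨Sum.inl b, fun h => hba (Sum.inl_injective h), by simp, ?_⟩
        rw [D.mem_inl]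
        refine ⟨?_, hcon⟩
        rw [he]
        exact D.apt_mem hp hb hbe

/-! ### the edge field -/

theorem edge_field {v w : D.W} (hvw : v ≠ w) (hnt : (D.R v ∩ D.R w).Nontrivial) :
    ∃ e f, ConBall 1 (D.R v ∩ D.R w) {e, f} ∧
      ∀ x ∈ D.R v ∩ D.R w, (∃ u, u ≠ v ∧ u ≠ w ∧ x ∈ D.R u) ↔ x = e ∨ x = f := by
  rcases v with a | ⟨p, hp⟩ <;> rcases w with b | ⟨q, hq⟩
  · have hab : a ≠ b := fun h => hvw (by rw [h])
    have hnt' : (S.rect a ∩ S.rect b).Nontrivial := hnt.mono fun x hx =>
      ⟨(D.mem_inl.1 hx.1).1, (D.mem_inl.1 hx.2).1⟩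
    obtain ⟨k, lo, hi, G⟩ := D.exists_seg hab hnt'
    refine ⟨_, _, G.conBall, fun x hx => ?_⟩
    have hx' := hx
    rw [G.inter_tr] at hx'
    have hcon := (D.mem_inl.1 hx.1).2
    have hxI := (G.mem_Icc.1 hx').1
    have hxab : x ∈ S.rect a ∩ S.rect b := by rw [G.inter]; exact hxI
    constructor
    · rintro ⟨u, hu1, hu2, hu⟩
      rcases u with c | ⟨r, hr⟩
      · rcases G.end_of_third hx' (fun h => hu1 (by rw [h])) (fun h => hu2 (by rw [h]))
          (D.mem_inl.1 hu).1 with h | h
        · exact Or.inl h.1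
        · exact Or.inr h.1
      · rcases G.end_of_dia hx' hr (D.mem_inr.1 hu).2 with h | h
        · exact Or.inl h.2
        · exact Or.inr h.2
    · intro he
      -- the end of the unshortened edge
      have key : ∀ z, (z = lo ∨ z = hi) → l1 (x - z) = D.d z →
          ∃ u, u ≠ Sum.inl a ∧ u ≠ Sum.inl b ∧ x ∈ D.R u := by
        intro z hz hl
        by_cases hz4 : z ∈ S.P4
        · refine ⟨Sum.inr ⟨z, hz4⟩, by simp, by simp, ?_⟩
          rw [D.mem_inr]
          exact ⟨D.hS.mem hxab.1, hl.le⟩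
        · rw [D.hd0 z hz4] at hl
          have hxz : x = z := sub_eq_zero.1 (l1_eq_zero hl)
          subst hxz
          obtain ⟨u, h1, h2, h3⟩ := (G.third x hxab).2 hz
          refine ⟨Sum.inl u, fun h => h1 (Sum.inl_injective h), fun h => h2 (Sum.inl_injective h),
            ?_⟩
          rw [D.mem_inl]
          exact ⟨h3, hcon⟩
      rcases he with he | he
      · refine key lo (Or.inl rfl) ?_
        rw [G.l1_lo hxI, he]
        unfold TD.e0
        rw [update_self]; ring
      · refine key hi (Or.inr rfl) ?_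
        rw [G.l1_hi hxI, he]
        unfold TD.e1
        rw [update_self]; ring
  · have hpa : q ∈ S.rect a := by
      obtain ⟨x, hx, -⟩ := hnt
      exact D.D1 q hq a x (D.mem_inl.1 hx.1).1 (D.mem_inr.1 hx.2).2
    exact D.edge_arc hq hpa
  · have hpa : p ∈ S.rect b := by
      obtain ⟨x, hx, -⟩ := hnt
      exact D.D1 p hp b x (D.mem_inl.1 hx.2).1 (D.mem_inr.1 hx.1).2
    obtain ⟨e, f, h1, h2⟩ := D.edge_arc hp hpa
    rw [inter_comm]
    refine ⟨e, f, h1, fun x hx => ?_⟩
    rw [← h2 x hx]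
    exact ⟨fun ⟨u, a1, a2, a3⟩ => ⟨u, a2, a1, a3⟩, fun ⟨u, a1, a2, a3⟩ => ⟨u, a2, a1, a3⟩⟩
  · exfalso
    obtain ⟨x, hx, -⟩ := hnt
    have := D.dia_disj hx.1.1 hp hq hx.1.2 hx.2.2
    subst this
    exact hvw rfl

/-! ### links -/

/-- a rectangle through `x` is a cell through `x` unless `x` is in an open diamond -/
theorem mem_inl_of (hcon : ∀ p, D.d p ≤ l1 (x - p)) : x ∈ D.R (Sum.inl a) ↔ x ∈ S.rect a :=
  ⟨fun h => (D.mem_inl.1 h).1, fun h => D.mem_inl.2 ⟨h, hcon⟩⟩

/-- the link of a point in two truncated rectangles -/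
theorem link_inl (hcon : ∀ p, D.d p ≤ l1 (x - p)) (hab : a ≠ b) (ha : x ∈ S.rect a)
    (hb : x ∈ S.rect b) : ((D.R (Sum.inl a) ∩ D.R (Sum.inl b)).Nontrivial ∧
      ∀ u, x ∈ D.R u → u = Sum.inl a ∨ u = Sum.inl b) ∨ ∃ k, ∃ c : ZMod k → D.W,
        LinkCycle D.R x k c := by
  have hxF := D.hS.mem ha
  by_cases hd : ∃ p ∈ S.P4, l1 (x - p) ≤ D.d p
  · obtain ⟨p, hp, hpx⟩ := hd
    right
    have hpa := D.D1 p hp a x ha hpx
    have hpb := D.D1 p hp b x hb hpx
    have hxp : x ≠ p := by
      rintro rfl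
      exact D.notMem_P4 hcon hp
    obtain ⟨k, lo, hi, G⟩ := D.exists_seg hab ⟨x, ⟨ha, hb⟩, p, ⟨hpa, hpb⟩, hxp⟩
    have hx' : x ∈ Icc (D.e0 k lo) (D.e1 k hi) := by
      rw [← G.inter_tr]
      exact ⟨(D.mem_inl_of hcon).2 ha, (D.mem_inl_of hcon).2 hb⟩
    refine exists_linkCycle_three (u := Sum.inl a) (v := Sum.inl b) (w := Sum.inr ⟨p, hp⟩)
      (fun h => hab (Sum.inl_injective h)) (by simp) (by simp) ?_ G.nontrivial
      (D.arc_nontrivial hp hpa) (D.arc_nontrivial hp hpb)
    intro t
    constructor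
    · intro ht
      rcases t with c | ⟨q, hq⟩
      · rcases G.no_third_of_dia hx' hp hpx (D.mem_inl.1 ht).1 with h | h
        · exact Or.inl (by rw [h])
        · exact Or.inr (Or.inl (by rw [h]))
      · have := D.dia_disj hxF hq hp (D.mem_inr.1 ht).2 hpx
        subst this
        exact Or.inr (Or.inr rfl)
    · rintro (rfl | rfl | rfl)
      · exact (D.mem_inl_of hcon).2 ha
      · exact (D.mem_inl_of hcon).2 hb
      · exact ⟨hxF, hpx⟩
  · push Not at hd
    have hninr : ∀ q : {p // p ∈ S.P4}, x ∉ D.R (Sum.inr q) := fun q hq =>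
      absurd (D.mem_inr.1 hq).2 (not_le.2 (hd q.1 q.2))
    by_cases h3 : ∃ u, u ≠ a ∧ u ≠ b ∧ x ∈ S.rect u
    · right
      obtain ⟨u, hua, hub, hu⟩ := h3
      -- at most three rectangles
      have hmax : ∀ t, x ∈ S.rect t → t = a ∨ t = b ∨ t = u := by
        intro t ht
        by_contra h
        push Not at h
        exact D.notMem_P4 hcon ⟨a, b, u, t, hab, hua.symm, h.1.symm, hub.symm, h.2.1.symm,
          h.2.2.symm, ha, hb, hu, ht⟩
      obtain ⟨k, c, hc⟩ := D.hS.link_cycle ha hb hu hab hua hub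
      have hk : k = 3 := by
        refine le_antisymm ?_ hc.three
        by_contra hk
        push Not at hk
        have hne : ∀ i j : ℕ, i < 4 → j < 4 → i ≠ j → c (i : ZMod k) ≠ c (j : ZMod k) := by
          intro i j hi hj hij h
          have := hc.inj h
          rw [ZMod.natCast_eq_natCast_iff', Nat.mod_eq_of_lt (by omega),
            Nat.mod_eq_of_lt (by omega)] at this
          exact hij this
        have hm : ∀ i : ZMod k, x ∈ S.rect (c i) := fun i => (hc.mem _).2 ⟨i, rfl⟩
        exact D.notMem_P4 hcon ⟨c (0 : ℕ), c (1 : ℕ), c (2 : ℕ), c (3 : ℕ),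
          hne 0 1 (by omega) (by omega) (by omega), hne 0 2 (by omega) (by omega) (by omega),
          hne 0 3 (by omega) (by omega) (by omega), hne 1 2 (by omega) (by omega) (by omega),
          hne 1 3 (by omega) (by omega) (by omega), hne 2 3 (by omega) (by omega) (by omega),
          hm _, hm _, hm _, hm _⟩
      subst hk
      have hR : ∀ i j : ZMod 3, j = i ∨ j = i + 1 ∨ i = j + 1 := by decide
      have hadj : ∀ s t, s ≠ t → x ∈ S.rect s → x ∈ S.rect t →
          (D.R (Sum.inl s) ∩ D.R (Sum.inl t)).Nontrivial := by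
        intro s t hst hs ht
        obtain ⟨i, rfl⟩ := (hc.mem s).1 hs
        obtain ⟨j, rfl⟩ := (hc.mem t).1 ht
        obtain ⟨k, lo, hi, G⟩ := D.exists_seg hst ((hc.adj i j).2 (hR i j))
        exact G.nontrivial
      refine exists_linkCycle_three (u := Sum.inl a) (v := Sum.inl b) (w := Sum.inl u)
        (fun h => hab (Sum.inl_injective h)) (fun h => hua (Sum.inl_injective h).symm)
        (fun h => hub (Sum.inl_injective h).symm) ?_ (hadj a b hab ha hb)
        (hadj a u hua.symm ha hu) (hadj b u hub.symm hb hu)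
      intro t
      constructor
      · intro ht
        rcases t with t | q
        · rcases hmax t (D.mem_inl.1 ht).1 with h | h | h
          · exact Or.inl (by rw [h])
          · exact Or.inr (Or.inl (by rw [h]))
          · exact Or.inr (Or.inr (by rw [h]))
        · exact absurd ht (hninr q)
      · rintro (rfl | rfl | rfl)
        · exact (D.mem_inl_of hcon).2 ha
        · exact (D.mem_inl_of hcon).2 hb
        · exact (D.mem_inl_of hcon).2 hu
    · left
      push Not at h3
      obtain ⟨h1, h2⟩ | ⟨k, c, hc⟩ := D.hS.mosaic.link a b hab x ⟨ha, hb⟩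
      · obtain ⟨k, lo, hi, G⟩ := D.exists_seg hab h1
        refine ⟨G.nontrivial, fun u hu => ?_⟩
        rcases u with t | q
        · rcases h2 t (D.mem_inl.1 hu).1 with h | h
          · exact Or.inl (by rw [h])
          · exact Or.inr (by rw [h])
        · exact absurd hu (hninr q)
      · exfalso
        have h3' : ∀ t, x ∈ S.rect t → t = a ∨ t = b := by
          intro t ht
          by_contra h
          push Not at h
          exact h3 t h.1 h.2 ht
        have hk := hc.three
        have hne : ∀ i j : ℕ, i < 3 → j < 3 → i ≠ j → c (i : ZMod k) ≠ c (j : ZMod k) := by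
          intro i j hi hj hij h
          have := hc.inj h
          rw [ZMod.natCast_eq_natCast_iff', Nat.mod_eq_of_lt (by omega),
            Nat.mod_eq_of_lt (by omega)] at this
          exact hij this
        have hm : ∀ i : ZMod k, c i = a ∨ c i = b := fun i => h3' _ ((hc.mem _).2 ⟨i, rfl⟩)
        have n1 := hne 0 1 (by omega) (by omega) (by omega)
        have n2 := hne 0 2 (by omega) (by omega) (by omega)
        have n3 := hne 1 2 (by omega) (by omega) (by omega)
        rcases hm (0 : ℕ) with h0 | h0 <;> rcases hm (1 : ℕ) with h1 | h1 <;>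
          rcases hm (2 : ℕ) with h2 | h2
        · exact n1 (h0.trans h1.symm)
        · exact n1 (h0.trans h1.symm)
        · exact n2 (h0.trans h2.symm)
        · exact n3 (h1.trans h2.symm)
        · exact n3 (h1.trans h2.symm)
        · exact n2 (h0.trans h2.symm)
        · exact n1 (h0.trans h1.symm)
        · exact n1 (h0.trans h1.symm)

/-- the link of a point in a truncated rectangle and a diamond -/
theorem link_arc (hp : p ∈ S.P4) (hx : x ∈ D.R (Sum.inl a)) (hxp : x ∈ D.R (Sum.inr ⟨p, hp⟩)) :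
    ((D.R (Sum.inl a) ∩ D.R (Sum.inr ⟨p, hp⟩)).Nontrivial ∧
      ∀ u, x ∈ D.R u → u = Sum.inl a ∨ u = Sum.inr ⟨p, hp⟩) ∨ ∃ k, ∃ c : ZMod k → D.W,
        LinkCycle D.R x k c := by
  have hcon := (D.mem_inl.1 hx).2
  have ha := (D.mem_inl.1 hx).1
  by_cases h3 : ∃ b, b ≠ a ∧ x ∈ S.rect b
  · obtain ⟨b, hba, hb⟩ := h3
    right
    rcases D.link_inl hcon hba.symm ha hb with ⟨_, h⟩ | h
    · rcases h _ hxp with h | h <;> simp at h
    · exact h
  · left
    push Not at h3
    refine ⟨D.arc_nontrivial hp (D.D1 p hp a x ha (D.mem_inr.1 hxp).2), fun u hu => ?_⟩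
    rcases u with b | ⟨q, hq⟩
    · left
      by_contra h
      exact h3 b (fun h' => h (by rw [h'])) (D.mem_inl.1 hu).1
    · right
      have := D.dia_disj (D.hS.mem ha) hq hp (D.mem_inr.1 hu).2 (D.mem_inr.1 hxp).2
      subst this
      rfl

theorem link_field {v w : D.W} (hvw : v ≠ w) (hx : x ∈ D.R v ∩ D.R w) :
    ((D.R v ∩ D.R w).Nontrivial ∧ ∀ u, x ∈ D.R u → u = v ∨ u = w) ∨
      ∃ k, ∃ c : ZMod k → D.W, LinkCycle D.R x k c := by
  rcases v with a | ⟨p, hp⟩ <;> rcases w with b | ⟨q, hq⟩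
  · exact D.link_inl (D.mem_inl.1 hx.1).2 (fun h => hvw (by rw [h])) (D.mem_inl.1 hx.1).1
      (D.mem_inl.1 hx.2).1
  · exact D.link_arc hq hx.1 hx.2
  · rcases D.link_arc hp hx.2 hx.1 with ⟨h1, h2⟩ | h
    · left
      rw [inter_comm]
      exact ⟨h1, fun u hu => (h2 u hu).symm⟩
    · exact Or.inr h
  · exfalso
    have := D.dia_disj hx.1.1 hp hq hx.1.2 hx.2.2
    subst this
    exact hvw rfl

/-! ### the mosaic -/

theorem bd_field (v : D.W) : D.bd v = ⋃ (w) (_ : w ≠ v), D.R v ∩ D.R w := by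
  ext x
  rw [mem_iUnion₂]
  rcases v with a | ⟨p, hp⟩
  · constructor
    · rintro ⟨hx, hx'⟩
      have hx1 : x ∈ D.R (Sum.inl a) := hx
      have hcon := (D.mem_inl.1 hx1).2
      rcases hx' with hx' | ⟨q, _, hq, hqx⟩
      · obtain ⟨u, hua, hu, -⟩ := D.hS.exists_other_of_edge hx'
        exact ⟨Sum.inl u, fun h => hua (Sum.inl_injective h), hx1, (D.mem_inl_of hcon).2 hu⟩
      · have hq4 : q ∈ S.P4 := by
          by_contra h
          rw [D.hd0 q h] at hq
          exact lt_irrefl _ hq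
        exact ⟨Sum.inr ⟨q, hq4⟩, by simp, hx1, D.hS.mem (D.mem_inl.1 hx1).1, hqx.le⟩
    · rintro ⟨w, hw, hx, hxw⟩
      refine ⟨hx, ?_⟩
      have hcon := (D.mem_inl.1 hx).2
      rcases w with b | ⟨q, hq⟩
      · left
        exact D.hS.mem_edge (D.mem_inl.1 hx).1 (D.mem_inl.1 hxw).1 fun h => hw (by rw [h])
      · right
        have hqx := (D.mem_inr.1 hxw).2
        exact ⟨q, (D.D2 q hq a (D.D1 q hq a x (D.mem_inl.1 hx).1 hqx)).1, (D.near q hq).1,
          le_antisymm hqx (hcon q)⟩
  · constructor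
    · rintro ⟨hxF, hx⟩
      have hx' : l1 (x - p) = D.d p := hx
      obtain ⟨a, ha⟩ := D.exists_rect hxF
      exact ⟨Sum.inl a, by simp, ⟨hxF, hx'.le⟩,
        (D.mem_inl_of (D.constr_of_eq hxF hp hx')).2 ha⟩
    · rintro ⟨w, hw, hx, hxw⟩
      rcases w with b | ⟨q, hq⟩
      · exact ⟨hx.1, le_antisymm hx.2 ((D.mem_inl.1 hxw).2 p)⟩
      · exfalso
        have := D.dia_disj hx.1 hp hq hx.2 hxw.2
        subst this
        exact hw rfl

theorem corner_finite (a : S.A) : (S.corner a).Finite := by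
  have : S.corner a ⊆ range fun b : Bool × Bool => S.cor a b.1 b.2 := by
    intro q hq
    obtain ⟨b, b', rfl⟩ := mem_corner_iff.1 hq
    exact ⟨(b, b'), rfl⟩
  exact (finite_range _).subset this

/-- **The truncated mosaic is a mosaic.** -/
theorem mosaic : Mosaic F D.R D.bd where
  ball := by
    rintro (a | ⟨p, hp⟩)
    · refine conBall_tr fun q hq k hk => ?_
      by_cases hq4 : q ∈ S.P4
      · exact (D.D2 q hq4 a hq.1).2 k hk
      · rw [D.hd0 q hq4]
        linarith [S.wide a k hk]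
    · obtain ⟨hpos, ε, hε, Q, hQ⟩ := D.near p hp
      exact hQ.conBall hpos hε
  cover := by
    apply Subset.antisymm
    · refine iUnion_subset fun v x hx => ?_
      rcases v with a | ⟨p, hp⟩
      · exact D.hS.mem (D.mem_inl.1 hx).1
      · exact hx.1
    · intro x hx
      by_cases h : ∃ p ∈ S.P4, l1 (x - p) ≤ D.d p
      · obtain ⟨p, hp, hpx⟩ := h
        exact mem_iUnion.2 ⟨Sum.inr ⟨p, hp⟩, hx, hpx⟩
      · push Not at h
        obtain ⟨a, ha⟩ := D.exists_rect hx
        refine mem_iUnion.2 ⟨Sum.inl a, (D.mem_inl_of fun p => ?_).2 ha⟩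
        by_cases hp : p ∈ S.P4
        · exact (h p hp).le
        · rw [D.hd0 p hp]; exact l1_nonneg _
  fin := by
    intro z hz
    obtain ⟨U, hU, hfin⟩ := D.hS.fin z hz
    refine ⟨U, hU, ?_⟩
    have h1 : (Sum.inl '' {a | (S.rect a ∩ U).Nonempty} : Set D.W).Finite := hfin.image _
    have h2 : (⋃ a ∈ {a | (S.rect a ∩ U).Nonempty}, S.corner a).Finite :=
      hfin.biUnion fun a _ => corner_finite a
    have h3 : {v : D.W | ∃ p : {p // p ∈ S.P4}, v = Sum.inr p ∧
        p.1 ∈ ⋃ a ∈ {a | (S.rect a ∩ U).Nonempty}, S.corner a}.Finite := by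
      have h4 : {p : {p // p ∈ S.P4} | p.1 ∈ ⋃ a ∈ {a | (S.rect a ∩ U).Nonempty},
          S.corner a}.Finite := h2.preimage Subtype.val_injective.injOn
      refine (h4.image Sum.inr).subset ?_
      rintro v ⟨p, rfl, hp⟩
      exact ⟨p, hp, rfl⟩
    refine (h1.union h3).subset ?_
    rintro v ⟨x, hx, hxU⟩
    rcases v with a | ⟨p, hp⟩
    · exact Or.inl ⟨a, ⟨x, (D.mem_inl.1 hx).1, hxU⟩, rfl⟩
    · right
      obtain ⟨a, ha⟩ := D.exists_rect hx.1
      exact ⟨⟨p, hp⟩, rfl, mem_iUnion₂.2 ⟨a, ⟨x, ha, hxU⟩,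
        (D.D2 p hp a (D.D1 p hp a x ha hx.2)).1⟩⟩
  edge := fun _ _ hvw hnt => D.edge_field hvw hnt
  link := fun _ _ hvw _ hx => D.link_field hvw hx
  bdry := D.bd_field

/-- at most three cells at a point -/
theorem noFour {t u v w : D.W} (ht : x ∈ D.R t) (hu : x ∈ D.R u) (hv : x ∈ D.R v) (hw : x ∈ D.R w)
    (h1 : t ≠ u) (h2 : t ≠ v) (h3 : t ≠ w) (h4 : u ≠ v) (h5 : u ≠ w) (h6 : v ≠ w) : False := by
  -- two diamonds are impossible
  have two : ∀ p q : {p // p ∈ S.P4}, x ∈ D.R (Sum.inr p) → x ∈ D.R (Sum.inr q) →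
      (Sum.inr p : D.W) ≠ Sum.inr q → False := by
    intro p q hp hq hne
    have := D.dia_disj hp.1 p.2 q.2 hp.2 hq.2
    exact hne (by rw [Subtype.ext this])
  -- three rectangles and a diamond are impossible
  have three : ∀ (a b c : S.A) (p : {p // p ∈ S.P4}), x ∈ D.R (Sum.inl a) → x ∈ D.R (Sum.inl b) →
      x ∈ D.R (Sum.inl c) → x ∈ D.R (Sum.inr p) → (Sum.inl a : D.W) ≠ Sum.inl b →
      (Sum.inl a : D.W) ≠ Sum.inl c → (Sum.inl b : D.W) ≠ Sum.inl c → False := by
    intro a b c p ha hb hc hp hab hac hbc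
    have ha' := (D.mem_inl.1 ha).1
    have hb' := (D.mem_inl.1 hb).1
    have hc' := (D.mem_inl.1 hc).1
    have hcon := (D.mem_inl.1 ha).2
    have hpa := D.D1 p.1 p.2 a x ha' hp.2
    have hpb := D.D1 p.1 p.2 b x hb' hp.2
    have hxp : x ≠ p.1 := by
      intro h
      exact D.notMem_P4 hcon (h ▸ p.2)
    have hab' : a ≠ b := fun h => hab (by rw [h])
    obtain ⟨k, lo, hi, G⟩ := D.exists_seg hab' ⟨x, ⟨ha', hb'⟩, p.1, ⟨hpa, hpb⟩, hxp⟩
    rcases G.no_third_of_dia (by rw [← G.inter_tr]; exact ⟨ha, hb⟩) p.2 hp.2 hc' with h | h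
    · exact hac (by rw [h])
    · exact hbc (by rw [h])
  rcases t with t | t <;> rcases u with u | u <;> rcases v with v | v <;> rcases w with w | w
  · have hcon := (D.mem_inl.1 ht).2
    exact D.notMem_P4 hcon ⟨t, u, v, w, fun h => h1 (by rw [h]), fun h => h2 (by rw [h]),
      fun h => h3 (by rw [h]), fun h => h4 (by rw [h]), fun h => h5 (by rw [h]),
      fun h => h6 (by rw [h]), (D.mem_inl.1 ht).1, (D.mem_inl.1 hu).1, (D.mem_inl.1 hv).1,
      (D.mem_inl.1 hw).1⟩
  · exact three t u v w ht hu hv hw h1 h2 h4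
  · exact three t u w v ht hu hw hv h1 h3 h5
  · exact two v w hv hw h6
  · exact three t v w u ht hv hw hu h2 h3 h6
  · exact two u w hu hw h5
  · exact two u v hu hv h4
  · exact two u v hu hv h4
  · exact three u v w t hu hv hw ht h4 h5 h6
  · exact two t w ht hw h3
  · exact two t v ht hv h2
  · exact two t v ht hv h2
  · exact two t u ht hu h1
  · exact two t u ht hu h1
  · exact two t u ht hu h1
  · exact two t u ht hu h1

/-- **All vertices have valence three.** -/
theorem val3 {x : V3} {m : ℕ} {c : ZMod m → D.W} (hc : LinkCycle D.R x m c) : m = 3 := by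
  refine le_antisymm ?_ hc.three
  by_contra hk
  push Not at hk
  have hne : ∀ i j : ℕ, i < 4 → j < 4 → i ≠ j → c (i : ZMod m) ≠ c (j : ZMod m) := by
    intro i j hi hj hij h
    have := hc.inj h
    rw [ZMod.natCast_eq_natCast_iff', Nat.mod_eq_of_lt (by omega),
      Nat.mod_eq_of_lt (by omega)] at this
    exact hij this
  have hm : ∀ i : ZMod m, x ∈ D.R (c i) := fun i => (hc.mem _).2 ⟨i, rfl⟩
  exact D.noFour (hm (0 : ℕ)) (hm (1 : ℕ)) (hm (2 : ℕ)) (hm (3 : ℕ))
    (hne 0 1 (by omega) (by omega) (by omega)) (hne 0 2 (by omega) (by omega) (by omega))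
    (hne 0 3 (by omega) (by omega) (by omega)) (hne 1 2 (by omega) (by omega) (by omega))
    (hne 1 3 (by omega) (by omega) (by omega)) (hne 2 3 (by omega) (by omega) (by omega))

end TD

end MOS

end P073
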