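import Vale.Agent.P073.MOS.Cover
import Vale.Agent.P073.MOS.TMos2

/-!
# P073, block MOS: the rectangles of a fine mosaic with special squares
-/

open Set Metric Topology Function Filter

namespace P073.MOS

/-- the special squares -/
structure SpIn (F Y : Set V3) (s : V3 → ℝ) (n : V3 → Fin 3) : Prop where
  sub : Y ⊆ F
  lf : ∀ z ∈ F, ∃ U ∈ 𝓝 z, (Y ∩ U).Finite
  pos : ∀ y ∈ Y, 0 < s y
  flat : ∀ y ∈ Y, ∀ z, dist z y ≤ 2 * s y → (z ∈ F ↔ z (n y) = y (n y))
  dis : ∀ y ∈ Y, ∀ y' ∈ Y, y ≠ y' → Disjoint (closedBall y (2 * s y)) (closedBall y' (2 * s y'))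

theorem icc_ball {p : V3} {r : ℝ} (hr : 0 ≤ r) {z : V3} :
    z ∈ Icc (fun k => p k - r) (fun k => p k + r) ↔ dist z p ≤ r := by
  rw [dist_pi_le_iff hr]
  constructor
  · rintro ⟨h1, h2⟩ k
    have a1 := h1 k
    have a2 := h2 k
    simp only at a1 a2
    rw [Real.dist_eq, abs_le]
    constructor <;> linarith
  · intro h
    constructor <;> intro k <;> have := h k <;> rw [Real.dist_eq, abs_le] at this <;>
      show _ ≤ _ <;> simp only <;> linarith

namespace SpIn

variable {F Y : Set V3} {s : V3 → ℝ} {n : V3 → Fin 3} {ε : V3 → ℝ}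

/-- the special squares are locally finite -/
theorem lf' (H : SpIn F Y s n) (z : V3) (hz : z ∈ F) :
    ∃ U ∈ 𝓝 z, {y | y ∈ Y ∧ (closedBall y (s y) ∩ U).Nonempty}.Finite := by
  obtain ⟨U, hU, hfin⟩ := H.lf z hz
  obtain ⟨η, hη, hηU⟩ := Metric.mem_nhds_iff.1 hU
  refine ⟨ball z (η / 4), ball_mem_nhds _ (by linarith), ?_⟩
  have h1 : {y | y ∈ Y ∧ z ∈ closedBall y (2 * s y)}.Subsingleton := by
    rintro y ⟨hy, hzy⟩ y' ⟨hy', hzy'⟩
    by_contra hne
    exact disjoint_left.1 (H.dis y hy y' hy' hne) hzy hzy'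
  refine (hfin.union h1.finite).subset ?_
  rintro y ⟨hy, x, hx, hxz⟩
  rw [mem_closedBall] at hx
  rw [mem_ball] at hxz
  rcases lt_or_ge (s y) (η / 2) with h | h
  · left
    refine ⟨hy, hηU ?_⟩
    rw [mem_ball]
    have := dist_triangle_left y z x
    linarith
  · right
    refine ⟨hy, ?_⟩
    rw [mem_closedBall]
    have := dist_triangle_left z y x
    linarith

variable {α : Type} (c : α → Chart F ε)

/-- the type of the rectangles before cutting -/
abbrev PA (Y : Set V3) (c : α → Chart F ε) : Type :=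
  Y ⊕ {x : α × HA × HA // (c x.1).Q x.2.1 x.2.2 ∧ x.2.1.1 < x.2.2.1}

/-- the rectangles before cutting -/
noncomputable def P (H : SpIn F Y s n) (c : α → Chart F ε) : Rects where
  A := PA Y c
  lo := Sum.elim (fun y k => if k = n y.1 then y.1 k else y.1 k - s y.1)
    (fun x => qlo (c x.1.1).p (c x.1.1).r x.1.2.1 x.1.2.2)
  hi := Sum.elim (fun y k => if k = n y.1 then y.1 k else y.1 k + s y.1)
    (fun x => qhi (c x.1.1).p (c x.1.1).r x.1.2.1 x.1.2.2)
  nrm := Sum.elim (fun y => n y.1) (fun x => thd x.1.2.1.1 x.1.2.2.1)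
  flat := by
    rintro (y | x)
    · show (if n y.1 = n y.1 then y.1 (n y.1) else y.1 (n y.1) - s y.1) =
        (if n y.1 = n y.1 then y.1 (n y.1) else y.1 (n y.1) + s y.1)
      rw [if_pos rfl, if_pos rfl]
    · have h := thd_ne x.2.2.ne
      show qlo (c x.1.1).p (c x.1.1).r x.1.2.1 x.1.2.2 (thd x.1.2.1.1 x.1.2.2.1) =
        qhi (c x.1.1).p (c x.1.1).r x.1.2.1 x.1.2.2 (thd x.1.2.1.1 x.1.2.2.1)
      rw [qlo_other h.1 h.2, qhi_other h.1 h.2]
  wide := by
    rintro (y | x) k hk
    · have hk' : k ≠ n y.1 := hk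
      have := H.pos y.1 y.2
      show (if k = n y.1 then y.1 k else y.1 k - s y.1) <
        (if k = n y.1 then y.1 k else y.1 k + s y.1)
      rw [if_neg hk', if_neg hk']; linarith
    · have hk' : k ≠ thd x.1.2.1.1 x.1.2.2.1 := hk
      have hne := x.2.2.ne
      show qlo _ _ _ _ _ < qhi _ _ _ _ _
      have h := thd_ne hne
      rcases fin3_cases hne h.1.symm h.2.symm k with e | e | e
      · rw [e, qlo_left hne, qhi_left hne]; exact qcoord_lt (c x.1.1).pos _ _
      · rw [e, qlo_right hne, qhi_right hne]; exact qcoord_lt (c x.1.1).pos _ _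
      · exact absurd e hk'

theorem mem_P_inl (H : SpIn F Y s n) {y : Y} {z : V3} :
    z ∈ (H.P c).rect (Sum.inl y) ↔ z ∈ F ∧ dist z y.1 ≤ s y.1 := by
  have hs := H.pos y.1 y.2
  have hP : z ∈ (H.P c).rect (Sum.inl y) ↔ z (n y.1) = y.1 (n y.1) ∧
      ∀ k, k ≠ n y.1 → y.1 k - s y.1 ≤ z k ∧ z k ≤ y.1 k + s y.1 := by
    have e := Rects.rect_eq (S := H.P c) (Sum.inl y)
    rw [e]
    show (z (n y.1) = (if n y.1 = n y.1 then y.1 (n y.1) else y.1 (n y.1) - s y.1) ∧
      ∀ k, k ≠ n y.1 → (if k = n y.1 then y.1 k else y.1 k - s y.1) ≤ z k ∧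
        z k ≤ (if k = n y.1 then y.1 k else y.1 k + s y.1)) ↔ _
    rw [if_pos rfl]
    refine and_congr_right fun _ => forall_congr' fun k => ?_
    constructor
    · intro h hk
      have := h hk
      rwa [if_neg hk, if_neg hk] at this
    · intro h hk
      rw [if_neg hk, if_neg hk]
      exact h hk
  rw [hP]
  constructor
  · rintro ⟨h1, h2⟩
    have hd : dist z y.1 ≤ s y.1 := by
      rw [dist_pi_le_iff hs.le]
      intro k
      rw [Real.dist_eq]
      by_cases hk : k = n y.1
      · rw [hk, h1, sub_self, abs_zero]; exact hs.le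
      · have := h2 k hk
        rw [abs_le]; constructor <;> linarith
    exact ⟨(H.flat y.1 y.2 z (by linarith)).2 h1, hd⟩
  · rintro ⟨h1, h2⟩
    refine ⟨(H.flat y.1 y.2 z (by linarith)).1 h1, fun k _ => ?_⟩
    rw [dist_pi_le_iff hs.le] at h2
    have := h2 k
    rw [Real.dist_eq, abs_le] at this
    constructor <;> linarith

theorem mem_P_inr (H : SpIn F Y s n)
    {x : {x : α × HA × HA // (c x.1).Q x.2.1 x.2.2 ∧ x.2.1.1 < x.2.2.1}} {z : V3} :
    z ∈ (H.P c).rect (Sum.inr x) ↔
      z ∈ Icc (qlo (c x.1.1).p (c x.1.1).r x.1.2.1 x.1.2.2)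
        (qhi (c x.1.1).p (c x.1.1).r x.1.2.1 x.1.2.2) := Iff.rfl

/-- the input of the cutting construction -/
noncomputable def D (H : SpIn F Y s n) (c : α → Chart F ε)
    (hcov : ∀ z ∈ F, ∃ a, z ∈ closedBall (c a).p (c a).r)
    (hlf : ∀ z ∈ F, ∃ U ∈ 𝓝 z, {a | (F ∩ closedBall (c a).p (c a).r ∩ U).Nonempty}.Finite) :
    Pieces F where
  α := Y ⊕ₗ α
  ord := by
    letI : LinearOrder Y := IsWellOrder.linearOrder WellOrderingRel
    letI : LinearOrder α := IsWellOrder.linearOrder WellOrderingRel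
    exact Sum.Lex.linearOrder
  bl i := Sum.elim (fun (y : Y) (k : Fin 3) => y.1 k - s y.1)
    (fun a k => (c a).p k - (c a).r) (ofLex i)
  bu i := Sum.elim (fun (y : Y) (k : Fin 3) => y.1 k + s y.1)
    (fun a k => (c a).p k + (c a).r) (ofLex i)
  P := H.P c
  β := Sum.elim (fun y => toLex (Sum.inl y)) (fun x => toLex (Sum.inr x.1.1))
  cov := by
    intro z hz
    obtain ⟨a, ha⟩ := hcov z hz
    exact ⟨toLex (Sum.inr a), (icc_ball (c a).pos.le).2 (mem_closedBall.1 ha)⟩
  lf := by
    intro z hz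
    obtain ⟨U, hU, h1⟩ := hlf z hz
    obtain ⟨U', hU', h2⟩ := H.lf' z hz
    refine ⟨U ∩ U', inter_mem hU hU', ?_⟩
    have h2' : {y : Y | y.1 ∈ {y | y ∈ Y ∧ (closedBall y (s y) ∩ U').Nonempty}}.Finite :=
      h2.preimage Subtype.val_injective.injOn
    refine ((h1.image fun a => toLex (Sum.inr a)).union
      (h2'.image fun y => toLex (Sum.inl y))).subset ?_
    rintro i ⟨x, ⟨hxF, hxB⟩, hxU⟩
    induction i using Lex.rec with
    | h i =>
      rcases i with y | a
      · right
        have : dist x y.1 ≤ s y.1 := (icc_ball (H.pos y.1 y.2).le).1 hxB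
        exact ⟨y, ⟨y.2, x, mem_closedBall.2 this, hxU.2⟩, rfl⟩
      · left
        have : dist x (c a).p ≤ (c a).r := (icc_ball (c a).pos.le).1 hxB
        exact ⟨a, ⟨x, ⟨hxF, mem_closedBall.2 this⟩, hxU.1⟩, rfl⟩
  fib := by
    intro i
    induction i using Lex.rec with
    | h i =>
      rcases i with y | a
      · refine (finite_singleton (Sum.inl y : PA Y c)).subset ?_
        rintro (y' | x) h
        · have : toLex (Sum.inl y' : Y ⊕ α) = toLex (Sum.inl y) := h
          have := Sum.inl_injective (toLex.injective this)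
          rw [this]; exact mem_singleton _
        · have : toLex (Sum.inr x.1.1 : Y ⊕ α) = toLex (Sum.inl y) := h
          exact absurd (toLex.injective this) (fun h => by cases h)
      · have hfin : (range fun x : HA × HA => (a, x.1, x.2)).Finite := finite_range _
        have hfin' : {x : {x : α × HA × HA // (c x.1).Q x.2.1 x.2.2 ∧ x.2.1.1 < x.2.2.1} |
            x.1 ∈ range fun x : HA × HA => (a, x.1, x.2)}.Finite :=
          hfin.preimage Subtype.val_injective.injOn
        refine (hfin'.image Sum.inr).subset ?_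
        rintro (y' | x) h
        · have : toLex (Sum.inl y' : Y ⊕ α) = toLex (Sum.inr a) := h
          exact absurd (toLex.injective this) (fun h => by cases h)
        · have : toLex (Sum.inr x.1.1 : Y ⊕ α) = toLex (Sum.inr a) := h
          have := Sum.inr_injective (toLex.injective this)
          exact ⟨x, ⟨(x.1.2.1, x.1.2.2), by rw [← this]⟩, rfl⟩
  un := by
    intro i z
    induction i using Lex.rec with
    | h i =>
      rcases i with y | a
      · have h1 : z ∈ Icc (fun k => y.1 k - s y.1) (fun k => y.1 k + s y.1) ↔ dist z y.1 ≤ s y.1 :=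
          icc_ball (H.pos y.1 y.2).le
        constructor
        · rintro ⟨hz, hz'⟩
          exact ⟨Sum.inl y, rfl, (H.mem_P_inl c).2 ⟨hz, h1.1 hz'⟩⟩
        · rintro ⟨b, hb, hzb⟩
          rcases b with y' | x
          · have : toLex (Sum.inl y' : Y ⊕ α) = toLex (Sum.inl y) := hb
            have := Sum.inl_injective (toLex.injective this)
            subst this
            have h2 := (H.mem_P_inl c).1 hzb
            exact ⟨h2.1, h1.2 h2.2⟩
          · have : toLex (Sum.inr x.1.1 : Y ⊕ α) = toLex (Sum.inl y) := hb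
            exact absurd (toLex.injective this) (fun h => by cases h)
      · have h1 : z ∈ Icc (fun k => (c a).p k - (c a).r) (fun k => (c a).p k + (c a).r) ↔
            dist z (c a).p ≤ (c a).r := icc_ball (c a).pos.le
        have h2 := (c a).near.inter_closedBall (c a).pos.le (c a).lt (z := z)
        constructor
        · rintro ⟨hz, hz'⟩
          obtain ⟨h, h', e1, e2, e3⟩ := h2.1 ⟨hz, mem_closedBall.2 (h1.1 hz')⟩
          exact ⟨Sum.inr ⟨(a, h, h'), e1, e2⟩, rfl, e3⟩
        · rintro ⟨b, hb, hzb⟩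
          rcases b with y' | ⟨⟨a', h, h'⟩, e1, e2⟩
          · have : toLex (Sum.inl y' : Y ⊕ α) = toLex (Sum.inr a) := hb
            exact absurd (toLex.injective this) (fun h => by cases h)
          · have : toLex (Sum.inr a' : Y ⊕ α) = toLex (Sum.inr a) := hb
            have := Sum.inr_injective (toLex.injective this)
            subst this
            have h3 := h2.2 ⟨h, h', e1, e2, hzb⟩
            exact ⟨h3.1, h1.2 (mem_closedBall.1 h3.2)⟩
  no := by
    rintro (y | x) (y' | x') hβ hn ⟨z, hz, hz'⟩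
    · have : toLex (Sum.inl y : Y ⊕ α) = toLex (Sum.inl y') := hβ
      rw [Sum.inl_injective (toLex.injective this)]
    · have : toLex (Sum.inl y : Y ⊕ α) = toLex (Sum.inr x'.1.1) := hβ
      exact absurd (toLex.injective this) (fun h => by cases h)
    · have : toLex (Sum.inr x.1.1 : Y ⊕ α) = toLex (Sum.inl y') := hβ
      exact absurd (toLex.injective this) (fun h => by cases h)
    · have hb : toLex (Sum.inr x.1.1 : Y ⊕ α) = toLex (Sum.inr x'.1.1) := hβ
      have hb := Sum.inr_injective (toLex.injective hb)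
      obtain ⟨⟨a, h, h'⟩, e1, e2⟩ := x
      obtain ⟨⟨a', g, g'⟩, e1', e2'⟩ := x'
      obtain rfl : a = a' := hb
      simp only at e1 e2 e1' e2'
      -- coordinates
      have key : ∀ (h h' : HA) (e2 : h.1 < h'.1) (e1 : (c a).Q h h'),
          z ∈ (H.P c).rint (Sum.inr ⟨(a, h, h'), e1, e2⟩) → ∃ s t : ℝ, 0 < s ∧ 0 < t ∧
            z = (c a).p + s • hv h + t • hv h' := by
        intro h h' e2 e1 hz
        have hne := e2.ne
        have ht := thd_ne hne
        have hz0 : z (thd h.1 h'.1) = qlo (c a).p (c a).r h h' (thd h.1 h'.1) := hz.1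
        have hz1 : qlo (c a).p (c a).r h h' h.1 < z h.1 ∧ z h.1 < qhi (c a).p (c a).r h h' h.1 :=
          hz.2 h.1 ht.1.symm
        have hz2 : qlo (c a).p (c a).r h h' h'.1 < z h'.1 ∧
            z h'.1 < qhi (c a).p (c a).r h h' h'.1 := hz.2 h'.1 ht.2.symm
        rw [qlo_other ht.1 ht.2] at hz0
        rw [qlo_left hne, qhi_left hne] at hz1
        rw [qlo_right hne, qhi_right hne] at hz2
        obtain ⟨s, hs, hs'⟩ := qcoord_lt_iff (c a).pos _ _ _ hz1
        obtain ⟨t, ht0, ht'⟩ := qcoord_lt_iff (c a).pos _ _ _ hz2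
        refine ⟨s, t, hs, ht0, ?_⟩
        funext k
        rcases fin3_cases hne ht.1.symm ht.2.symm k with e | e | e
        · rw [e, qpt_left hne, hs']
        · rw [e, qpt_right hne, ht']
        · rw [e, qpt_other ht.1 ht.2, hz0]
      obtain ⟨s1, t1, hs1, ht1, ez⟩ := key h h' e2 e1 hz
      obtain ⟨s2, t2, hs2, ht2, ez'⟩ := key g g' e2' e1' hz'
      rcases quarter_unique (p := (c a).p) hs1 ht1 e2.ne e2'.ne
        ⟨s2, t2, hs2.le, ht2.le, ez.symm.trans ez'⟩ with ⟨rfl, rfl⟩ | ⟨rfl, rfl⟩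
      · rfl
      · exact absurd e2 (not_lt.2 e2'.le)

end SpIn

end P073.MOS
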