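import Vale.Agent.P073.MOS.Top

/-!
# P073, block MOS: properties of the rectangles of the fine mosaic; choice of the radii
-/

open Set Metric Topology Function Filter

namespace P073.MOS

open Rects

/-- the relative interior is not empty -/
theorem Rects.rint_nonempty {S : Rects} (a : S.A) : (S.rint a).Nonempty := by
  refine ⟨fun k => (S.lo a k + S.hi a k) / 2, ?_, fun k hk => ?_⟩
  · show (S.lo a (S.nrm a) + S.hi a (S.nrm a)) / 2 = S.lo a (S.nrm a)
    rw [← S.flat a]; ring
  · have := S.wide a k hk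
    constructor
    · show S.lo a k < (S.lo a k + S.hi a k) / 2; linarith
    · show (S.lo a k + S.hi a k) / 2 < S.hi a k; linarith

/-- an occupied quarter plane gives points of `F` close to `z` -/
theorem Rects.Occ.eventually_mem {S : Rects} {a : S.A} {z : V3} {h h' : HA} (H : S.Occ a z h h') :
    ∀ᶠ t in 𝓝[>] (0:ℝ), z + t • hv h + t • hv h' ∈ S.rect a := by
  have m1 := ext_iff_mar.1 H.ext_left
  have m2 := ext_iff_mar.1 H.ext_right
  filter_upwards [Ioo_mem_nhdsGT (lt_min m1 m2)] with t ht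
  have := lt_min_iff.1 ht.2
  exact rint_subset a (H.mem_rint ht.1 ht.1 this.1 this.2)

/-- a point which is not the centre of its chart has a direction of invariance -/
theorem axis_of_nearCyc {F : Set V3} {S : Rects} (hS : RectSurf F S) {p z : V3} {ε : ℝ}
    {Q : HA → HA → Prop} (H : NearCyc F p ε Q) (hz : dist z p < ε) (hne : z ≠ p) :
    ∃ k, ∀ h h', S.Adj z h h' → h.1 = k ∨ h'.1 = k := by
  obtain ⟨k, hk⟩ := Function.ne_iff.1 hne
  refine ⟨k, fun h h' hadj => ?_⟩
  obtain ⟨a, ha⟩ := hadj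
  by_contra hcon
  push Not at hcon
  have hh := ha.2.1
  -- the points close to `z`
  have hx : Tendsto (fun t : ℝ => z + t • hv h + t • hv h') (𝓝[>] 0) (𝓝 z) := by
    have h1 : Tendsto (fun t : ℝ => z + t • hv h + t • hv h') (𝓝 0)
        (𝓝 (z + (0:ℝ) • hv h + (0:ℝ) • hv h')) := by
      apply Continuous.tendsto
      fun_prop
    have h2 : z + (0:ℝ) • hv h + (0:ℝ) • hv h' = z := by simp
    rw [h2] at h1
    exact h1.mono_left nhdsWithin_le_nhds
  have e1 : ∀ᶠ t in 𝓝[>] (0:ℝ), dist (z + t • hv h + t • hv h') p < ε :=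
    hx.eventually (isOpen_ball.mem_nhds hz)
  have ev : ∀ g : HA, ∀ᶠ t in 𝓝[>] (0:ℝ), z g.1 + t * sg g ≠ p g.1 := by
    intro g
    by_cases h0 : z g.1 = p g.1
    · filter_upwards [self_mem_nhdsWithin] with t ht h1
      have ht' : 0 < t := ht
      rw [h0] at h1
      have : t * sg g = 0 := by linarith
      rcases mul_eq_zero.1 this with h2 | h2
      · exact ht'.ne' h2
      · rcases sg_eq g with e | e <;> rw [e] at h2 <;> norm_num at h2
    · have h1 : Tendsto (fun t : ℝ => z g.1 + t * sg g) (𝓝 0) (𝓝 (z g.1 + 0 * sg g)) := by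
        apply Continuous.tendsto
        fun_prop
      rw [zero_mul, add_zero] at h1
      exact (h1.mono_left nhdsWithin_le_nhds).eventually (isOpen_ne.mem_nhds h0)
  obtain ⟨t, h1, h2, h3, h4, ht⟩ := (e1.and ((ev h).and ((ev h').and
    (ha.eventually_mem.and self_mem_nhdsWithin)))).exists
  have h4' := hS.mem h4
  obtain ⟨g, g', hg, s, t', hs, ht', he⟩ := (H.iff _ h1).1 h4'
  have gne := H.ne _ _ hg
  -- the point has three coordinates different from `p`
  have c1 : (z + t • hv h + t • hv h') h.1 ≠ p h.1 := by rw [qpt_left hh]; exact h2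
  have c2 : (z + t • hv h + t • hv h') h'.1 ≠ p h'.1 := by rw [qpt_right hh]; exact h3
  have c3 : (z + t • hv h + t • hv h') k ≠ p k := by
    rw [qpt_other hcon.1.symm hcon.2.symm]; exact hk
  rw [he] at c1 c2 c3
  obtain ⟨l, hl1, hl2⟩ := third_axis g.1 g'.1
  have hl : (p + s • hv g + t' • hv g') l = p l := qpt_other hl1 hl2
  rcases fin3_cases hh hcon.1 hcon.2 l with e | e | e
  · exact c1 (e ▸ hl)
  · exact c2 (e ▸ hl)
  · exact c3 (e ▸ hl)

/-- a flat point has a direction of invariance -/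
theorem axis_of_flat {F : Set V3} {S : Rects} (hS : RectSurf F S) {z : V3} {n : Fin 3} {ρ : ℝ}
    (hρ : 0 < ρ) (H : ∀ x ∈ F, dist x z < ρ → x n = z n) :
    ∃ k, ∀ h h', S.Adj z h h' → h.1 = k ∨ h'.1 = k := by
  obtain ⟨k, hk, _⟩ := third_axis n n
  refine ⟨k, fun h h' hadj => ?_⟩
  obtain ⟨a, ha⟩ := hadj
  have hh := ha.2.1
  have hx : Tendsto (fun t : ℝ => z + t • hv h + t • hv h') (𝓝[>] 0) (𝓝 z) := by
    have h1 : Tendsto (fun t : ℝ => z + t • hv h + t • hv h') (𝓝 0)
        (𝓝 (z + (0:ℝ) • hv h + (0:ℝ) • hv h')) := by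
      apply Continuous.tendsto
      fun_prop
    have h2 : z + (0:ℝ) • hv h + (0:ℝ) • hv h' = z := by simp
    rw [h2] at h1
    exact h1.mono_left nhdsWithin_le_nhds
  have e1 : ∀ᶠ t in 𝓝[>] (0:ℝ), dist (z + t • hv h + t • hv h') z < ρ :=
    hx.eventually (isOpen_ball.mem_nhds (by rw [mem_ball, dist_self]; exact hρ))
  obtain ⟨t, h1, h4, ht⟩ := (e1.and (ha.eventually_mem.and self_mem_nhdsWithin)).exists
  have ht' : 0 < t := ht
  have h5 := H _ (hS.mem h4) h1
  have n1 : h.1 ≠ n := by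
    rintro rfl
    rw [qpt_left hh] at h5
    have : t * sg h = 0 := by linarith
    rcases mul_eq_zero.1 this with h2 | h2
    · exact ht'.ne' h2
    · rcases sg_eq h with e | e <;> rw [e] at h2 <;> norm_num at h2
  have n2 : h'.1 ≠ n := by
    rintro rfl
    rw [qpt_right hh] at h5
    have : t * sg h' = 0 := by linarith
    rcases mul_eq_zero.1 this with h2 | h2
    · exact ht'.ne' h2
    · rcases sg_eq h' with e | e <;> rw [e] at h2 <;> norm_num at h2
  rcases fin3_cases hh n1 n2 k with e | e | e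
  · exact Or.inl e.symm
  · exact Or.inr e.symm
  · exact absurd e hk

/-- a corner of a bigger rectangle in a smaller one is a corner of the smaller one -/
theorem corner_of_subset {S T : Rects} {a : S.A} {b : T.A} {z : V3} (hz : z ∈ S.rect a)
    (hn : S.nrm a = T.nrm b) (hlo : ∀ k, T.lo b k ≤ S.lo a k) (hhi : ∀ k, S.hi a k ≤ T.hi b k)
    (hc : z ∈ T.corner b) : z ∈ S.corner a := by
  refine ⟨hz, fun k hk => ?_⟩
  rw [hn] at hk
  have h1 := mem_rect.1 hz k
  rcases hc.2 k hk with h | h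
  · left; exact le_antisymm (h.le.trans (hlo k)) h1.1
  · right; exact le_antisymm h1.2 ((hhi k).trans h.ge)

namespace SpIn

variable {F Y : Set V3} {s : V3 → ℝ} {n : V3 → Fin 3} {ε : V3 → ℝ} {α : Type}
  (H : SpIn F Y s n) (c : α → Chart F ε) (hcov : ∀ z ∈ F, ∃ a, z ∈ closedBall (c a).p (c a).r)
  (hlf : ∀ z ∈ F, ∃ U ∈ 𝓝 z, {a | (F ∩ closedBall (c a).p (c a).r ∩ U).Nonempty}.Finite)

/-- the special squares are not cut -/
theorem exists_square (y : Y) : ∃ a : (H.D c hcov hlf).S.A, (H.D c hcov hlf).pr a = Sum.inl y ∧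
    (H.D c hcov hlf).S.nrm a = n y.1 ∧
    (∀ z, z ∈ (H.D c hcov hlf).S.rect a ↔ z ∈ F ∧ dist z y.1 ≤ s y.1) ∧
    ∀ k, k ≠ n y.1 → (H.D c hcov hlf).S.lo a k = y.1 k - s y.1 ∧
      (H.D c hcov hlf).S.hi a k = y.1 k + s y.1 := by
  obtain ⟨a, h1, h2, h3, h4, h5⟩ := (H.D c hcov hlf).exists_uncut (Sum.inl y) (by
    intro j hj
    induction j using Lex.rec with
    | h j =>
      rcases j with y' | b
      · have hne : y' ≠ y := by
          rintro rfl
          exact @lt_irrefl _ ((H.D c hcov hlf).ord.toPreorder) _ hj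
        have hne' : y'.1 ≠ y.1 := fun h => hne (Subtype.ext h)
        rintro ⟨x, ⟨_, hx⟩, hx'⟩
        have e1 : dist x y'.1 ≤ s y'.1 := (icc_ball (H.pos y'.1 y'.2).le).1 hx
        have e2 : dist x y.1 ≤ s y.1 := (icc_ball (H.pos y.1 y.2).le).1 hx'
        have p1 := H.pos y'.1 y'.2
        have p2 := H.pos y.1 y.2
        exact disjoint_left.1 (H.dis y'.1 y'.2 y.1 y.2 hne') (mem_closedBall.2 (by linarith))
          (mem_closedBall.2 (by linarith : dist x y.1 ≤ 2 * s y.1))
      · exfalso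
        exact @Sum.Lex.not_inr_lt_inl Y α
          (IsWellOrder.linearOrder (WellOrderingRel : Y → Y → Prop)).toPreorder.toLT
          (IsWellOrder.linearOrder (WellOrderingRel : α → α → Prop)).toPreorder.toLT y b hj)
  refine ⟨a, h1, h3, fun z => ?_, fun k hk => ?_⟩
  · rw [h2]; exact H.mem_P_inl c
  · rw [h4, h5]
    show (if k = n y.1 then y.1 k else y.1 k - s y.1) = _ ∧
      (if k = n y.1 then y.1 k else y.1 k + s y.1) = _
    rw [if_neg hk, if_neg hk]
    exact ⟨rfl, rfl⟩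

/-- the only rectangle of a special square -/
theorem unique_square {y : Y} {a b : (H.D c hcov hlf).S.A} (ha : (H.D c hcov hlf).pr a = Sum.inl y)
    (haF : ∀ z, z ∈ (H.D c hcov hlf).S.rect a ↔ z ∈ F ∧ dist z y.1 ≤ s y.1)
    (halo : ∀ k, k ≠ n y.1 → (H.D c hcov hlf).S.lo a k = y.1 k - s y.1 ∧
      (H.D c hcov hlf).S.hi a k = y.1 k + s y.1)
    (hb : (H.D c hcov hlf).pr b = Sum.inl y) : b = a := by
  have hna : (H.D c hcov hlf).S.nrm a = n y.1 := by
    show (H.P c).nrm ((H.D c hcov hlf).pr a) = _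
    rw [ha]; rfl
  have hnb : (H.D c hcov hlf).S.nrm b = n y.1 := by
    show (H.P c).nrm ((H.D c hcov hlf).pr b) = _
    rw [hb]; rfl
  refine (H.D c hcov hlf).S_no b a (hnb.trans hna.symm) ?_
  obtain ⟨x, hx⟩ := rint_nonempty b
  refine ⟨x, hx, ?_⟩
  have h1 := (H.D c hcov hlf).rint_subset' b hx
  rw [hb] at h1
  have h2 : x ∈ (H.P c).rect (Sum.inl y) := rint_subset _ h1
  have h3 := (haF x).2 ((H.mem_P_inl c).1 h2)
  refine ⟨?_, fun k hk => ?_⟩
  · rw [rect_eq] at h3; exact h3.1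
  · rw [hna] at hk
    rw [(halo k hk).1, (halo k hk).2]
    have h4 : (if k = n y.1 then y.1 k else y.1 k - s y.1) < x k ∧
      x k < (if k = n y.1 then y.1 k else y.1 k + s y.1) := h1.2 k hk
    rwa [if_neg hk, if_neg hk] at h4

theorem goodCorners (hF : RectLocal F) : GoodCorners (H.D c hcov hlf).S := by
  have hS := (H.D c hcov hlf).rectSurf hF
  intro a z hz
  have hzP := (H.D c hcov hlf).rect_subset a hz
  rcases hpr : (H.D c hcov hlf).pr a with y | x
  · right
    rw [hpr] at hzP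
    have h1 := (H.mem_P_inl c).1 hzP
    have hs := H.pos y.1 y.2
    refine axis_of_flat hS (n := n y.1) (ρ := s y.1) hs fun x hx hxz => ?_
    have h2 := (H.flat y.1 y.2 z (by linarith [h1.2])).1 h1.1
    have h3 := (H.flat y.1 y.2 x (by linarith [h1.2, dist_triangle x z y.1])).1 hx
    rw [h2, h3]
  · rw [hpr] at hzP
    obtain ⟨⟨i, h, h'⟩, hQ, hlt⟩ := x
    have hQ' : (c i).Q h h' := hQ
    have hlt' : h.1 < h'.1 := hlt
    have hzI : z ∈ Icc (qlo (c i).p (c i).r h h') (qhi (c i).p (c i).r h h') := hzP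
    by_cases hne : z = (c i).p
    · left
      refine corner_of_subset (T := H.P c) (b := Sum.inr ⟨(i, h, h'), hQ, hlt⟩) hz ?_ ?_ ?_ ?_
      · show (H.P c).nrm ((H.D c hcov hlf).pr a) = _
        rw [hpr]
      · intro k
        have := ((H.D c hcov hlf).cell_Icc a k).1
        rw [hpr] at this
        exact this
      · intro k
        have := ((H.D c hcov hlf).cell_Icc a k).2
        rw [hpr] at this
        exact this
      · refine ⟨hzP, fun k hk => ?_⟩
        have hk' : k ≠ thd h.1 h'.1 := hk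
        have ht := thd_ne hlt'.ne
        show z k = qlo (c i).p (c i).r h h' k ∨ z k = qhi (c i).p (c i).r h h' k
        have key : ∀ g : HA, z g.1 = (c i).p g.1 →
            z g.1 = (c i).p g.1 + min 0 ((c i).r * sg g) ∨
            z g.1 = (c i).p g.1 + max 0 ((c i).r * sg g) := by
          intro g hg
          have hr := (c i).pos
          rcases sg_eq g with e | e <;> rw [e]
          · left
            rw [mul_one, min_eq_left hr.le, add_zero]; exact hg
          · right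
            rw [max_eq_left (by linarith), add_zero]; exact hg
        rcases fin3_cases hlt'.ne ht.1.symm ht.2.symm k with e | e | e
        · rw [e, qlo_left hlt'.ne, qhi_left hlt'.ne]
          exact key h (by rw [hne])
        · rw [e, qlo_right hlt'.ne, qhi_right hlt'.ne]
          exact key h' (by rw [hne])
        · exact absurd e hk'
    · right
      refine axis_of_nearCyc hS (c i).near ?_ hne
      rw [← quarter_inter (c i).pos.le hlt'.ne] at hzI
      exact lt_of_le_of_lt (mem_closedBall.1 hzI.2) (c i).lt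

/-- all rectangles outside the special squares are small -/
theorem fine_rect {a : (H.D c hcov hlf).S.A}
    {x : {x : α × HA × HA // (c x.1).Q x.2.1 x.2.2 ∧ x.2.1.1 < x.2.2.1}}
    (ha : (H.D c hcov hlf).pr a = Sum.inr x) {z z' : V3} (hz : z ∈ (H.D c hcov hlf).S.rect a)
    (hz' : z' ∈ (H.D c hcov hlf).S.rect a) : dist z z' < ε z := by
  have h1 := (H.D c hcov hlf).P_subset _ ((H.D c hcov hlf).rect_subset a hz)
  have h2 := (H.D c hcov hlf).P_subset _ ((H.D c hcov hlf).rect_subset a hz')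
  rw [ha] at h1 h2
  have e1 : dist z (c x.1.1).p ≤ (c x.1.1).r := (icc_ball (c x.1.1).pos.le).1 h1.2
  have e2 : dist z' (c x.1.1).p ≤ (c x.1.1).r := (icc_ball (c x.1.1).pos.le).1 h2.2
  exact (c x.1.1).small z h1.1 z' h2.1 e1 e2

end SpIn

/-! ### the radii of the diamonds -/

/-- **choice of the radii** -/
theorem exists_TD {F : Set V3} {S : Rects} (hF : RectLocal F) (hS : RectSurf F S)
    (hg : GoodCorners S) {b : V3 → ℝ} (hb : ∀ p ∈ F, 0 < b p) :
    ∃ D : TD F S, ∀ p ∈ S.P4, D.d p < b p := by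
  have hP4 : ∀ p ∈ S.P4, p ∈ F := by
    rintro p ⟨a, _, _, _, _, _, _, _, _, _, ha, _⟩
    exact hS.mem ha
  have key : ∀ p ∈ S.P4, ∃ d : ℝ, 0 < d ∧ d < b p ∧ (∃ ε, d < ε ∧ ∃ Q, NearCyc F p ε Q) ∧
      (∀ a, ∀ x ∈ S.rect a, l1 (x - p) ≤ d → p ∈ S.rect a) ∧
      ∀ a, p ∈ S.rect a → ∀ k, k ≠ S.nrm a → 2 * d < S.hi a k - S.lo a k := by
    intro p hp
    have hpF := hP4 p hp
    obtain ⟨ε, hε, Q, hQ⟩ := hF p hpF
    obtain ⟨U, hU, hfin⟩ := hS.fin p hpF
    have h1 : ∀ᶠ x in 𝓝 p, ∀ a, x ∈ S.rect a → p ∈ S.rect a := by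
      have h2 : ∀ᶠ x in 𝓝 p, ∀ a ∈ {a | (S.rect a ∩ U).Nonempty}, x ∈ S.rect a →
          p ∈ S.rect a := by
        refine (eventually_all_finite hfin).2 fun a _ => ?_
        by_cases ha : p ∈ S.rect a
        · exact Eventually.of_forall fun _ _ => ha
        · filter_upwards [(isClosed_rect S a).isOpen_compl.mem_nhds ha] with x hx hx'
          exact absurd hx' hx
      filter_upwards [h2, hU] with x h3 h4 a ha
      exact h3 a ⟨x, ha, h4⟩ ha
    rw [Metric.eventually_nhds_iff] at h1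
    obtain ⟨η, hη, h1⟩ := h1
    have h3 : ∀ᶠ d in 𝓝[>] (0:ℝ), ∀ a ∈ {a | (S.rect a ∩ U).Nonempty}, ∀ k, k ≠ S.nrm a →
        2 * d < S.hi a k - S.lo a k := by
      refine (eventually_all_finite hfin).2 fun a _ => eventually_all.2 fun k => ?_
      by_cases hk : k = S.nrm a
      · exact Eventually.of_forall fun _ h => absurd hk h
      · have hw := S.wide a k hk
        have hlt : 0 < (S.hi a k - S.lo a k) / 2 := by linarith
        filter_upwards [Ioo_mem_nhdsGT hlt] with d hd _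
        have := hd.2
        linarith
    have h4 : ∀ᶠ d in 𝓝[>] (0:ℝ), 0 < d ∧ d < min (b p) (min ε η) := by
      filter_upwards [Ioo_mem_nhdsGT (lt_min (hb p hpF) (lt_min hε hη))] with d hd
      exact hd
    obtain ⟨d, h5, h6, h7⟩ := (h3.and h4).exists
    rw [lt_min_iff, lt_min_iff] at h7
    refine ⟨d, h6, h7.1, ⟨ε, h7.2.1, Q, hQ⟩, fun a x hx hxd => ?_, fun a ha => ?_⟩
    · exact h1 (lt_of_le_of_lt (dist_le_l1 _ _) (lt_of_le_of_lt hxd h7.2.2)) a hx
    · exact h5 a ⟨p, ha, mem_of_mem_nhds hU⟩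
  choose! d h1 h2 h3 h4 h5 using key
  classical
  refine ⟨⟨hS, fun p => if p ∈ S.P4 then d p else 0, fun p hp => if_neg hp, ?_, ?_, ?_⟩, ?_⟩
  · intro p hp
    rw [if_pos hp]
    exact ⟨h1 p hp, h3 p hp⟩
  · intro p hp
    rw [if_pos hp]
    exact h4 p hp
  · intro p hp a ha
    rw [if_pos hp]
    exact ⟨hS.corner_of_P4 hg hp ha, h5 p hp a ha⟩
  · intro p hp
    show (if p ∈ S.P4 then d p else 0) < b p
    rw [if_pos hp]
    exact h2 p hp

end P073.MOS
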